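import Vale.Agent.P161.Critical.Edges
import Vale.Agent.P161.Model

/-!
Above the reconstruction threshold the free Ising state is not a factor of IID: the correlations
of a factor of IID decay at least at the critical rate.
-/

open MeasureTheory ProbabilityTheory SimpleGraph Filter
open scoped Topology RealInnerProductSpace

set_option linter.unusedSectionVars false

namespace Vale.Agent.P161

universe u

variable {V : Type u} [DecidableEq V] {G : SimpleGraph V} [DecidableRel G.Adj] {θ : ℝ} {d : ℕ}
variable {ν : Measure (V → Bool)} [IsProbabilityMeasure ν]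

/-- The two-point function of the free Ising measure. -/
lemma correlation (h : Reg G d) (hν : HasMarginals G θ ν) (hθ : |θ| < 1) (u v : V) :
    ∫ σ, spin (σ u) * spin (σ v) ∂ν = θ ^ G.dist u v := by
  have hG := h.tree
  suffices H : ∀ l v, G.dist u v = l → ∃ D, Conn G D ∧ u ∈ D ∧ v ∈ D ∧ (∀ x ∈ D, G.dist u x ≤ l) ∧
      S D (fun η => w G θ D η * (spin (η u) * spin (η v))) = θ ^ l by
    obtain ⟨D, hD, hu, hv, -, e⟩ := H _ v rfl
    rw [hν.integral_eq hθ hD (f := fun η => spin (η u) * spin (η v))
      (fun η η' he => by simp only [he u hu, he v hv]), e]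
  intro l
  induction l with
  | zero =>
    intro v hv
    obtain rfl := (hG.connected u v).dist_eq_zero_iff.1 hv
    refine ⟨{u}, conn_singleton u, Finset.mem_singleton_self u, Finset.mem_singleton_self u,
      fun x hx => ?_, ?_⟩
    · rw [Finset.mem_singleton.1 hx, SimpleGraph.dist_self]
    · have e := hν.integral_eq hθ (conn_singleton u) (f := fun η => spin (η u) * spin (η u))
        (fun η η' he => by simp only [he u (Finset.mem_singleton_self u)])
      simp only [spin_mul_self, integral_const, probReal_univ, smul_eq_mul, mul_one] at e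
      simp only [spin_mul_self, pow_zero, mul_one]
      exact e.symm
  | succ l ih =>
    intro v hv
    obtain ⟨p, hp, hpu⟩ := exists_adj_closer hG (v := v) (u := u) (k := l) (by rw [G.dist_comm, hv])
    obtain ⟨D, hD, hu, hpD, hball, e⟩ := ih p (by rw [G.dist_comm, hpu])
    have hvD : v ∉ D := fun hh => by have := hball v hh; omega
    refine ⟨insert v D, hD.insert hpD hp, Finset.mem_insert_of_mem hu,
      Finset.mem_insert_self _ _, fun x hx => ?_, ?_⟩
    · rcases Finset.mem_insert.1 hx with rfl | hx
      · omega
      · have := hball x hx; omega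
    rw [S_insert hvD, pow_succ, ← e]
    simp only [S, Finset.sum_mul]
    refine Finset.sum_congr rfl fun A _ => ?_
    have hag : ∀ b, ∀ x ∈ D, Function.update (chi A) v b x = chi A x := fun b x hx =>
      Function.update_of_ne (fun e : x = v => hvD (e ▸ hx)) _ _
    simp only [w_insert hG hD hvD hpD hp, depOn_w G θ D _ _ (hag false),
      depOn_w G θ D _ _ (hag true), edgeW_mk, Function.update_self, hag false p hpD,
      hag true p hpD, hag false u hu, hag true u hu]
    cases chi A p <;> cases chi A u <;> simp [spin] <;> ring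

lemma mean_spin (hν : HasMarginals G θ ν) (hθ : |θ| < 1) (u : V) :
    ∫ σ, spin (σ u) ∂ν = 0 := by
  rw [hν.integral_eq hθ (conn_singleton u) (f := fun η => spin (η u))
    (fun η η' he => by simp only [he u (Finset.mem_singleton_self u)])]
  have he : edgesIn G {u} = ∅ := edgesIn_singleton u
  have e : ({u} : Finset V) = insert u ∅ := rfl
  rw [e] at he ⊢
  rw [S_insert (Finset.notMem_empty u)]
  simp [S, w, edgesIn_singleton, spin]

/-! ### Local approximations of a factor of IID -/

/-- Uniform labels on the vertices. -/
noncomputable def unifM (V : Type u) : Measure (V → unitInterval) :=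
  Measure.infinitePi fun _ : V => (volume : Measure unitInterval)

instance (V : Type u) : IsProbabilityMeasure (unifM V) := by
  unfold unifM; infer_instance

/-- An automorphism acting on labels. -/
def relabel (γ : G ≃g G) (x : V → unitInterval) : V → unitInterval := fun v => x (γ.symm v)

lemma measurePreserving_relabel (γ : G ≃g G) :
    MeasurePreserving (relabel γ) (unifM V) (unifM V) := by
  have hm : Measurable (relabel γ) := measurable_pi_lambda _ fun v => measurable_pi_apply _
  refine ⟨hm, Measure.eq_infinitePi _ fun s t ht => ?_⟩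
  rw [Measure.map_apply hm (MeasurableSet.pi s.countable_toSet fun i _ => ht i)]
  have : relabel γ ⁻¹' Set.pi s t = Set.pi (s.image γ.symm) (fun q => t (γ q)) := by
    ext z
    simp only [Set.mem_preimage, Set.mem_pi, Finset.mem_coe, Finset.forall_mem_image, relabel]
    exact forall₂_congr fun p _ => by simp
  rw [this, unifM, Measure.infinitePi_pi _ fun i _ => ht _,
    Finset.prod_image γ.symm.injective.injOn]
  refine Finset.prod_congr rfl fun p _ => ?_
  simp

/-- Keep the labels in a finite set. -/
def keep (D : Finset V) (x : V → unitInterval) : V → unitInterval :=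
  fun v => if v ∈ D then x v else 0

lemma measurable_keep (D : Finset V) : Measurable (keep D) := by
  refine measurable_pi_lambda _ fun v => ?_
  unfold keep
  by_cases hv : v ∈ D
  · simp only [if_pos hv]; exact measurable_pi_apply v
  · simp only [if_neg hv]; exact measurable_const

/-- The σ-algebra of the labels in a finite set. -/
abbrev keepAlg (D : Finset V) : MeasurableSpace (V → unitInterval) :=
  MeasurableSpace.comap (keep D) inferInstance

/-- The projection on the labels in a finite set. -/
noncomputable def locE (D : Finset V) (f : (V → unitInterval) → ℝ) : (V → unitInterval) → ℝ :=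
  fun x => clip ((unifM V)[f|keepAlg D] x)

lemma abs_locE_le (D : Finset V) (f : (V → unitInterval) → ℝ) (x : V → unitInterval) :
    |locE D f x| ≤ 1 := abs_clip_le _

lemma measurable_locE_keep (D : Finset V) (f : (V → unitInterval) → ℝ) :
    Measurable[keepAlg D] (locE D f) :=
  measurable_clip.comp stronglyMeasurable_condExp.measurable

lemma measurable_locE (D : Finset V) (f : (V → unitInterval) → ℝ) : Measurable (locE D f) :=
  (measurable_locE_keep D f).mono (measurable_keep D).comap_le le_rfl

lemma integrable_unif {f : (V → unitInterval) → ℝ} (hf : Measurable f) {C : ℝ}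
    (hC : ∀ x, |f x| ≤ C) : Integrable f (unifM V) :=
  Integrable.of_bound hf.aestronglyMeasurable C (Eventually.of_forall hC)

lemma locE_ae {D : Finset V} {f : (V → unitInterval) → ℝ} (hf : ∀ x, |f x| ≤ 1) :
    locE D f =ᵐ[unifM V] (unifM V)[f|keepAlg D] := by
  filter_upwards [ae_bdd_abs_condExp_of_ae_bdd_abs (μ := unifM V) (m := keepAlg D) (R := 1)
    (Eventually.of_forall hf)] with x hx
  obtain ⟨h1, h2⟩ := abs_le.1 hx
  rw [locE, clip, min_eq_right (by simpa using h2), max_eq_right (by simpa using h1)]

/-- The projections transform covariantly. -/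
lemma locE_relabel (γ : G ≃g G) (D : Finset V) {f f' : (V → unitInterval) → ℝ}
    (hfm : Measurable f) (hf : ∀ x, |f x| ≤ 1) (hf'm : Measurable f') (hf' : ∀ x, |f' x| ≤ 1)
    (he : ∀ᵐ x ∂unifM V, f' (relabel γ x) = f x) :
    ∀ᵐ x ∂unifM V, locE (D.image γ) f' (relabel γ x) = locE D f x := by
  have hT := measurePreserving_relabel γ
  have hk : ∀ x, keep (D.image γ) (relabel γ x) = relabel γ (keep D x) := by
    intro x
    funext v
    have : v ∈ D.image γ ↔ γ.symm v ∈ D := by
      simp only [Finset.mem_image]
      exact ⟨by rintro ⟨a, ha, rfl⟩; simpa using ha, fun hh => ⟨_, hh, by simp⟩⟩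
    simp only [keep, relabel, this]
  obtain ⟨φ, hφ, hφe⟩ := (measurable_locE_keep (D.image γ) f').exists_eq_measurable_comp
  have hhi : Integrable (fun x => locE (D.image γ) f' (relabel γ x)) (unifM V) :=
    integrable_unif ((measurable_locE _ f').comp hT.measurable) fun x => abs_locE_le _ _ _
  refine EventuallyEq.trans ?_ (locE_ae hf).symm
  refine ae_eq_condExp_of_forall_setIntegral_eq (measurable_keep D).comap_le
    (integrable_unif hfm hf) (fun _ _ _ => hhi.integrableOn) ?_ ?_
  · rintro s ⟨r, hr, rfl⟩ -
    set r' : Set (V → unitInterval) := relabel γ.symm ⁻¹' r with hr'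
    have hr'm : MeasurableSet r' := (measurePreserving_relabel γ.symm).measurable hr
    have hset : keep D ⁻¹' r = relabel γ ⁻¹' (keep (D.image γ) ⁻¹' r') := by
      ext x
      have e : relabel γ.symm (relabel γ (keep D x)) = keep D x := by funext v; simp [relabel]
      simp only [Set.mem_preimage, hr', hk, e]
    have hms : MeasurableSet (keep (D.image γ) ⁻¹' r') := measurable_keep _ hr'm
    have key : ∀ F : (V → unitInterval) → ℝ, Measurable F →
        ∫ x in keep D ⁻¹' r, F (relabel γ x) ∂unifM V
          = ∫ x in keep (D.image γ) ⁻¹' r', F x ∂unifM V := by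
      intro F hF
      rw [hset]
      conv_rhs => rw [← hT.map_eq]
      rw [setIntegral_map hms hF.aestronglyMeasurable hT.measurable.aemeasurable]
    rw [key _ (measurable_locE _ f'),
      setIntegral_congr_ae hms ((locE_ae (D := D.image γ) hf').mono fun x e _ => e),
      setIntegral_condExp (measurable_keep _).comap_le (integrable_unif hf'm hf') ⟨r', hr'm, rfl⟩,
      ← key _ hf'm]
    exact setIntegral_congr_ae (measurable_keep D hr) (he.mono fun x e _ => e)
  · refine ⟨fun x => φ (relabel γ (keep D x)),
      ((hφ.comp hT.measurable).comp (comap_measurable (keep D))).stronglyMeasurable, ?_⟩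
    refine Eventually.of_forall fun x => ?_
    simp only [hφe, Function.comp_apply, hk]

/-- Functions of disjoint sets of labels are independent. -/
lemma integral_locE_mul {D E : Finset V} (hDE : Disjoint D E) (f g : (V → unitInterval) → ℝ) :
    ∫ x, locE D f x * locE E g x ∂unifM V
      = (∫ x, locE D f x ∂unifM V) * ∫ x, locE E g x ∂unifM V := by
  have hind : iIndepFun (fun (i : V) (x : V → unitInterval) => x i) (unifM V) :=
    iIndepFun_infinitePi (X := fun _ : V => id) (fun _ => measurable_id)
  have h2 := hind.indepFun_finset D E hDE fun i => measurable_pi_apply i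
  have hext : ∀ S : Finset V, Measurable fun (a : S → unitInterval) (v : V) =>
      if hv : v ∈ S then a ⟨v, hv⟩ else 0 := fun S => by
    refine measurable_pi_lambda _ fun v => ?_
    by_cases hv : v ∈ S
    · simp only [dif_pos hv]; exact measurable_pi_apply _
    · simp only [dif_neg hv]; exact measurable_const
  have hrep : ∀ (S : Finset V) (k : (V → unitInterval) → ℝ),
      ∃ φ : (S → unitInterval) → ℝ, Measurable φ ∧ locE S k = fun x => φ fun i => x i := by
    intro S k
    obtain ⟨φ, hφ, hφe⟩ := (measurable_locE_keep S k).exists_eq_measurable_comp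
    refine ⟨_, hφ.comp (hext S), ?_⟩
    funext x
    rw [hφe, Function.comp_apply, Function.comp_apply]
    congr 1
  obtain ⟨φ, hφ, e1⟩ := hrep D f
  obtain ⟨ψ, hψ, e2⟩ := hrep E g
  have h3 := h2.comp hφ hψ
  rw [e1, e2]
  exact h3.integral_fun_mul_eq_mul_integral
    (hφ.comp (measurable_pi_lambda (fun (a : V → unitInterval) (i : D) => a i)
      fun i => measurable_pi_apply (i : V))).aestronglyMeasurable
    (hψ.comp (measurable_pi_lambda (fun (a : V → unitInterval) (i : E) => a i)
      fun i => measurable_pi_apply (i : V))).aestronglyMeasurable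

/-- The projections on growing balls converge in mean square. -/
lemma tendsto_locE (h : Reg G d) (o : V) {f : (V → unitInterval) → ℝ} (hfm : Measurable f)
    (hf : ∀ x, |f x| ≤ 1) :
    Tendsto (fun R => ∫ x, (locE (h.ball o R) f x - f x) ^ 2 ∂unifM V) atTop (𝓝 0) := by
  have hmono : ∀ {D E : Finset V}, D ⊆ E → keepAlg D ≤ keepAlg E := by
    intro D E hs
    have : keep D = keep D ∘ keep E := by
      funext x v
      by_cases hv : v ∈ D
      · simp [keep, hv, hs hv]
      · simp [keep, hv]
    rw [keepAlg, this, ← MeasurableSpace.comap_comp]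
    exact MeasurableSpace.comap_mono (measurable_keep D).comap_le
  let ℱ : Filtration ℕ (inferInstance : MeasurableSpace (V → unitInterval)) :=
    ⟨fun R => keepAlg (h.ball o R),
      fun i j hij => hmono fun x hx => h.mem_ball.2 ((h.mem_ball.1 hx).trans hij),
      fun R => (measurable_keep _).comap_le⟩
  have hsup : ∀ v, Measurable[⨆ R, ℱ R] fun x : V → unitInterval => x v := by
    intro v
    refine Measurable.mono (ma := ℱ (G.dist o v)) ?_ (le_iSup (fun R => ℱ R) _) le_rfl
    have e : (fun x : V → unitInterval => x v) = fun x => keep (h.ball o (G.dist o v)) x v := by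
      funext x; simp [keep, h.mem_ball]
    rw [e]
    exact (measurable_pi_apply v).comp (comap_measurable (keep (h.ball o (G.dist o v))))
  have hid : Measurable[⨆ R, ℱ R] (id : (V → unitInterval) → V → unitInterval) :=
    @measurable_pi_lambda _ _ _ (⨆ R, ℱ R) _ _ hsup
  have hlim := (integrable_unif hfm hf).tendsto_ae_condExp (ℱ := ℱ)
    (hfm.comp hid).stronglyMeasurable
  rw [show (0 : ℝ) = ∫ _x, (0 : ℝ) ∂unifM V by simp]
  refine tendsto_integral_of_dominated_convergence (fun _ => (4 : ℝ))
    (fun R => ((measurable_locE _ f).sub hfm).pow_const 2 |>.aestronglyMeasurable)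
    (integrable_const _) (fun R => Eventually.of_forall fun x => ?_) ?_
  · rw [Real.norm_eq_abs, abs_pow]
    have := (abs_sub _ _).trans (add_le_add (abs_locE_le (h.ball o R) f x) (hf x))
    nlinarith [abs_nonneg (locE (h.ball o R) f x - f x)]
  · filter_upwards [hlim] with x hx
    have h1 : Tendsto (fun R => locE (h.ball o R) f x) atTop (𝓝 (f x)) := by
      have := (tendsto_const_nhds (x := (-1 : ℝ))).max ((tendsto_const_nhds (x := (1 : ℝ))).min hx)
      obtain ⟨h1, h2⟩ := abs_le.1 (hf x)
      simpa [locE, clip, min_eq_right h2, max_eq_right h1] using this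
    simpa using (h1.sub_const (f x)).pow 2

/-- A square integrable representative. -/
lemma inner_toLp {f g : (V → unitInterval) → ℝ} (hf : MemLp f 2 (unifM V))
    (hg : MemLp g 2 (unifM V)) :
    ⟪hf.toLp f, hg.toLp g⟫ = ∫ x, f x * g x ∂unifM V := by
  rw [L2.inner_def]
  refine integral_congr_ae ?_
  filter_upwards [hf.coeFn_toLp, hg.coeFn_toLp] with x e1 e2
  rw [e1, e2]
  simp [mul_comm]

/-- A factor of IID has no more than the critical edge parameter. -/
theorem bn_mul_sq_le_one_of_factor (h : Reg G d) (hd : 3 ≤ d) (hν : HasMarginals G θ ν)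
    (h0 : 0 ≤ θ) (h1 : θ < 1) (hF : IsFactorOfIID G ν) : bn d * θ ^ 2 ≤ 1 := by
  have hθ : |θ| < 1 := by rw [abs_of_nonneg h0]; exact h1
  obtain ⟨Φ, hΦm, hΦe, hlaw⟩ := hF
  have hlaw' : ν = (unifM V).map Φ := hlaw
  set X : V → (V → unitInterval) → ℝ := fun u x => spin (Φ x u) with hX
  have hXm : ∀ u, Measurable (X u) := fun u => (measurable_spin_eval u).comp hΦm
  have hXb : ∀ u x, |X u x| ≤ 1 := fun u x => (abs_spin _).le
  have hXeq : ∀ (γ : G ≃g G) u, ∀ᵐ x ∂unifM V, X (γ u) (relabel γ x) = X u x := by
    intro γ u
    filter_upwards [hΦe γ] with x hx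
    simp only [hX]
    rw [show Φ (relabel γ x) = fun v => Φ x (γ.symm v) from hx]
    simp
  have hcorr : ∀ u v, ∫ x, X u x * X v x ∂unifM V = θ ^ G.dist u v := by
    intro u v
    rw [← correlation h hν hθ u v, hlaw', integral_map hΦm.aemeasurable
      (f := fun σ => spin (σ u) * spin (σ v))
      ((measurable_spin_eval u).mul (measurable_spin_eval v)).aestronglyMeasurable]
  have hmean : ∀ u, ∫ x, X u x ∂unifM V = 0 := by
    intro u
    rw [← mean_spin hν hθ u, hlaw', integral_map hΦm.aemeasurable
      (f := fun σ => spin (σ u)) (measurable_spin_eval u).aestronglyMeasurable]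
  set E : ℕ → V → (V → unitInterval) → ℝ := fun R u => locE (h.ball u R) (X u) with hE
  have hball : ∀ (γ : G ≃g G) u R, (h.ball u R).image γ = h.ball (γ u) R := by
    intro γ u R
    ext x
    simp only [Finset.mem_image, h.mem_ball]
    constructor
    · rintro ⟨a, ha, rfl⟩; rwa [dist_iso]
    · intro hx
      refine ⟨γ.symm x, ?_, by simp⟩
      rw [← dist_iso γ]
      simpa using hx
  have hEeq : ∀ (γ : G ≃g G) R u, ∀ᵐ x ∂unifM V, E R (γ u) (relabel γ x) = E R u x := by
    intro γ R u
    have := locE_relabel γ (h.ball u R) (hXm u) (hXb u) (hXm (γ u)) (hXb (γ u)) (hXeq γ u)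
    rwa [hball] at this
  have htrans : ∀ (γ : G ≃g G) (k k' : (V → unitInterval) → ℝ), Measurable k' →
      (∀ᵐ x ∂unifM V, k' (relabel γ x) = k x) → ∫ x, k' x ∂unifM V = ∫ x, k x ∂unifM V := by
    intro γ k k' hk' he
    rw [← (measurePreserving_relabel γ).map_eq, integral_map
      (measurePreserving_relabel γ).measurable.aemeasurable hk'.aestronglyMeasurable,
      (measurePreserving_relabel γ).map_eq]
    exact integral_congr_ae he
  obtain ⟨o⟩ := h.tree.connected.nonempty
  have hXL : ∀ u, MemLp (X u) 2 (unifM V) := fun u =>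
    MemLp.of_bound (hXm u).aestronglyMeasurable 1 (Eventually.of_forall (hXb u))
  have hEL : ∀ R u, MemLp (E R u) 2 (unifM V) := fun R u =>
    MemLp.of_bound (measurable_locE _ _).aestronglyMeasurable 1
      (Eventually.of_forall fun x => abs_locE_le _ _ x)
  set Xv : V → Lp ℝ 2 (unifM V) := fun u => (hXL u).toLp (X u) with hXv
  have hnormX : ∀ u, ‖Xv u‖ ≤ 1 := by
    intro u
    have : ‖Xv u‖ ^ 2 = 1 := by
      rw [← real_inner_self_eq_norm_sq, inner_toLp, hcorr, SimpleGraph.dist_self, pow_zero]
    nlinarith [norm_nonneg (Xv u)]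
  have hkey : ∀ u v, |⟪Xv u, Xv v⟫| ≤ 8 * (G.dist u v + 1) * rho d ^ G.dist u v * (1 : ℝ) ^ 2 := by
    refine h.radial_bound_approx hd (fun ε hε => ?_) hnormX
    obtain ⟨R, hR⟩ := ((tendsto_locE h o (hXm o) (hXb o)).eventually
      (eventually_le_nhds (show (0 : ℝ) < ε ^ 2 by positivity))).exists
    choose z hz using h.exists_dist o
    refine ⟨fun u => (hEL R u).toLp (E R u),
      fun l => ∫ x, E R o x * E R (z l) x ∂unifM V, fun u v => ?_, ?_, fun u => ?_⟩
    · rw [inner_toLp]
      obtain ⟨γ, hγ1, hγ2⟩ := h.exists_iso (o := o) (u := z (G.dist u v)) (o' := u) (u' := v)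
        (hz _)
      refine htrans γ _ _ ((measurable_locE _ _).mul (measurable_locE _ _)) ?_
      filter_upwards [hEeq γ R o, hEeq γ R (z (G.dist u v))] with x e1 e2
      rw [hγ1] at e1
      rw [hγ2] at e2
      show E R u (relabel γ x) * E R v (relabel γ x) = _
      rw [e1, e2]
    · refine ⟨(rho d ^ (2 * R + 1))⁻¹, fun l => ?_⟩
      show |∫ x, E R o x * E R (z l) x ∂unifM V| ≤ _
      have hρ := rho_pos hd
      have hs := sph_nonneg hd l
      rcases le_or_gt l (2 * R) with hl | hl
      · have h2 : |∫ x, E R o x * E R (z l) x ∂unifM V| ≤ 1 := by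
          refine (abs_integral_le_integral_abs).trans ((integral_mono_of_nonneg
            (Eventually.of_forall fun _ => abs_nonneg _) (integrable_const (1 : ℝ))
            (Eventually.of_forall fun x => ?_)).trans_eq (by simp))
          simp only [hE, abs_mul]
          exact mul_le_one₀ (abs_locE_le _ _ _) (abs_nonneg _) (abs_locE_le _ _ _)
        refine h2.trans ?_
        rw [inv_mul_eq_div, le_div_iff₀ (by positivity), one_mul]
        exact (pow_le_pow_of_le_one hρ.le (rho_lt_one hd).le (by omega)).trans (rho_pow_le_sph hd l)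
      · have hdis : Disjoint (h.ball o R) (h.ball (z l) R) := by
          rw [Finset.disjoint_left]
          intro x hx hx'
          rw [h.mem_ball] at hx hx'
          have := h.tree.connected.dist_triangle (u := o) (v := x) (w := z l)
          rw [hz, G.dist_comm (u := x)] at this
          omega
        have hz0 : ∫ x, E R o x ∂unifM V = 0 := by
          rw [← hmean o]
          refine (integral_congr_ae (locE_ae (hXb o))).trans ?_
          exact integral_condExp (measurable_keep _).comap_le
        rw [show (∫ x, E R o x * E R (z l) x ∂unifM V) = 0 by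
          simp only [hE] at hz0 ⊢
          rw [integral_locE_mul hdis, hz0, zero_mul]]
        rw [abs_zero]
        positivity
    · refine le_of_pow_le_pow_left₀ two_ne_zero hε.le ?_
      have hsub := (hEL R u).sub (hXL u)
      rw [hXv, ← MemLp.toLp_sub, ← real_inner_self_eq_norm_sq, inner_toLp]
      obtain ⟨γ, hγ, -⟩ := h.exists_iso (o := o) (u := o) (o' := u) (u' := u) (by simp)
      refine le_trans (le_of_eq ?_) hR
      refine htrans γ _ _ (((measurable_locE _ _).sub (hXm u)).mul
        ((measurable_locE _ _).sub (hXm u))) ?_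
      filter_upwards [hEeq γ R o, hXeq γ o] with x e1 e2
      rw [hγ] at e1 e2
      show (E R u (relabel γ x) - X u (relabel γ x)) * (E R u (relabel γ x) - X u (relabel γ x)) = _
      rw [e1, e2, sq]
  by_contra hlt
  rw [not_le] at hlt
  have hρ := rho_pos hd
  have hgt : rho d < θ := by
    by_contra hle
    rw [not_lt] at hle
    have h2 := mul_le_mul_of_nonneg_left (pow_le_pow_left₀ h0 hle 2)
      (show (0 : ℝ) ≤ bn d by linarith [two_le_bn hd])
    rw [rho_sq hd] at h2
    linarith
  set q := rho d / θ with hq
  have hθpos : 0 < θ := hρ.trans hgt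
  have hq1 : q < 1 := (div_lt_one hθpos).2 hgt
  have hq0 : 0 ≤ q := by positivity
  have hlimq : Tendsto (fun l : ℕ => 8 * ((l : ℝ) + 1) * q ^ l) atTop (𝓝 0) := by
    have a1 := tendsto_self_mul_const_pow_of_lt_one hq0 hq1
    have a2 := tendsto_pow_atTop_nhds_zero_of_lt_one hq0 hq1
    have := (a1.add a2).const_mul 8
    simp only [add_zero, mul_zero] at this
    refine this.congr fun l => ?_
    ring
  obtain ⟨l, hl⟩ := (hlimq.eventually (eventually_lt_nhds one_pos)).exists
  obtain ⟨z, hz⟩ := h.exists_dist o l
  have := hkey o z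
  rw [inner_toLp, hcorr, hz, abs_of_nonneg (by positivity), one_pow, mul_one] at this
  have h3 : 8 * ((l : ℝ) + 1) * rho d ^ l = 8 * ((l : ℝ) + 1) * q ^ l * θ ^ l := by
    rw [hq, div_pow]
    field_simp
  rw [h3] at this
  have h4 : 0 < θ ^ l := pow_pos hθpos l
  nlinarith

end Vale.Agent.P161
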