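import Vale.Agent.P161.Critical.Innov
import Vale.Agent.P161.Equivariant

/-!
The innovations and the projections on their σ-algebras commute with automorphisms.
-/

open MeasureTheory ProbabilityTheory SimpleGraph Filter
open scoped Topology

set_option linter.unusedSectionVars false

namespace Vale.Agent.P161

universe u

variable {V : Type u} [DecidableEq V] {G : SimpleGraph V} [DecidableRel G.Adj] {θ : ℝ} {d : ℕ}
variable {ν : Measure (V → Bool)} [IsProbabilityMeasure ν]

lemma measurable_bObs (t : ℝ) : Measurable (bObs G θ ν t) :=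
  (comap_measurable (bObs G θ ν t)).mono (bAlg_le t) le_rfl

/-- An innovation increment transforms covariantly. -/
lemma vers_gact (h : Reg G d) (hν : HasMarginals G θ ν) (hθ : |θ| < 1) (g : G ≃g G)
    (p : V × ℕ × ℕ) :
    ∀ᵐ ω ∂probM ν, vers G θ ν p (gact g ω) = vers G θ ν (g.symm p.1, p.2) ω := by
  filter_upwards [(measurePreserving_gact h hν g).quasiMeasurePreserving.ae (vers_ae h hν hθ p),
    vers_ae h hν hθ (g.symm p.1, p.2), innLim_gact h hν hθ g] with ω e1 e2 e3
  rw [e1, e2, binc, binc, funext e3]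
  rfl

/-- The innovations up to a time transform covariantly. -/
lemma bObs_gact (h : Reg G d) (hν : HasMarginals G θ ν) (hθ : |θ| < 1) (g : G ≃g G) (t : ℝ) :
    ∀ᵐ ω ∂probM ν, bObs G θ ν t (gact g ω) = gnoise g (bObs G θ ν t ω) := by
  have := h.countable
  filter_upwards [ae_all_iff.2 fun p => vers_gact h hν hθ g p] with ω hω
  funext p
  simp only [bObs, gnoise, hω p]
  rfl

/-- The projection on the innovations transforms covariantly. -/
lemma bE_gact (h : Reg G d) (hν : HasMarginals G θ ν) (hθ : |θ| < 1) (g : G ≃g G) (t : ℝ)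
    {f : Omega V → ℝ} (hfm : Measurable f) (hf : ∀ ω, |f ω| ≤ 1) :
    ∀ᵐ ω ∂probM ν, bE G θ ν t f (gact g ω) = bE G θ ν t (fun η => f (gact g η)) ω := by
  have hT := measurePreserving_gact h hν g
  have hb := bObs_gact h hν hθ g t
  have hle := bAlg_le (G := G) (θ := θ) (ν := ν) t
  have hbm := measurable_bObs (G := G) (θ := θ) (ν := ν) t
  obtain ⟨φ, hφ, hφe⟩ := (measurable_bE_b (G := G) (θ := θ) (ν := ν) t f).exists_eq_measurable_comp
  have hfT : Measurable fun η => f (gact g η) := hfm.comp hT.measurable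
  refine EventuallyEq.trans ?_
    (bE_ae (G := G) (θ := θ) (t := t) (Eventually.of_forall fun ω => hf (gact g ω))).symm
  have hhi : Integrable (fun ω => bE G θ ν t f (gact g ω)) (probM ν) :=
    integrable_bdd ((measurable_bE t f).comp hT.measurable) fun ω => abs_bE_le t f _
  refine ae_eq_condExp_of_forall_setIntegral_eq hle
    (integrable_bdd hfT fun ω => hf _) (fun _ _ _ => hhi.integrableOn) ?_ ?_
  · rintro s ⟨r, hr, rfl⟩ -
    set r' : Set (V × ℕ × ℕ → ℝ) := gnoise g.symm ⁻¹' r with hr'
    have hr'm : MeasurableSet r' := measurable_gnoise g.symm hr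
    have hset : bObs G θ ν t ⁻¹' r =ᵐ[probM ν] gact g ⁻¹' (bObs G θ ν t ⁻¹' r') := by
      rw [eventuallyEq_set]
      filter_upwards [hb] with ω hω
      have e : gnoise g.symm (gnoise g (bObs G θ ν t ω)) = bObs G θ ν t ω := by
        funext p; simp [gnoise]
      simp only [Set.mem_preimage, hr', hω, e]
    have hms : MeasurableSet (bObs G θ ν t ⁻¹' r') := hbm hr'm
    have key : ∀ F : Omega V → ℝ, Measurable F →
        ∫ ω in bObs G θ ν t ⁻¹' r, F (gact g ω) ∂probM ν
          = ∫ ω in bObs G θ ν t ⁻¹' r', F ω ∂probM ν := by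
      intro F hF
      rw [setIntegral_congr_set hset]
      conv_rhs => rw [← hT.map_eq]
      rw [setIntegral_map hms hF.aestronglyMeasurable hT.measurable.aemeasurable]
    rw [key _ (measurable_bE t f), key _ hfm,
      setIntegral_congr_ae hms ((bE_ae (G := G) (θ := θ) (ν := ν) (t := t)
        (Eventually.of_forall hf)).mono fun ω e _ => e)]
    exact setIntegral_condExp hle (integrable_bdd hfm hf) ⟨r', hr'm, rfl⟩
  · refine ⟨fun ω => φ (gnoise g (bObs G θ ν t ω)),
      (((hφ.comp (measurable_gnoise g)).comp (comap_measurable (bObs G θ ν t)))).stronglyMeasurable,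
      ?_⟩
    filter_upwards [hb] with ω hω
    rw [hφe, Function.comp_apply, hω]

end Vale.Agent.P161
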