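import Vale.Agent.P161.Critical.Static
import Vale.Agent.P161.Critical.Invariant

/-!
Two copies of the system, independent given the innovations, and the ambiguity of messages.
-/

open MeasureTheory ProbabilityTheory SimpleGraph Filter
open scoped Topology

set_option linter.unusedSectionVars false

namespace Vale.Agent.P161

universe u

variable {V : Type u} [DecidableEq V] {G : SimpleGraph V} [DecidableRel G.Adj] {θ : ℝ} {d : ℕ}
variable {ν : Measure (V → Bool)} [IsProbabilityMeasure ν]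

instance : Nonempty (Omega V) := ⟨(fun _ => false, 0)⟩

/-- Two copies of the system which share the innovations up to time `t` and are independent
given them. -/
noncomputable def rep [Countable V] (G : SimpleGraph V) [DecidableRel G.Adj] (θ : ℝ)
    (ν : Measure (V → Bool)) [IsProbabilityMeasure ν] (t : ℝ) : Measure (Omega V × Omega V) :=
  probM ν ⊗ₘ (condDistrib id (bObs G θ ν t) (probM ν)).comap (bObs G θ ν t) (measurable_bObs t)

instance [Countable V] (t : ℝ) : IsProbabilityMeasure (rep G θ ν t) := by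
  unfold rep; infer_instance

/-- The first copy has the original law. -/
lemma rep_fst [Countable V] (t : ℝ) : (rep G θ ν t).fst = probM ν := by
  unfold rep; exact Measure.fst_compProd _ _

lemma abs_mul_le_one {a b : ℝ} (ha : |a| ≤ 1) (hb : |b| ≤ 1) : |a * b| ≤ 1 := by
  rw [abs_mul]; exact mul_le_one₀ ha (abs_nonneg _) hb

/-- Pairings of the two copies. -/
lemma integral_rep_mul [Countable V] (t : ℝ) {f g : Omega V → ℝ} (hfm : Measurable f)
    (hf : ∀ ω, |f ω| ≤ 1) (hgm : Measurable g) (hg : ∀ ω, |g ω| ≤ 1) :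
    ∫ p, f p.1 * g p.2 ∂rep G θ ν t = ∫ ω, f ω * bE G θ ν t g ω ∂probM ν := by
  set κ := (condDistrib id (bObs G θ ν t) (probM ν)).comap (bObs G θ ν t) (measurable_bObs t)
    with hκ
  have hi : Integrable (fun p : Omega V × Omega V => f p.1 * g p.2) (probM ν ⊗ₘ κ) :=
    integrable_bdd ((hfm.comp measurable_fst).mul (hgm.comp measurable_snd))
      fun p => abs_mul_le_one (hf p.1) (hg p.2)
  have hgi : Integrable g (probM ν) := integrable_bdd hgm hg
  show ∫ p, f p.1 * g p.2 ∂(probM ν ⊗ₘ κ) = _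
  rw [Measure.integral_compProd hi]
  refine integral_congr_ae ?_
  filter_upwards [condExp_ae_eq_integral_condDistrib_id (μ := probM ν)
      (measurable_bObs (G := G) (θ := θ) (ν := ν) t) hgi,
    bE_ae (G := G) (θ := θ) (t := t) (Eventually.of_forall hg)] with ω e1 e2
  rw [integral_const_mul, hκ, Kernel.comap_apply, ← e1, e2]

lemma measureReal_eq_integral {α : Type*} [MeasurableSpace α] {μ : Measure α} [IsFiniteMeasure μ]
    {s : Set α} (hs : MeasurableSet s) : μ.real s = ∫ x, s.indicator (fun _ => (1 : ℝ)) x ∂μ := by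
  rw [integral_indicator_const _ hs, smul_eq_mul, mul_one]

lemma abs_indicator_one_le {α : Type*} (s : Set α) (x : α) :
    |s.indicator (fun _ => (1 : ℝ)) x| ≤ 1 := by
  by_cases h : x ∈ s <;> simp [h]

lemma measurable_indicator_one {α : Type*} [MeasurableSpace α] {s : Set α} (hs : MeasurableSet s) :
    Measurable (s.indicator fun _ => (1 : ℝ)) := measurable_const.indicator hs

/-- The law of rectangles. -/
lemma rep_real_prod [Countable V] (t : ℝ) {s r : Set (Omega V)} (hs : MeasurableSet s)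
    (hr : MeasurableSet r) :
    (rep G θ ν t).real (s ×ˢ r) = ∫ ω, s.indicator (fun _ => (1 : ℝ)) ω
      * bE G θ ν t (r.indicator fun _ => (1 : ℝ)) ω ∂probM ν := by
  rw [measureReal_eq_integral (hs.prod hr), ← integral_rep_mul t (measurable_indicator_one hs)
    (abs_indicator_one_le s) (measurable_indicator_one hr) (abs_indicator_one_le r)]
  refine integral_congr_ae (Eventually.of_forall fun p => ?_)
  by_cases h1 : p.1 ∈ s <;> by_cases h2 : p.2 ∈ r <;> simp [h1, h2]

/-- The second copy has the original law. -/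
lemma rep_snd [Countable V] (t : ℝ) : (rep G θ ν t).snd = probM ν := by
  refine Measure.ext fun s hs => ?_
  rw [← measureReal_eq_measureReal_iff, measureReal_def, Measure.snd_apply hs,
    ← measureReal_def, ← Set.univ_prod, rep_real_prod t MeasurableSet.univ hs,
    measureReal_eq_integral hs]
  simp only [Set.indicator_univ, one_mul]
  have e := integral_mul_bE (G := G) (θ := θ) (ν := ν) (t := t) (F := fun _ => (1 : ℝ))
    (measurable_indicator_one hs) (abs_indicator_one_le s) measurable_const (integrable_const _)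
  simpa using e

lemma integral_rep_fst [Countable V] (t : ℝ) {f : Omega V → ℝ} (hfm : Measurable f) :
    ∫ p, f p.1 ∂rep G θ ν t = ∫ ω, f ω ∂probM ν := by
  conv_rhs => rw [← rep_fst (G := G) (θ := θ) t, Measure.fst]
  rw [integral_map measurable_fst.aemeasurable hfm.aestronglyMeasurable]

lemma integral_rep_snd [Countable V] (t : ℝ) {f : Omega V → ℝ} (hfm : Measurable f) :
    ∫ p, f p.2 ∂rep G θ ν t = ∫ ω, f ω ∂probM ν := by
  conv_rhs => rw [← rep_snd (G := G) (θ := θ) t, Measure.snd]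
  rw [integral_map measurable_snd.aemeasurable hfm.aestronglyMeasurable]

/-- The mean square distance to the projection. -/
lemma integral_sub_bE_sq {t : ℝ} {f : Omega V → ℝ} (hfm : Measurable f) (hf : ∀ ω, |f ω| ≤ 1) :
    ∫ ω, (f ω - bE G θ ν t f ω) ^ 2 ∂probM ν
      = ∫ ω, f ω ^ 2 ∂probM ν - ∫ ω, bE G θ ν t f ω ^ 2 ∂probM ν := by
  have i1 : Integrable (fun ω => f ω ^ 2) (probM ν) :=
    integrable_bdd (hfm.pow_const 2) fun ω => by
      rw [abs_pow]; exact pow_le_one₀ (abs_nonneg _) (hf ω)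
  have i2 : Integrable (fun ω => bE G θ ν t f ω ^ 2) (probM ν) :=
    integrable_bdd ((measurable_bE t f).pow_const 2) fun ω => by
      rw [abs_pow]; exact pow_le_one₀ (abs_nonneg _) (abs_bE_le t f ω)
  have i3 : Integrable (fun ω => bE G θ ν t f ω * f ω) (probM ν) :=
    integrable_bdd ((measurable_bE t f).mul hfm) fun ω => abs_mul_le_one (abs_bE_le t f ω) (hf ω)
  have e : ∀ ω, (f ω - bE G θ ν t f ω) ^ 2
      = f ω ^ 2 + bE G θ ν t f ω ^ 2 - 2 * (bE G θ ν t f ω * f ω) := fun ω => by ring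
  simp only [e]
  rw [integral_sub (f := fun ω => f ω ^ 2 + bE G θ ν t f ω ^ 2) (i1.add i2) (i3.const_mul 2),
    integral_add i1 i2, integral_const_mul, integral_bE_mul_self hfm hf]
  ring

/-- The mean square difference of the two copies. -/
lemma integral_rep_sub_sq [Countable V] (t : ℝ) {f : Omega V → ℝ} (hfm : Measurable f)
    (hf : ∀ ω, |f ω| ≤ 1) :
    ∫ p, (f p.1 - f p.2) ^ 2 ∂rep G θ ν t = 2 * ∫ ω, (f ω - bE G θ ν t f ω) ^ 2 ∂probM ν := by
  have hb : ∀ ω, |f ω ^ 2| ≤ 1 := fun ω => by rw [abs_pow]; exact pow_le_one₀ (abs_nonneg _) (hf ω)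
  have i1 : Integrable (fun p : Omega V × Omega V => f p.1 ^ 2) (rep G θ ν t) :=
    integrable_bdd ((hfm.comp measurable_fst).pow_const 2) fun p => hb p.1
  have i2 : Integrable (fun p : Omega V × Omega V => f p.2 ^ 2) (rep G θ ν t) :=
    integrable_bdd ((hfm.comp measurable_snd).pow_const 2) fun p => hb p.2
  have i3 : Integrable (fun p : Omega V × Omega V => f p.1 * f p.2) (rep G θ ν t) :=
    integrable_bdd ((hfm.comp measurable_fst).mul (hfm.comp measurable_snd))
      fun p => abs_mul_le_one (hf p.1) (hf p.2)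
  have e : ∀ p : Omega V × Omega V,
      (f p.1 - f p.2) ^ 2 = f p.1 ^ 2 + f p.2 ^ 2 - 2 * (f p.1 * f p.2) := fun p => by ring
  simp only [e]
  rw [integral_sub (f := fun p : Omega V × Omega V => f p.1 ^ 2 + f p.2 ^ 2) (i1.add i2)
      (i3.const_mul 2), integral_add i1 i2, integral_const_mul,
    integral_rep_mul t hfm hf hfm hf, integral_rep_fst t (f := fun ω => f ω ^ 2) (hfm.pow_const 2),
    integral_rep_snd t (f := fun ω => f ω ^ 2) (hfm.pow_const 2), integral_sub_bE_sq hfm hf]
  have := integral_bE_mul_self (G := G) (θ := θ) (ν := ν) (t := t) hfm hf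
  simp only [mul_comm (bE G θ ν t f _)] at this
  rw [this]
  ring

/-- The pair of copies is invariant under automorphisms. -/
lemma rep_gact [Countable V] (h : Reg G d) (hν : HasMarginals G θ ν) (hθ : |θ| < 1) (γ : G ≃g G)
    (t : ℝ) :
    MeasurePreserving (Prod.map (gact γ) (gact γ)) (rep G θ ν t) (rep G θ ν t) := by
  have hT := measurePreserving_gact h hν γ
  have hm : Measurable (Prod.map (gact γ) (gact γ)) := hT.measurable.prodMap hT.measurable
  refine ⟨hm, ?_⟩
  have := Measure.isProbabilityMeasure_map (μ := rep G θ ν t) hm.aemeasurable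
  refine Measure.ext_prod fun {s r} hs hr => ?_
  rw [← measureReal_eq_measureReal_iff, map_measureReal_apply hm (hs.prod hr)]
  rw [show Prod.map (gact γ) (gact γ) ⁻¹' s ×ˢ r = (gact γ ⁻¹' s) ×ˢ (gact γ ⁻¹' r) from rfl,
    rep_real_prod t (hT.measurable hs) (hT.measurable hr), rep_real_prod t hs hr]
  conv_rhs => rw [← hT.map_eq]
  rw [integral_map (f := fun ω => s.indicator (fun _ => (1 : ℝ)) ω
      * bE G θ ν t (r.indicator fun _ => (1 : ℝ)) ω) hT.measurable.aemeasurable
    ((measurable_indicator_one hs).mul (measurable_bE t _)).aestronglyMeasurable]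
  refine integral_congr_ae ?_
  filter_upwards [bE_gact h hν hθ γ t (measurable_indicator_one hr) (abs_indicator_one_le r)] with ω hω
  rw [hω]
  rfl

/-- The projection of the full magnetisation is the projection of the spin. -/
lemma bE_mu_ae (t : ℝ) (v : V) :
    bE G θ ν t (mu ν t Set.univ v) =ᵐ[probM ν] bE G θ ν t (sp v) := by
  refine (bE_ae (Eventually.of_forall fun ω => abs_mu_le t Set.univ v ω)).trans
    (EventuallyEq.trans ?_ (bE_ae (Eventually.of_forall (abs_sp_le v))).symm)
  exact (condExp_congr_ae (cE_ae (ν := ν) (abs_sp_le v))).trans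
    (condExp_condExp_of_le (bAlg_le_obsAlg t) (obsAlg_le t Set.univ))

/-- The ambiguity as a mean square distance. -/
lemma amb_eq_integral (t : ℝ) (v : V) :
    amb G θ ν t v
      = ∫ ω, (mu ν t Set.univ v ω - bE G θ ν t (mu ν t Set.univ v) ω) ^ 2 ∂probM ν := by
  rw [integral_sub_bE_sq (measurable_mu t _ v) (abs_mu_le t _ v), amb, qm, pB]
  congr 1
  refine integral_congr_ae ((bE_mu_ae (G := G) (θ := θ) t v).mono fun ω e => ?_)
  simp only [e]

lemma amb_nonneg (t : ℝ) (v : V) : 0 ≤ amb G θ ν t v := by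
  rw [amb_eq_integral]; exact integral_nonneg fun _ => sq_nonneg _

/-- The ambiguity does not depend on the vertex. -/
lemma amb_eq (h : Reg G d) (hν : HasMarginals G θ ν) (hθ : |θ| < 1) (t : ℝ) (v u : V) :
    amb G θ ν t v = amb G θ ν t u := by
  obtain ⟨γ, hγ, -⟩ := h.exists_iso (show G.dist v v = G.dist u u by simp)
  have hT := measurePreserving_gact h hν γ
  have tr : ∀ F : Omega V → ℝ, Measurable F →
      ∫ ω, F (gact γ ω) ∂probM ν = ∫ ω, F ω ∂probM ν := fun F hF => by
    conv_rhs => rw [← hT.map_eq]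
    rw [integral_map hT.measurable.aemeasurable hF.aestronglyMeasurable]
  have e1 : qm ν t Set.univ v = qm ν t Set.univ u := by
    unfold qm
    rw [← tr _ ((measurable_mu t Set.univ u).pow_const 2)]
    refine integral_congr_ae ?_
    filter_upwards [mu_gact h hν γ t Set.univ v] with ω hω
    rw [Set.image_univ, γ.surjective.range_eq, hγ] at hω
    rw [hω]
  have e2 : pB G θ ν t v = pB G θ ν t u := by
    unfold pB
    rw [← tr _ ((measurable_bE t (sp u)).pow_const 2)]
    refine integral_congr_ae ?_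
    filter_upwards [bE_gact h hν hθ γ t (measurable_sp (γ v)) (abs_sp_le (γ v))] with ω hω
    rw [sp_gact, hγ] at hω
    rw [hω]
  rw [amb, amb, e1, e2]

/-- The scaled pairing determines the denominator stably. -/
lemma denom_stable {θ R D D' A B A' B' : ℝ} (hθ : |θ| < 1)
    (eD : D - 1 = θ * (A * B) * D ^ 2) (eD' : D' - 1 = θ * (A' * B') * D' ^ 2)
    (dθ : |D - 1| ≤ |θ|) (dθ' : |D' - 1| ≤ |θ|) (hA' : |A'| ≤ R) (hB : |B| ≤ R) :
    |D - D'| ≤ 16 * R / (1 - θ ^ 2) * (|A - A'| + |B - B'|) := by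
  have h2 : (0 : ℝ) < 1 - θ ^ 2 := by linarith [(sq_lt_one_iff_abs_lt_one θ).2 hθ]
  have hprod : (D - D') * (1 - (D - 1) * (D' - 1))
      = (D * D') ^ 2 * (θ * ((A - A') * B + A' * (B - B'))) := by
    linear_combination D' ^ 2 * eD - D ^ 2 * eD'
  have hlow : 1 - θ ^ 2 ≤ 1 - (D - 1) * (D' - 1) := by
    have : (D - 1) * (D' - 1) ≤ |θ| * |θ| := (le_abs_self _).trans (by
      rw [abs_mul]; exact mul_le_mul dθ dθ' (abs_nonneg _) (abs_nonneg _))
    rw [← sq, sq_abs] at this
    linarith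
  obtain ⟨l1, r1⟩ := abs_le.1 dθ
  obtain ⟨l2, r2⟩ := abs_le.1 dθ'
  rw [div_mul_eq_mul_div, le_div_iff₀ h2]
  calc |D - D'| * (1 - θ ^ 2) ≤ |D - D'| * (1 - (D - 1) * (D' - 1)) :=
        mul_le_mul_of_nonneg_left hlow (abs_nonneg _)
    _ = |(D - D') * (1 - (D - 1) * (D' - 1))| := by
        rw [abs_mul (D - D'), abs_of_nonneg (show 0 ≤ 1 - (D - 1) * (D' - 1) from h2.le.trans hlow)]
    _ ≤ 16 * (|A - A'| * R + R * |B - B'|) := by
        rw [hprod, abs_mul, abs_of_nonneg (sq_nonneg _)]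
        refine mul_le_mul ?_ ?_ (abs_nonneg _) (by norm_num)
        · have h0 : 0 ≤ D := by linarith
          have h0' : 0 ≤ D' := by linarith
          have : D * D' ≤ 2 * 2 := mul_le_mul (by linarith) (by linarith) h0' zero_le_two
          calc (D * D') ^ 2 ≤ (2 * 2) ^ 2 := pow_le_pow_left₀ (mul_nonneg h0 h0') this 2
            _ = 16 := by norm_num
        · rw [abs_mul]
          refine (mul_le_of_le_one_left (abs_nonneg _) hθ.le).trans ((abs_add_le _ _).trans ?_)
          rw [abs_mul, abs_mul]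
          exact add_le_add (mul_le_mul_of_nonneg_left hB (abs_nonneg _))
            (mul_le_mul_of_nonneg_right hA' (abs_nonneg _))
    _ = _ := by ring

/-- The two magnetisations at the ends of an edge determine the messages stably. -/
lemma msg_stable (hθ : |θ| < 1) :
    ∃ C, 0 ≤ C ∧ ∀ a b a' b' : ℝ, |a| ≤ 1 → |b| ≤ 1 → |a'| ≤ 1 → |b'| ≤ 1 →
      (a - a') ^ 2 ≤ C * (((a + θ * b) / (1 + θ * (a * b))
          - (a' + θ * b') / (1 + θ * (a' * b'))) ^ 2
        + ((b + θ * a) / (1 + θ * (b * a)) - (b' + θ * a') / (1 + θ * (b' * a'))) ^ 2) := by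
  have h1 : (0 : ℝ) < 1 - |θ| := by linarith
  have h2 : (0 : ℝ) < 1 - θ ^ 2 := by linarith [(sq_lt_one_iff_abs_lt_one θ).2 hθ]
  set R := 1 / (1 - |θ|) with hR
  have hR0 : 0 ≤ R := by positivity
  set K := 2 + R * (16 * R / (1 - θ ^ 2)) with hK
  have hK0 : 0 ≤ K := by positivity
  refine ⟨8 * (K / (1 - θ ^ 2)) ^ 2, by positivity, fun a b a' b' ha hb ha' hb' => ?_⟩
  have hD : ∀ x y : ℝ, |x| ≤ 1 → |y| ≤ 1 →
      1 - |θ| ≤ 1 + θ * (x * y) ∧ 1 + θ * (x * y) ≤ 2 ∧ |1 + θ * (x * y) - 1| ≤ |θ| := by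
    intro x y hx hy
    have h3 : |θ * (x * y)| ≤ |θ| := by
      rw [abs_mul]; exact mul_le_of_le_one_right (abs_nonneg _) (abs_mul_le_one hx hy)
    obtain ⟨l, r⟩ := abs_le.1 h3
    exact ⟨by linarith, by linarith, by rwa [add_sub_cancel_left]⟩
  obtain ⟨dl, du, dθ⟩ := hD a b ha hb
  obtain ⟨dl', du', dθ'⟩ := hD a' b' ha' hb'
  rw [show θ * (b * a) = θ * (a * b) by ring, show θ * (b' * a') = θ * (a' * b') by ring]
  have eD0 : 1 + θ * (a * b) - 1 = θ * (a * b) := by ring
  have eD0' : 1 + θ * (a' * b') - 1 = θ * (a' * b') := by ring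
  generalize 1 + θ * (a * b) = D at *
  generalize 1 + θ * (a' * b') = D' at *
  have hD0 : 0 < D := lt_of_lt_of_le h1 dl
  have hD0' : 0 < D' := lt_of_lt_of_le h1 dl'
  have hn : D ≠ 0 := hD0.ne'
  have hn' : D' ≠ 0 := hD0'.ne'
  have hS : |a / D - a' / D'| + |b / D - b' / D'|
      ≤ 2 * (|(a + θ * b) / D - (a' + θ * b') / D'| + |(b + θ * a) / D - (b' + θ * a') / D'|)
        / (1 - θ ^ 2) := by
    have : ∀ x y : ℝ, |(x - θ * y) / (1 - θ ^ 2)| ≤ (|x| + |y|) / (1 - θ ^ 2) := fun x y => by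
      rw [abs_div, abs_of_pos h2]
      refine div_le_div_of_nonneg_right ((abs_sub _ _).trans ?_) h2.le
      rw [abs_mul]
      exact add_le_add le_rfl (mul_le_of_le_one_left (abs_nonneg y) hθ.le)
    have eA : a / D - a' / D' = (((a + θ * b) / D - (a' + θ * b') / D')
        - θ * ((b + θ * a) / D - (b' + θ * a') / D')) / (1 - θ ^ 2) := by
      rw [eq_div_iff h2.ne']; ring
    have eB : b / D - b' / D' = (((b + θ * a) / D - (b' + θ * a') / D')
        - θ * ((a + θ * b) / D - (a' + θ * b') / D')) / (1 - θ ^ 2) := by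
      rw [eq_div_iff h2.ne']; ring
    rw [eA, eB]
    refine (add_le_add (this _ _) (this _ _)).trans (le_of_eq ?_)
    ring
  have hA' : |a' / D'| ≤ R := by
    rw [abs_div, abs_of_pos hD0', hR]; exact div_le_div₀ zero_le_one ha' h1 dl'
  have hB : |b / D| ≤ R := by
    rw [abs_div, abs_of_pos hD0, hR]; exact div_le_div₀ zero_le_one hb h1 dl
  have hDD : |D - D'| ≤ 16 * R / (1 - θ ^ 2) * (|a / D - a' / D'| + |b / D - b' / D'|) :=
    denom_stable hθ (by rw [eD0]; field_simp) (by rw [eD0']; field_simp) dθ dθ' hA' hB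
  have hmain : |a - a'| ≤ K * (|a / D - a' / D'| + |b / D - b' / D'|) := by
    have e : a - a' = (a / D - a' / D') * D + a' / D' * (D - D') := by field_simp; ring
    rw [e]
    refine (abs_add_le _ _).trans ?_
    rw [abs_mul, abs_mul, abs_of_pos hD0]
    refine (add_le_add (mul_le_mul_of_nonneg_left du (abs_nonneg _))
      (mul_le_mul hA' hDD (abs_nonneg _) hR0)).trans ?_
    rw [hK, add_mul, mul_assoc R]
    refine add_le_add ?_ le_rfl
    rw [mul_comm]
    exact mul_le_mul_of_nonneg_left (le_add_of_nonneg_right (abs_nonneg _)) zero_le_two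
  have hfin : |a - a'| ≤ 2 * (K / (1 - θ ^ 2)) *
      (|(a + θ * b) / D - (a' + θ * b') / D'| + |(b + θ * a) / D - (b' + θ * a') / D'|) :=
    (hmain.trans (mul_le_mul_of_nonneg_left hS hK0)).trans (le_of_eq (by ring))
  have h4 := pow_le_pow_left₀ (abs_nonneg _) hfin 2
  rw [sq_abs, mul_pow, mul_pow] at h4
  refine h4.trans ?_
  generalize (a + θ * b) / D - (a' + θ * b') / D' = mx
  generalize (b + θ * a) / D - (b' + θ * a') / D' = my
  generalize K / (1 - θ ^ 2) = k
  have h5 : (|mx| + |my|) ^ 2 ≤ 2 * (mx ^ 2 + my ^ 2) := by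
    have := add_sq_le (a := |mx|) (b := |my|)
    rwa [sq_abs, sq_abs] at this
  calc 2 ^ 2 * k ^ 2 * (|mx| + |my|) ^ 2 ≤ 2 ^ 2 * k ^ 2 * (2 * (mx ^ 2 + my ^ 2)) :=
        mul_le_mul_of_nonneg_left h5 (by positivity)
    _ = _ := by ring

/-- Messages differ between the copies by no more than the ambiguity. -/
theorem replica_msg [Countable V] (h : Reg G d) (hν : HasMarginals G θ ν) (hθ : |θ| < 1) :
    ∃ C, 0 ≤ C ∧ ∀ (t : ℝ) (x y : V), G.Adj x y →
      ∫ p, (msg ν G t Set.univ x y p.1 - msg ν G t Set.univ x y p.2) ^ 2 ∂rep G θ ν t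
        ≤ C * amb G θ ν t x := by
  obtain ⟨C, hC, hstab⟩ := msg_stable (θ := θ) hθ
  refine ⟨4 * C, by positivity, fun t x y hxy => ?_⟩
  set A := sideOf G x y
  set B := sideOf G y x
  have hAB : A ∪ B = Set.univ := Set.eq_univ_of_forall fun z => mem_sideOf_or h.tree hxy z
  have h1 := edge_formulas h hν hθ hxy t (A := A) (B := B) subset_rfl subset_rfl
  have h2 := edge_formulas h hν hθ hxy.symm t (A := B) (B := A) subset_rfl subset_rfl
  rw [hAB] at h1
  rw [Set.union_comm, hAB] at h2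
  set Q : V → Omega V × Omega V → ℝ :=
    fun v p => (mu ν t Set.univ v p.1 - mu ν t Set.univ v p.2) ^ 2 with hQ
  have l1 : ∀ {P : Omega V → Prop}, (∀ᵐ ω ∂probM ν, P ω) →
      ∀ᵐ p ∂rep G θ ν t, P p.1 ∧ P p.2 := by
    intro P hP
    have a1 : MeasurePreserving (Prod.fst : Omega V × Omega V → Omega V) (rep G θ ν t) (probM ν) :=
      ⟨measurable_fst, rep_fst t⟩
    have a2 : MeasurePreserving (Prod.snd : Omega V × Omega V → Omega V) (rep G θ ν t) (probM ν) :=
      ⟨measurable_snd, rep_snd t⟩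
    exact (a1.quasiMeasurePreserving.ae hP).and (a2.quasiMeasurePreserving.ae hP)
  have hbd : ∀ (S : Set V) (v : V) (p : Omega V × Omega V),
      |(mu ν t S v p.1 - mu ν t S v p.2) ^ 2| ≤ 4 := fun S v p => by
    rw [abs_pow]
    refine (pow_le_pow_left₀ (abs_nonneg _)
      ((abs_sub _ _).trans (add_le_add (abs_mu_le t S v p.1) (abs_mu_le t S v p.2))) 2).trans ?_
    norm_num
  have hint : ∀ (S : Set V) (v : V),
      Integrable (fun p => (mu ν t S v p.1 - mu ν t S v p.2) ^ 2) (rep G θ ν t) := fun S v =>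
    integrable_bdd ((((measurable_mu t S v).comp measurable_fst).sub
      ((measurable_mu t S v).comp measurable_snd)).pow_const 2) (hbd S v)
  have hQe : ∀ v, ∫ p, Q v p ∂rep G θ ν t = 2 * amb G θ ν t v := fun v => by
    rw [hQ, integral_rep_sub_sq t (measurable_mu t _ v) (abs_mu_le t _ v), amb_eq_integral]
  calc ∫ p, (msg ν G t Set.univ x y p.1 - msg ν G t Set.univ x y p.2) ^ 2 ∂rep G θ ν t
      ≤ ∫ p, C * (Q x p + Q y p) ∂rep G θ ν t := by
        simp only [msg_univ]
        refine integral_mono_ae (hint A x) (((hint _ x).add (hint _ y)).const_mul C) ?_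
        filter_upwards [l1 h1, l1 h2] with p q1 q2
        simp only [hQ, q1.1, q1.2, q2.1, q2.2]
        exact hstab _ _ _ _ (abs_mu_le _ _ _ _) (abs_mu_le _ _ _ _) (abs_mu_le _ _ _ _)
          (abs_mu_le _ _ _ _)
    _ = C * (2 * amb G θ ν t x + 2 * amb G θ ν t y) := by
        rw [integral_const_mul, integral_add (hint _ x) (hint _ y), hQe, hQe]
    _ = _ := by rw [amb_eq h hν hθ t y x]; ring

end Vale.Agent.P161
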