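import Vale.Agent.P161.Critical.Damping
import Vale.Agent.P161.Critical.Replica

/-!
The first bound on the conditional variance of the posterior covariances: mass transport to a
fixed edge and damping.
-/

open MeasureTheory ProbabilityTheory SimpleGraph Filter
open scoped Topology

set_option linter.unusedSectionVars false

namespace Vale.Agent.P161

universe u

variable {V : Type u} [DecidableEq V] {G : SimpleGraph V} [DecidableRel G.Adj] {θ : ℝ} {d : ℕ}
variable {ν : Measure (V → Bool)} [IsProbabilityMeasure ν]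

/-- A property of one system holds for both copies. -/
lemma rep_both [Countable V] (t : ℝ) {P : Omega V → Prop} (hP : ∀ᵐ ω ∂probM ν, P ω) :
    ∀ᵐ p ∂rep G θ ν t, P p.1 ∧ P p.2 :=
  ((MeasurePreserving.mk measurable_fst (rep_fst (G := G) (θ := θ) (ν := ν) t)
    ).quasiMeasurePreserving.ae hP).and
  ((MeasurePreserving.mk measurable_snd (rep_snd (G := G) (θ := θ) (ν := ν) t)
    ).quasiMeasurePreserving.ae hP)

lemma upW_nonneg (h : Reg G d) (hθ : |θ| < 1) (t : ℝ) (x u : V) (ω : Omega V) :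
    0 ≤ upW h θ ν t x u ω :=
  Finset.prod_nonneg fun _ _ => edgeWt_nonneg hθ (abs_msg_le _ _ _ _ _)

lemma upW_le_one (h : Reg G d) (hθ : |θ| < 1) (t : ℝ) (x u : V) (ω : Omega V) :
    upW h θ ν t x u ω ≤ 1 :=
  Finset.prod_le_one (fun _ _ => edgeWt_nonneg hθ (abs_msg_le _ _ _ _ _))
    fun _ _ => edgeWt_le_one hθ (abs_msg_le _ _ _ _ _)

@[fun_prop]
lemma measurable_upW (h : Reg G d) (t : ℝ) (x u : V) : Measurable (upW h θ ν t x u) := by
  unfold upW
  exact Finset.measurable_prod _ fun i _ => (measurable_edgeWt θ).comp (measurable_msg _ _ _ _)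

lemma sub_edgeWt_le (hθ : |θ| < 1) {a b : ℝ} (ha : |a| ≤ 1) (hb : |b| ≤ 1) :
    |edgeWt θ a - edgeWt θ b| ≤ |a - b| * (|a| + |b|) / (1 - θ ^ 2) := by
  have h2 : θ ^ 2 < 1 := (sq_lt_one_iff_abs_lt_one θ).2 hθ
  have da := edgeWt_den_pos hθ ha
  have db := edgeWt_den_pos hθ hb
  have la : 1 - θ ^ 2 ≤ 1 - θ ^ 2 * a ^ 2 := by
    nlinarith [(sq_le_one_iff_abs_le_one a).2 ha, sq_nonneg θ]
  have lb : 1 - θ ^ 2 ≤ 1 - θ ^ 2 * b ^ 2 := by
    nlinarith [(sq_le_one_iff_abs_le_one b).2 hb, sq_nonneg θ]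
  have e : edgeWt θ a - edgeWt θ b
      = (1 - θ ^ 2) * ((b - a) * (b + a)) / ((1 - θ ^ 2 * a ^ 2) * (1 - θ ^ 2 * b ^ 2)) := by
    rw [edgeWt, edgeWt, div_sub_div _ _ da.ne' db.ne']
    congr 1
    ring
  rw [e, abs_div, abs_mul, abs_mul, abs_of_pos (show 0 < 1 - θ ^ 2 by linarith),
    abs_of_pos (mul_pos da db), abs_sub_comm b a, div_le_div_iff₀ (mul_pos da db) (by linarith)]
  calc (1 - θ ^ 2) * (|a - b| * |b + a|) * (1 - θ ^ 2)
      = |a - b| * |b + a| * ((1 - θ ^ 2) * (1 - θ ^ 2)) := by ring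
    _ ≤ |a - b| * (|a| + |b|) * ((1 - θ ^ 2 * a ^ 2) * (1 - θ ^ 2 * b ^ 2)) := by
        refine mul_le_mul (mul_le_mul_of_nonneg_left ?_ (abs_nonneg _))
          (mul_le_mul la lb (by linarith) da.le) (by nlinarith) (by positivity)
        exact (abs_add_le _ _).trans (le_of_eq (add_comm _ _))

lemma prod_range_sub (a b : ℕ → ℝ) : ∀ k : ℕ,
    (∏ i ∈ Finset.range k, a i) - ∏ i ∈ Finset.range k, b i
      = ∑ i ∈ Finset.range k,
          (∏ j ∈ Finset.range i, a j) * (a i - b i) * ∏ j ∈ Finset.Ico (i + 1) k, b j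
  | 0 => by simp
  | k + 1 => by
    rw [Finset.sum_range_succ, Finset.Ico_self, Finset.prod_empty, mul_one,
      Finset.sum_congr rfl fun i hi => by
        rw [Finset.prod_Ico_succ_top (show i + 1 ≤ k from Finset.mem_range.1 hi)],
      Finset.prod_range_succ, Finset.prod_range_succ]
    simp only [← mul_assoc, ← Finset.sum_mul, ← prod_range_sub a b k]
    ring

lemma sum_telescope_le (a : ℕ → ℝ) (ha0 : ∀ i, 0 ≤ a i) (k : ℕ) :
    ∑ i ∈ Finset.range k, (∏ j ∈ Finset.range i, a j) * (1 - a i) ≤ 1 := by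
  have e : ∀ i, (∏ j ∈ Finset.range i, a j) * (1 - a i)
      = (∏ j ∈ Finset.range i, a j) - ∏ j ∈ Finset.range (i + 1), a j := fun i => by
    rw [Finset.prod_range_succ]; ring
  simp only [e]
  rw [Finset.sum_range_sub', Finset.prod_range_zero]
  have : 0 ≤ ∏ j ∈ Finset.range k, a j := Finset.prod_nonneg fun i _ => ha0 i
  linarith

lemma sum_telescope_right_le (b : ℕ → ℝ) (hb0 : ∀ i, 0 ≤ b i) (k : ℕ) :
    ∑ i ∈ Finset.range k, (1 - b i) * ∏ j ∈ Finset.Ico (i + 1) k, b j ≤ 1 := by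
  have e := prod_range_sub (fun _ => (1 : ℝ)) b k
  simp only [Finset.prod_const_one, one_mul] at e
  rw [← e]
  have : 0 ≤ ∏ j ∈ Finset.range k, b j := Finset.prod_nonneg fun i _ => hb0 i
  linarith

/-- The bound on one path, for two copies. -/
lemma path_sq_le (hθ : |θ| < 1) (α β : ℕ → ℝ) (hα : ∀ i, |α i| ≤ 1) (hβ : ∀ i, |β i| ≤ 1) (k : ℕ) :
    ((∏ i ∈ Finset.range k, edgeWt θ (α i)) - ∏ i ∈ Finset.range k, edgeWt θ (β i)) ^ 2
      ≤ 4 / (1 - θ ^ 2) ^ 3 * ∑ i ∈ Finset.range k, (∏ j ∈ Finset.range i, edgeWt θ (α j))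
          * (∏ j ∈ Finset.Ico (i + 1) k, edgeWt θ (β j)) * (α i - β i) ^ 2 := by
  have h2 : 0 < 1 - θ ^ 2 := by linarith [(sq_lt_one_iff_abs_lt_one θ).2 hθ]
  set a : ℕ → ℝ := fun i => edgeWt θ (α i) with ha
  set b : ℕ → ℝ := fun i => edgeWt θ (β i) with hb
  have a0 : ∀ i, 0 ≤ a i := fun i => edgeWt_nonneg hθ (hα i)
  have b0 : ∀ i, 0 ≤ b i := fun i => edgeWt_nonneg hθ (hβ i)
  have a1 : ∀ i, a i ≤ 1 := fun i => edgeWt_le_one hθ (hα i)
  have b1 : ∀ i, b i ≤ 1 := fun i => edgeWt_le_one hθ (hβ i)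
  set c : ℕ → ℝ := fun i => (∏ j ∈ Finset.range i, a j) * ∏ j ∈ Finset.Ico (i + 1) k, b j with hc
  have c0 : ∀ i, 0 ≤ c i := fun i =>
    mul_nonneg (Finset.prod_nonneg fun j _ => a0 j) (Finset.prod_nonneg fun j _ => b0 j)
  have hpre : ∀ i, ∏ j ∈ Finset.range i, a j ≤ 1 := fun i =>
    Finset.prod_le_one (fun j _ => a0 j) fun j _ => a1 j
  have hpost : ∀ i, ∏ j ∈ Finset.Ico (i + 1) k, b j ≤ 1 := fun i =>
    Finset.prod_le_one (fun j _ => b0 j) fun j _ => b1 j
  have hd : |(∏ i ∈ Finset.range k, a i) - ∏ i ∈ Finset.range k, b i|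
      ≤ ∑ i ∈ Finset.range k, c i * (|α i - β i| * (|α i| + |β i|) / (1 - θ ^ 2)) := by
    rw [prod_range_sub]
    refine (Finset.abs_sum_le_sum_abs _ _).trans (Finset.sum_le_sum fun i _ => ?_)
    rw [mul_right_comm, abs_mul, abs_of_nonneg (c0 i)]
    exact mul_le_mul_of_nonneg_left (sub_edgeWt_le hθ (hα i) (hβ i)) (c0 i)
  have hcs := Finset.sum_mul_sq_le_sq_mul_sq (Finset.range k)
    (fun i => Real.sqrt (c i) * |α i - β i|)
    (fun i => Real.sqrt (c i) * ((|α i| + |β i|) / (1 - θ ^ 2)))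
  have e1 : ∀ i, Real.sqrt (c i) * |α i - β i| * (Real.sqrt (c i) * ((|α i| + |β i|) / (1 - θ ^ 2)))
      = c i * (|α i - β i| * (|α i| + |β i|) / (1 - θ ^ 2)) := fun i => by
    linear_combination |α i - β i| * ((|α i| + |β i|) / (1 - θ ^ 2)) * Real.mul_self_sqrt (c0 i)
  simp only [e1] at hcs
  have e2 : ∀ i, (Real.sqrt (c i) * |α i - β i|) ^ 2 = c i * (α i - β i) ^ 2 := fun i => by
    rw [mul_pow, Real.sq_sqrt (c0 i), sq_abs]
  have e3 : ∀ i, (Real.sqrt (c i) * ((|α i| + |β i|) / (1 - θ ^ 2))) ^ 2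
      ≤ 2 / (1 - θ ^ 2) ^ 3 * ((∏ j ∈ Finset.range i, a j) * (1 - a i)
        + (1 - b i) * ∏ j ∈ Finset.Ico (i + 1) k, b j) := fun i => by
    rw [mul_pow, Real.sq_sqrt (c0 i), div_pow]
    have h3 : (|α i| + |β i|) ^ 2 * (1 - θ ^ 2) ≤ 2 * (1 - a i) + 2 * (1 - b i) := by
      have p1 := edgeWt_le hθ (hα i)
      have p2 := edgeWt_le hθ (hβ i)
      have p3 : (|α i| + |β i|) ^ 2 ≤ 2 * α i ^ 2 + 2 * β i ^ 2 := by
        nlinarith [sq_nonneg (|α i| - |β i|), sq_abs (α i), sq_abs (β i)]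
      have p4 := mul_le_mul_of_nonneg_right p3 h2.le
      simp only [ha, hb]
      linarith
    have h4 : c i * (1 - a i) ≤ (∏ j ∈ Finset.range i, a j) * (1 - a i) :=
      mul_le_mul_of_nonneg_right (mul_le_of_le_one_right (Finset.prod_nonneg fun j _ => a0 j)
        (hpost i)) (by linarith [a1 i])
    have h5 : c i * (1 - b i) ≤ (1 - b i) * ∏ j ∈ Finset.Ico (i + 1) k, b j := by
      rw [mul_comm (1 - b i)]
      exact mul_le_mul_of_nonneg_right (mul_le_of_le_one_left (Finset.prod_nonneg fun j _ => b0 j)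
        (hpre i)) (by linarith [b1 i])
    have h6 := mul_le_mul_of_nonneg_left h3 (c0 i)
    have e : c i * ((|α i| + |β i|) ^ 2 / (1 - θ ^ 2) ^ 2)
        = c i * ((|α i| + |β i|) ^ 2 * (1 - θ ^ 2)) / (1 - θ ^ 2) ^ 3 := by
      field_simp
    rw [e, div_mul_eq_mul_div]
    exact div_le_div_of_nonneg_right (by linarith) (pow_nonneg h2.le 3)
  rw [Finset.sum_congr rfl fun i _ => e2 i] at hcs
  have hsum : ∑ i ∈ Finset.range k, (Real.sqrt (c i) * ((|α i| + |β i|) / (1 - θ ^ 2))) ^ 2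
      ≤ 4 / (1 - θ ^ 2) ^ 3 := by
    refine (Finset.sum_le_sum fun i _ => e3 i).trans ?_
    rw [← Finset.mul_sum, Finset.sum_add_distrib]
    refine (mul_le_mul_of_nonneg_left (add_le_add (sum_telescope_le a a0 k)
      (sum_telescope_right_le b b0 k)) (by positivity)).trans (le_of_eq ?_)
    ring
  calc _ = |(∏ i ∈ Finset.range k, a i) - ∏ i ∈ Finset.range k, b i| ^ 2 := (sq_abs _).symm
    _ ≤ (∑ i ∈ Finset.range k, c i * (|α i - β i| * (|α i| + |β i|) / (1 - θ ^ 2))) ^ 2 :=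
        pow_le_pow_left₀ (abs_nonneg _) hd 2
    _ ≤ _ := hcs
    _ ≤ (∑ i ∈ Finset.range k, c i * (α i - β i) ^ 2) * (4 / (1 - θ ^ 2) ^ 3) :=
        mul_le_mul_of_nonneg_left hsum
          (Finset.sum_nonneg fun i _ => mul_nonneg (c0 i) (sq_nonneg _))
    _ = _ := mul_comm _ _

lemma hfac_nonneg (t : ℝ) (v : V) (ω : Omega V) : 0 ≤ 1 - mu ν t Set.univ v ω ^ 2 :=
  sub_nonneg.2 ((sq_le_one_iff_abs_le_one _).2 (abs_mu_le _ _ _ _))

/-- Reversing a geodesic. -/
lemma upW_rev (h : Reg G d) (hν : HasMarginals G θ ν) (hθ : |θ| < 1) (h0 : θ ≠ 0) {y : ℕ → V}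
    {m : ℕ} (hy : Geo G y m) (t : ℝ) :
    ∀ᵐ ω ∂probM ν,
      (∏ i ∈ Finset.range m, edgeWt θ (msg ν G t Set.univ (y i) (y (i + 1)) ω))
          * (1 - mu ν t Set.univ (y m) ω ^ 2)
        ≤ upW h θ ν t (y 0) (y m) ω := by
  filter_upwards [covJ_path h hν hθ t Set.univ m y hy,
    covJ_path h hν hθ t Set.univ m _ hy.rev] with ω e1 e2
  have e3 := upW_eq (θ := θ) (ν := ν) h hy.rev t ω
  simp only [Nat.sub_zero, Nat.sub_self] at e2 e3
  rw [covJ_comm, e1, mul_assoc, mul_assoc] at e2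
  rw [mul_left_cancel₀ (pow_ne_zero m h0) e2, e3]
  refine mul_le_of_le_one_right
    (Finset.prod_nonneg fun i _ => edgeWt_nonneg hθ (abs_msg_le _ _ _ _ _)) ?_
  linarith [sq_nonneg (mu ν t Set.univ (y 0) ω)]

/-- The bound for one posterior covariance, for two copies. -/
lemma covJ_sub_sq_le [Countable V] (h : Reg G d) (hν : HasMarginals G θ ν) (hθ : |θ| < 1)
    (h0 : θ ≠ 0) {y : ℕ → V} {k : ℕ} (hy : Geo G y k) (t : ℝ) :
    ∀ᵐ p ∂rep G θ ν t,
      (covJ ν t Set.univ (y k) (y 0) p.1 - covJ ν t Set.univ (y k) (y 0) p.2) ^ 2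
        ≤ (θ ^ 2) ^ k * (8 / (1 - θ ^ 2) ^ 3) *
          (∑ i ∈ Finset.range k, upW h θ ν t (y i) (y 0) p.1 * upW h θ ν t (y (i + 1)) (y k) p.2
              * (msg ν G t Set.univ (y i) (y (i + 1)) p.1
                  - msg ν G t Set.univ (y i) (y (i + 1)) p.2) ^ 2
            + upW h θ ν t (y k) (y 0) p.1
              * (mu ν t Set.univ (y k) p.1 - mu ν t Set.univ (y k) p.2) ^ 2) := by
  have hrev : ∀ᵐ ω ∂probM ν, ∀ i < k,
      (∏ j ∈ Finset.Ico (i + 1) k, edgeWt θ (msg ν G t Set.univ (y j) (y (j + 1)) ω))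
          * (1 - mu ν t Set.univ (y k) ω ^ 2) ≤ upW h θ ν t (y (i + 1)) (y k) ω := by
    refine (ae_ball_iff (Set.to_countable {i | i < k})).2 fun i (hi : i < k) => ?_
    filter_upwards [upW_rev h hν hθ h0 (hy.sub h.tree (i + 1) (k - (i + 1)) (by omega)) t]
      with ω e
    rw [show i + 1 + (k - (i + 1)) = k by omega, Nat.add_zero] at e
    rw [Finset.prod_Ico_eq_prod_range]
    simpa only [add_assoc] using e
  filter_upwards [rep_both (G := G) (θ := θ) t (covJ_path h hν hθ t Set.univ k y hy),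
    rep_both (G := G) (θ := θ) t hrev] with p q1 q2
  rw [covJ_comm t _ (y k), covJ_comm t _ (y k), q1.1, q1.2]
  set α : ℕ → ℝ := fun i => msg ν G t Set.univ (y i) (y (i + 1)) p.1 with hα
  set β : ℕ → ℝ := fun i => msg ν G t Set.univ (y i) (y (i + 1)) p.2 with hβ
  set A := ∏ i ∈ Finset.range k, edgeWt θ (α i) with hA
  set B := ∏ i ∈ Finset.range k, edgeWt θ (β i) with hB
  set f := 1 - mu ν t Set.univ (y k) p.1 ^ 2 with hf
  set g := 1 - mu ν t Set.univ (y k) p.2 ^ 2 with hg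
  have hg0 : 0 ≤ g := hfac_nonneg t _ _
  have hg1 : g ≤ 1 := sub_le_self _ (sq_nonneg _)
  have hA0 : 0 ≤ A := Finset.prod_nonneg fun i _ => edgeWt_nonneg hθ (abs_msg_le _ _ _ _ _)
  have hA1 : A ≤ 1 := Finset.prod_le_one (fun i _ => edgeWt_nonneg hθ (abs_msg_le _ _ _ _ _))
    fun i _ => edgeWt_le_one hθ (abs_msg_le _ _ _ _ _)
  have h2 : 0 < 1 - θ ^ 2 := by linarith [(sq_lt_one_iff_abs_lt_one θ).2 hθ]
  have hC : 1 ≤ 1 / (1 - θ ^ 2) ^ 3 := by
    rw [le_div_iff₀ (pow_pos h2 3), one_mul]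
    exact pow_le_one₀ h2.le (by linarith [sq_nonneg θ])
  set D := (mu ν t Set.univ (y k) p.1 - mu ν t Set.univ (y k) p.2) ^ 2 with hD
  have hfg : (f - g) ^ 2 ≤ 4 * D := by
    have hm1 := abs_le.1 (abs_mu_le (ν := ν) t Set.univ (y k) p.1)
    have hm2 := abs_le.1 (abs_mu_le (ν := ν) t Set.univ (y k) p.2)
    have e : (f - g) ^ 2 = D * (mu ν t Set.univ (y k) p.1 + mu ν t Set.univ (y k) p.2) ^ 2 := by
      rw [hf, hg, hD]; ring
    rw [e, mul_comm 4]
    refine mul_le_mul_of_nonneg_left ?_ (sq_nonneg _)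
    nlinarith [hm1.1, hm1.2, hm2.1, hm2.2]
  have hup : upW h θ ν t (y k) (y 0) p.1 = A := upW_eq h hy t p.1
  have main := path_sq_le hθ α β (fun i => abs_msg_le _ _ _ _ _) (fun i => abs_msg_le _ _ _ _ _) k
  have hsum : ((A - B) * g) ^ 2 ≤ 4 / (1 - θ ^ 2) ^ 3 * ∑ i ∈ Finset.range k,
      upW h θ ν t (y i) (y 0) p.1 * upW h θ ν t (y (i + 1)) (y k) p.2 * (α i - β i) ^ 2 := by
    refine le_trans ?_ (le_trans (mul_le_mul_of_nonneg_right main hg0) ?_)
    · rw [mul_pow, sq g]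
      exact mul_le_mul_of_nonneg_left (mul_le_of_le_one_left hg0 hg1) (sq_nonneg _)
    rw [mul_assoc (4 / _), Finset.sum_mul]
    refine mul_le_mul_of_nonneg_left (Finset.sum_le_sum fun i hi => ?_) (by positivity)
    rw [Finset.mem_range] at hi
    have e := upW_eq (θ := θ) (ν := ν) h (hy.sub h.tree 0 i (by omega)) t p.1
    simp only [Nat.zero_add] at e
    rw [e]
    calc _ = (∏ j ∈ Finset.range i, edgeWt θ (α j))
          * ((∏ j ∈ Finset.Ico (i + 1) k, edgeWt θ (β j)) * g) * (α i - β i) ^ 2 := by ring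
      _ ≤ _ := mul_le_mul_of_nonneg_right (mul_le_mul_of_nonneg_left (q2.2 i hi)
          (Finset.prod_nonneg fun j _ => edgeWt_nonneg hθ (abs_msg_le _ _ _ _ _))) (sq_nonneg _)
  rw [hup]
  simp only [hα, hβ] at hsum
  set Sum' := ∑ i ∈ Finset.range k, upW h θ ν t (y i) (y 0) p.1
    * upW h θ ν t (y (i + 1)) (y k) p.2
    * (msg ν G t Set.univ (y i) (y (i + 1)) p.1 - msg ν G t Set.univ (y i) (y (i + 1)) p.2) ^ 2
  have hAf : (A * (f - g)) ^ 2 ≤ 4 / (1 - θ ^ 2) ^ 3 * (A * D) := by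
    have k1 : A * A * (f - g) ^ 2 ≤ A * (4 * D) :=
      mul_le_mul (mul_le_of_le_one_left hA0 hA1) hfg (sq_nonneg _) hA0
    have k2 : A * (4 * D) ≤ 4 / (1 - θ ^ 2) ^ 3 * (A * D) := by
      have := mul_le_mul_of_nonneg_left hC (show 0 ≤ 4 * (A * D) by positivity)
      rw [mul_one_div, mul_div_right_comm] at this
      linarith
    rw [mul_pow, sq A]
    linarith
  calc _ = (θ ^ 2) ^ k * ((A - B) * g + A * (f - g)) ^ 2 := by rw [← pow_mul, mul_comm 2, pow_mul]; ring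
    _ ≤ (θ ^ 2) ^ k * (2 * ((A - B) * g) ^ 2 + 2 * (A * (f - g)) ^ 2) :=
        mul_le_mul_of_nonneg_left (by nlinarith [sq_nonneg ((A - B) * g - A * (f - g))])
          (pow_nonneg (sq_nonneg θ) k)
    _ ≤ (θ ^ 2) ^ k * (2 * (4 / (1 - θ ^ 2) ^ 3 * Sum') + 2 * (4 / (1 - θ ^ 2) ^ 3 * (A * D))) :=
        mul_le_mul_of_nonneg_left (by linarith) (pow_nonneg (sq_nonneg θ) k)
    _ = _ := by ring

lemma upW_gact (h : Reg G d) (hν : HasMarginals G θ ν) (γ : G ≃g G) (t : ℝ) (x u : V) :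
    ∀ᵐ ω ∂probM ν, upW h θ ν t (γ x) (γ u) (gact γ ω) = upW h θ ν t x u ω := by
  have hy := ray_geo h x u
  set k := G.dist x u
  have hy' : Geo G (fun i => γ (ray h x u i)) k :=
    ⟨fun i hi => γ.map_adj_iff.2 (hy.1 i hi), by rw [dist_iso]; exact hy.2⟩
  filter_upwards [(ae_ball_iff (Finset.range k).countable_toSet).2 fun i _ =>
    msg_gact h hν γ t Set.univ (ray h x u i) (ray h x u (i + 1))] with ω hω
  have e := upW_eq (θ := θ) (ν := ν) h hy' t (gact γ ω)
  simp only [ray_zero, show ray h x u k = x from ray_last h x u] at e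
  rw [e]
  refine Finset.prod_congr rfl fun i hi => ?_
  have := hω i hi
  rw [Set.image_univ, γ.surjective.range_eq] at this
  rw [this]

/-- The transport term of an edge on a geodesic. -/
noncomputable def tau [Countable V] (h : Reg G d) (θ : ℝ) (ν : Measure (V → Bool))
    [IsProbabilityMeasure ν] (t : ℝ) (y : ℕ → V) (k i : ℕ) : ℝ :=
  ∫ p, upW h θ ν t (y i) (y 0) p.1 * upW h θ ν t (y (i + 1)) (y k) p.2
    * (msg ν G t Set.univ (y i) (y (i + 1)) p.1
        - msg ν G t Set.univ (y i) (y (i + 1)) p.2) ^ 2 ∂rep G θ ν t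

lemma tau_eq [Countable V] (h : Reg G d) (hν : HasMarginals G θ ν) (hθ : |θ| < 1) (t : ℝ)
    {y y' : ℕ → V} {k i : ℕ} (hy : Geo G y k) (hy' : Geo G y' k) (hi : i < k) :
    tau h θ ν t y' k i = tau h θ ν t y k i := by
  obtain ⟨γ, hγ⟩ := hy.exists_iso h hy'
  have hT := rep_gact h hν hθ γ t
  have hm : AEStronglyMeasurable (fun p : Omega V × Omega V =>
      upW h θ ν t (y' i) (y' 0) p.1 * upW h θ ν t (y' (i + 1)) (y' k) p.2
      * (msg ν G t Set.univ (y' i) (y' (i + 1)) p.1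
        - msg ν G t Set.univ (y' i) (y' (i + 1)) p.2) ^ 2) (rep G θ ν t) :=
    (by fun_prop : Measurable _).aestronglyMeasurable
  unfold tau
  conv_lhs => rw [← hT.map_eq]
  rw [integral_map hT.measurable.aemeasurable (by rwa [hT.map_eq])]
  refine integral_congr_ae ?_
  filter_upwards [rep_both (G := G) (θ := θ) t (upW_gact h hν γ t (y i) (y 0)),
    rep_both (G := G) (θ := θ) t (upW_gact h hν γ t (y (i + 1)) (y k)),
    rep_both (G := G) (θ := θ) t (msg_gact h hν γ t Set.univ (y i) (y (i + 1)))] with p a b c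
  rw [Set.image_univ, γ.surjective.range_eq] at c
  rw [hγ i hi.le, hγ 0 (Nat.zero_le _)] at a
  rw [hγ (i + 1) hi, hγ k le_rfl] at b
  rw [hγ i hi.le, hγ (i + 1) hi] at c
  simp only [Prod.map_fst, Prod.map_snd, a.1, b.2, c.1, c.2]

/-- The weighted sum over a side. -/
noncomputable def Asum (h : Reg G d) (θ : ℝ) (ν : Measure (V → Bool)) (t : ℝ) (K : ℕ) (x p : V)
    (ω : Omega V) : ℝ :=
  ∑ l ∈ Finset.range K, ((bn d)⁻¹) ^ l * ∑ u ∈ sideSph h x p l, upW h θ ν t x u ω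

lemma Asum_zero (h : Reg G d) (t : ℝ) (x p : V) (ω : Omega V) :
    Asum h θ ν t 0 x p ω = 0 := by simp [Asum]

lemma Asum_succ (h : Reg G d) (hd : 3 ≤ d) (t : ℝ) :
    ∀ (K : ℕ) {x p : V}, G.Adj x p → ∀ ω,
      Asum h θ ν t (K + 1) x p ω = (bn d)⁻¹ * ∑ c ∈ kids h x p, Pr h θ ν t K c x ω := by
  intro K
  induction K with
  | zero =>
    intro x p hxp ω
    simp only [Asum, zero_add, Finset.sum_range_one, pow_zero, one_mul, sideSph_zero h hxp,
      Finset.sum_singleton, upW_self, Pr]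
    rw [avg_kids h hd hxp]
  | succ K ih =>
    intro x p hxp ω
    have e : Asum h θ ν t (K + 1 + 1) x p ω = 1 + (bn d)⁻¹ * ∑ c ∈ kids h x p,
        edgeWt θ (msg ν G t Set.univ c x ω) * Asum h θ ν t (K + 1) c x ω := by
      simp only [Asum]
      rw [Finset.sum_range_succ']
      simp only [pow_zero, one_mul, sideSph_zero h hxp, Finset.sum_singleton, upW_self]
      rw [add_comm]
      congr 1
      simp only [Finset.mul_sum]
      rw [Finset.sum_comm (s := kids h x p)]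
      refine Finset.sum_congr rfl fun l _ => ?_
      rw [sideSph_succ h hxp, Finset.sum_biUnion (disjoint_sideSph h l)]
      refine Finset.sum_congr rfl fun c hc => Finset.sum_congr rfl fun u hu => ?_
      rw [upW_step h ((mem_kids h).1 hc).2.symm ((mem_sideSph h).1 hu).2 t ω, pow_succ]
      ring
    have e2 : ∀ c ∈ kids h x p, Pr h θ ν t (K + 1) c x ω
        = 1 + edgeWt θ (msg ν G t Set.univ c x ω) * Asum h θ ν t (K + 1) c x ω := fun c hc => by
      rw [ih ((mem_kids h).1 hc).2.symm ω]; rfl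
    rw [e, Finset.sum_congr rfl e2, Finset.sum_add_distrib, mul_add, avg_kids h hd hxp]

@[fun_prop]
lemma measurable_Asum (h : Reg G d) (t : ℝ) (K : ℕ) (x p : V) :
    Measurable (Asum h θ ν t K x p) := by
  unfold Asum
  exact Finset.measurable_sum _ fun l _ =>
    (Finset.measurable_sum _ fun u _ => measurable_upW h t x u).const_mul _

lemma Asum_bounds (h : Reg G d) (hd : 3 ≤ d) (hθ : |θ| < 1) (t : ℝ) (K : ℕ) {x p : V}
    (hxp : G.Adj x p) (ω : Omega V) :
    0 ≤ Asum h θ ν t K x p ω ∧ Asum h θ ν t K x p ω ≤ K := by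
  have hb := two_le_bn hd
  refine ⟨Finset.sum_nonneg fun l _ => mul_nonneg (by positivity)
    (Finset.sum_nonneg fun u _ => upW_nonneg h hθ t x u ω), ?_⟩
  refine (Finset.sum_le_sum (g := fun _ => (1 : ℝ)) fun l _ => ?_).trans (by simp)
  refine (mul_le_mul_of_nonneg_left (Finset.sum_le_card_nsmul _ _ 1 fun u _ =>
    upW_le_one h hθ t x u ω) (by positivity)).trans (le_of_eq ?_)
  rw [nsmul_eq_mul, mul_one, card_sideSph h l hxp, inv_pow,
    inv_mul_cancel₀ (pow_ne_zero _ (by linarith))]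

/-- The high moments of the weighted sum over a side. -/
theorem Asum_moment (h : Reg G d) (hd : 3 ≤ d) (hν : HasMarginals G θ ν) (hθ : |θ| < 1)
    (hc : bn d * θ ^ 2 = 1) :
    ∃ C, 0 ≤ C ∧ ∀ x0 p0, G.Adj x0 p0 → ∀ t, 0 < qe ν G t x0 p0 → ∀ P : ℕ, 1 ≤ P →
      ∀ K x p, G.Adj x p →
        ∫ ω, Asum h θ ν t K x p ω ^ P ∂probM ν
          ≤ (C * (1 / qe ν G t x0 p0 + Real.log P + 1)) ^ P := by
  obtain ⟨C, hC0, hC⟩ := Pr_moment h hd hν hθ hc
  refine ⟨C, hC0, fun x0 p0 hx0 t hq P hP K x p hxp => ?_⟩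
  have hb := two_le_bn hd
  set M := C * (1 / qe ν G t x0 p0 + Real.log P + 1)
  have hM : 0 ≤ M ^ P := by
    have : 0 ≤ Real.log P := Real.log_nonneg (by exact_mod_cast hP)
    positivity
  rcases K with _ | K
  · simpa [Asum_zero, show P ≠ 0 by omega] using hM
  have hpt : ∀ ω, Asum h θ ν t (K + 1) x p ω ^ P
      ≤ (bn d)⁻¹ * ∑ c ∈ kids h x p, Pr h θ ν t K c x ω ^ P := fun ω => by
    rw [Asum_succ h hd t K hxp, Finset.mul_sum, Finset.mul_sum]
    exact Real.pow_arith_mean_le_arith_mean_pow _ (fun _ => (bn d)⁻¹) _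
      (fun _ _ => by positivity)
      (by rw [Finset.sum_const, nsmul_eq_mul, card_kids h hxp]; field_simp)
      (fun c hc' => zero_le_one.trans (Pr_bounds h hd hθ t K ((mem_kids h).1 hc').2.symm ω).1) P
  have hi : ∀ c ∈ kids h x p, Integrable (fun ω => Pr h θ ν t K c x ω ^ P) (probM ν) :=
    fun c hc' => integrable_bdd (by fun_prop) (C := ((K : ℝ) + 1) ^ P) fun ω => by
      obtain ⟨b1, b2⟩ := Pr_bounds (ν := ν) h hd hθ t K ((mem_kids h).1 hc').2.symm ω
      rw [abs_pow, abs_of_nonneg (by linarith)]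
      exact pow_le_pow_left₀ (by linarith) b2 P
  refine (integral_mono_of_nonneg (Eventually.of_forall fun ω =>
    pow_nonneg (Asum_bounds h hd hθ t (K + 1) hxp ω).1 P)
    ((integrable_finsetSum _ hi).const_mul _) (Eventually.of_forall hpt)).trans ?_
  rw [integral_const_mul, integral_finsetSum _ hi]
  refine (mul_le_mul_of_nonneg_left (Finset.sum_le_sum fun c hc' =>
    hC x0 p0 hx0 t hq P hP K c x ((mem_kids h).1 hc').2.symm) (by positivity)).trans
    (le_of_eq (avg_kids h hd hxp _))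

/-- Splitting off the large values. -/
lemma tail_split {α : Type*} [MeasurableSpace α] {μ : Measure α} [IsFiniteMeasure μ]
    {X Z : α → ℝ} {P : ℕ} (hXi : Integrable X μ) (hXP : Integrable (fun a => X a ^ P) μ)
    (hZi : Integrable Z μ) (hXZ : Integrable (fun a => X a * Z a) μ) (hX : ∀ a, 0 ≤ X a)
    (hZ0 : ∀ a, 0 ≤ Z a) (hZ1 : ∀ a, Z a ≤ 1) {c : ℝ} (hc : 0 < c) (hP : 1 ≤ P) :
    ∫ a, X a * Z a ∂μ ≤ c * ∫ a, Z a ∂μ + (∫ a, X a ^ P ∂μ) / c ^ (P - 1) := by
  have hpt : ∀ a, X a * Z a ≤ c * Z a + X a ^ P / c ^ (P - 1) := by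
    intro a
    have h0 : 0 ≤ X a ^ P / c ^ (P - 1) := div_nonneg (pow_nonneg (hX a) _) (by positivity)
    rcases le_or_gt (X a) c with h1 | h1
    · linarith [mul_le_mul_of_nonneg_right h1 (hZ0 a)]
    · have h2 : X a ≤ X a ^ P / c ^ (P - 1) := by
        rw [le_div_iff₀ (by positivity)]
        calc X a * c ^ (P - 1) ≤ X a * X a ^ (P - 1) :=
              mul_le_mul_of_nonneg_left (pow_le_pow_left₀ hc.le h1.le _) (hX a)
          _ = X a ^ P := by rw [← pow_succ']; congr 1; omega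
      linarith [mul_le_of_le_one_right (hX a) (hZ1 a), mul_nonneg hc.le (hZ0 a)]
  refine (integral_mono hXZ ((hZi.const_mul c).add (hXP.div_const _)) hpt).trans (le_of_eq ?_)
  rw [integral_add' (hZi.const_mul c) (hXP.div_const _), integral_const_mul, integral_div]

/-- The diagonal sum over the edges on a path, reordered. -/
lemma triangle_le {f : ℕ → ℕ → ℝ} (hf : ∀ a b, 0 ≤ f a b) (K : ℕ) :
    ∑ k ∈ Finset.range (K + 1), ∑ i ∈ Finset.range k, f i (k - 1 - i)
      ≤ ∑ a ∈ Finset.range K, ∑ b ∈ Finset.range K, f a b := by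
  rw [Finset.sum_sigma', ← Finset.sum_product']
  rw [← Finset.sum_image (g := fun s : Σ _ : ℕ, ℕ => (s.2, s.1 - 1 - s.2))
    (f := fun z : ℕ × ℕ => f z.1 z.2)]
  · refine Finset.sum_le_sum_of_subset_of_nonneg ?_ fun z _ _ => hf _ _
    intro z hz
    simp only [Finset.mem_image, Finset.mem_sigma, Finset.mem_range] at hz
    obtain ⟨⟨k, i⟩, ⟨h1, h2⟩, rfl⟩ := hz
    simp only [Finset.mem_product, Finset.mem_range] at *
    omega
  · rintro ⟨k, i⟩ h1 ⟨k', i'⟩ h2 e
    simp only [Finset.coe_sigma, Set.mem_sigma_iff, Finset.mem_coe, Finset.mem_range] at h1 h2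
    simp only [Prod.mk.injEq] at e
    obtain ⟨rfl, e⟩ := e
    obtain rfl : k = k' := by omega
    rfl

lemma abs_sq_sub_le {a b : ℝ} (ha : |a| ≤ 1) (hb : |b| ≤ 1) : |(a - b) ^ 2| ≤ 4 := by
  rw [abs_pow]
  exact (pow_le_pow_left₀ (abs_nonneg _) ((abs_sub _ _).trans (add_le_add ha hb)) 2).trans
    (by norm_num)

lemma tau_nonneg [Countable V] (h : Reg G d) (hθ : |θ| < 1) (t : ℝ) (y : ℕ → V) (k i : ℕ) :
    0 ≤ tau h θ ν t y k i :=
  integral_nonneg fun _ =>
    mul_nonneg (mul_nonneg (upW_nonneg h hθ _ _ _ _) (upW_nonneg h hθ _ _ _ _)) (sq_nonneg _)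

lemma integrable_tau [Countable V] (h : Reg G d) (hθ : |θ| < 1) (t : ℝ) (a b c e x y : V) :
    Integrable (fun p : Omega V × Omega V => upW h θ ν t a b p.1 * upW h θ ν t c e p.2
      * (msg ν G t Set.univ x y p.1 - msg ν G t Set.univ x y p.2) ^ 2) (rep G θ ν t) :=
  integrable_bdd (by fun_prop) (C := 1 * 1 * 4) fun p => by
    rw [abs_mul, abs_mul, abs_of_nonneg (upW_nonneg h hθ _ _ _ _),
      abs_of_nonneg (upW_nonneg h hθ _ _ _ _)]
    exact mul_le_mul (mul_le_mul (upW_le_one h hθ _ _ _ _) (upW_le_one h hθ _ _ _ _)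
      (upW_nonneg h hθ _ _ _ _) zero_le_one) (abs_sq_sub_le (abs_msg_le _ _ _ _ _)
      (abs_msg_le _ _ _ _ _)) (abs_nonneg _) (by norm_num)

/-- The transport terms gathered at one edge. -/
lemma pair_sum [Countable V] (h : Reg G d) (hd : 3 ≤ d) (hν : HasMarginals G θ ν) (hθ : |θ| < 1)
    {Y : ℕ → ℕ → V} (hY : ∀ k, Geo G (Y k) k) {x x' : V} (hxx' : G.Adj x x') (t : ℝ) (K : ℕ) :
    ∑ a ∈ Finset.range K, ∑ b ∈ Finset.range K, tau h θ ν t (Y (a + 1 + b)) (a + 1 + b) a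
      = ∫ p, Asum h θ ν t K x x' p.1 * Asum h θ ν t K x' x p.2
          * (msg ν G t Set.univ x x' p.1 - msg ν G t Set.univ x x' p.2) ^ 2 ∂rep G θ ν t := by
  have hb := two_le_bn hd
  have e : ∀ p : Omega V × Omega V, Asum h θ ν t K x x' p.1 * Asum h θ ν t K x' x p.2
      * (msg ν G t Set.univ x x' p.1 - msg ν G t Set.univ x x' p.2) ^ 2
      = ∑ a ∈ Finset.range K, ∑ b ∈ Finset.range K, ((bn d)⁻¹) ^ a * ((bn d)⁻¹) ^ b *
          ∑ u ∈ sideSph h x x' a, ∑ w ∈ sideSph h x' x b, upW h θ ν t x u p.1 * upW h θ ν t x' w p.2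
            * (msg ν G t Set.univ x x' p.1 - msg ν G t Set.univ x x' p.2) ^ 2 := fun p => by
    simp only [Asum]
    rw [Finset.sum_mul_sum, Finset.sum_mul]
    refine Finset.sum_congr rfl fun a _ => ?_
    rw [Finset.sum_mul]
    refine Finset.sum_congr rfl fun b _ => ?_
    simp only [← Finset.sum_mul, ← Finset.mul_sum]
    ring
  have hi : ∀ a b, ∀ u ∈ sideSph h x x' a, Integrable (fun p : Omega V × Omega V =>
      ∑ w ∈ sideSph h x' x b, upW h θ ν t x u p.1 * upW h θ ν t x' w p.2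
        * (msg ν G t Set.univ x x' p.1 - msg ν G t Set.univ x x' p.2) ^ 2) (rep G θ ν t) :=
    fun a b u _ => integrable_finsetSum _ fun w _ => integrable_tau h hθ t _ _ _ _ _ _
  simp only [e]
  rw [integral_finsetSum _ fun a _ => integrable_finsetSum _ fun b _ =>
    (integrable_finsetSum _ (hi a b)).const_mul _]
  refine Finset.sum_congr rfl fun a _ => ?_
  rw [integral_finsetSum _ fun b _ => (integrable_finsetSum _ (hi a b)).const_mul _]
  refine Finset.sum_congr rfl fun b _ => ?_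
  rw [integral_const_mul, integral_finsetSum _ (hi a b),
    Finset.sum_congr rfl (g := fun _ => (bn d) ^ b * tau h θ ν t (Y (a + 1 + b)) (a + 1 + b) a)
      fun u hu => by
      rw [integral_finsetSum _ fun w _ => integrable_tau h hθ t _ _ _ _ _ _,
        Finset.sum_congr rfl (g := fun _ => tau h θ ν t (Y (a + 1 + b)) (a + 1 + b) a) fun w hw => by
          obtain ⟨ha, hu'⟩ := (mem_sideSph h).1 hu
          obtain ⟨hb', hw'⟩ := (mem_sideSph h).1 hw
          obtain ⟨hg, e1, e2, e3⟩ := geo_across h hxx' hu' hw'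
          subst ha hb'
          rw [← tau_eq h hν hθ t (hY _) hg (by omega)]
          simp only [tau, e1, e2, e3, ray_zero],
        Finset.sum_const, nsmul_eq_mul, card_sideSph h b hxx'.symm],
    Finset.sum_const, nsmul_eq_mul, card_sideSph h a hxx', inv_pow, inv_pow]
  field_simp

/-- Hölder's inequality in the form used for damping. -/
lemma split_scaled {α : Type*} [MeasurableSpace α] {μ : Measure α} [IsFiniteMeasure μ]
    {X Z : α → ℝ} {P : ℕ} (hXi : Integrable X μ) (hXP : Integrable (fun a => X a ^ P) μ)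
    (hZi : Integrable Z μ) (hXZ : Integrable (fun a => X a * Z a) μ) (hX : ∀ a, 0 ≤ X a)
    (hZ0 : ∀ a, 0 ≤ Z a) (hZ1 : ∀ a, Z a ≤ 1) (hP : 1 ≤ P) {M κ : ℝ} (hM : 0 < M) (hκ : 0 < κ)
    (hmom : ∫ a, X a ^ P ∂μ ≤ M ^ P) :
    ∫ a, X a * Z a ∂μ ≤ M * (κ * ∫ a, Z a ∂μ + (κ ^ (P - 1))⁻¹) := by
  refine (tail_split hXi hXP hZi hXZ hX hZ0 hZ1 (mul_pos hκ hM) hP).trans ?_
  have e : M ^ P / (κ * M) ^ (P - 1) = M * (κ ^ (P - 1))⁻¹ := by
    rw [show M ^ P = M ^ (P - 1) * M by rw [← pow_succ]; congr 1; omega, mul_pow]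
    field_simp
  refine (add_le_add le_rfl (div_le_div_of_nonneg_right hmom (by positivity))).trans (le_of_eq ?_)
  rw [e]; ring

/-- The transport sum is damped. -/
theorem pair_le [Countable V] (h : Reg G d) (hd : 3 ≤ d) (hν : HasMarginals G θ ν) (hθ : |θ| < 1)
    {x x' : V} (hxx' : G.Adj x x') (t : ℝ) (K P : ℕ) (hP : 1 ≤ P) {M κ : ℝ} (hM : 0 < M)
    (hκ : 0 < κ) (hmom : ∀ y y', G.Adj y y' →
      ∫ ω, Asum h θ ν t K y y' ω ^ (2 * P) ∂probM ν ≤ M ^ (2 * P)) :
    ∫ p, Asum h θ ν t K x x' p.1 * Asum h θ ν t K x' x p.2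
        * (msg ν G t Set.univ x x' p.1 - msg ν G t Set.univ x x' p.2) ^ 2 ∂rep G θ ν t
      ≤ 4 * M ^ 2 * (κ * ((∫ p, (msg ν G t Set.univ x x' p.1 - msg ν G t Set.univ x x' p.2) ^ 2
          ∂rep G θ ν t) / 4) + (κ ^ (P - 1))⁻¹) := by
  set X : Omega V × Omega V → ℝ := fun p =>
    Asum h θ ν t K x x' p.1 * Asum h θ ν t K x' x p.2 with hX
  set Z : Omega V × Omega V → ℝ := fun p =>
    (msg ν G t Set.univ x x' p.1 - msg ν G t Set.univ x x' p.2) ^ 2 / 4 with hZ
  have hXb : ∀ p, 0 ≤ X p ∧ X p ≤ (K : ℝ) * K := fun p => by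
    obtain ⟨a0, a1⟩ := Asum_bounds (ν := ν) h hd hθ t K hxx' p.1
    obtain ⟨b0, b1⟩ := Asum_bounds (ν := ν) h hd hθ t K hxx'.symm p.2
    exact ⟨mul_nonneg a0 b0, mul_le_mul a1 b1 b0 (by positivity)⟩
  have hZ0 : ∀ p, 0 ≤ Z p := fun p => div_nonneg (sq_nonneg _) (by norm_num)
  have hZ1 : ∀ p, Z p ≤ 1 := fun p => by
    simp only [hZ]
    rw [div_le_one (by norm_num)]
    exact (le_abs_self _).trans (abs_sq_sub_le (abs_msg_le _ _ _ _ _) (abs_msg_le _ _ _ _ _))
  have hXm : Measurable X := ((measurable_Asum h t K x x').comp measurable_fst).mul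
    ((measurable_Asum h t K x' x).comp measurable_snd)
  have hZm : Measurable Z := by simp only [hZ]; fun_prop
  have hA : ∀ y y', G.Adj y y' →
      Integrable (fun ω => Asum h θ ν t K y y' ω ^ (2 * P)) (probM ν) :=
    fun y y' hy => integrable_bdd ((measurable_Asum h t K y y').pow_const _)
      (C := (K : ℝ) ^ (2 * P)) fun ω => by
      obtain ⟨a0, a1⟩ := Asum_bounds (ν := ν) h hd hθ t K hy ω
      rw [abs_pow, abs_of_nonneg a0]; exact pow_le_pow_left₀ a0 a1 _
  have hXP : Integrable (fun p => X p ^ P) (rep G θ ν t) :=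
    integrable_bdd (hXm.pow_const _) (C := ((K : ℝ) * K) ^ P) fun p => by
      rw [abs_pow, abs_of_nonneg (hXb p).1]; exact pow_le_pow_left₀ (hXb p).1 (hXb p).2 P
  have hmomX : ∫ p, X p ^ P ∂rep G θ ν t ≤ (M ^ 2) ^ P := by
    have hf : Integrable (fun p : Omega V × Omega V => Asum h θ ν t K x x' p.1 ^ (2 * P))
        (rep G θ ν t) :=
      (MeasurePreserving.mk measurable_fst (rep_fst t)).integrable_comp_of_integrable (hA x x' hxx')
    have hs : Integrable (fun p : Omega V × Omega V => Asum h θ ν t K x' x p.2 ^ (2 * P))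
        (rep G θ ν t) :=
      (MeasurePreserving.mk measurable_snd (rep_snd t)).integrable_comp_of_integrable
        (hA x' x hxx'.symm)
    refine (integral_mono hXP ((hf.add hs).div_const 2) fun p => ?_).trans ?_
    · simp only [hX, Pi.add_apply, mul_pow, two_mul, pow_add]
      nlinarith [sq_nonneg (Asum h θ ν t K x x' p.1 ^ P - Asum h θ ν t K x' x p.2 ^ P)]
    · rw [integral_div, integral_add' hf hs,
        integral_rep_fst t (f := fun ω => Asum h θ ν t K x x' ω ^ (2 * P))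
          ((measurable_Asum h t K x x').pow_const _),
        integral_rep_snd t (f := fun ω => Asum h θ ν t K x' x ω ^ (2 * P))
          ((measurable_Asum h t K x' x).pow_const _), ← pow_mul]
      linarith [hmom x x' hxx', hmom x' x hxx'.symm]
  have main := split_scaled (μ := rep G θ ν t) (X := X) (Z := Z)
    (integrable_bdd hXm (C := (K : ℝ) * K) fun p => by
      rw [abs_of_nonneg (hXb p).1]; exact (hXb p).2) hXP
    (integrable_bdd hZm (C := 1) fun p => by rw [abs_of_nonneg (hZ0 p)]; exact hZ1 p)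
    (integrable_bdd (hXm.mul hZm) (C := (K : ℝ) * K) fun p => by
      rw [abs_mul, abs_of_nonneg (hXb p).1, abs_of_nonneg (hZ0 p)]
      exact (mul_le_of_le_one_right (hXb p).1 (hZ1 p)).trans (hXb p).2)
    (fun p => (hXb p).1) hZ0 hZ1 hP (pow_pos hM 2) hκ hmomX
  have e1 : ∀ p : Omega V × Omega V, Asum h θ ν t K x x' p.1 * Asum h θ ν t K x' x p.2
      * (msg ν G t Set.univ x x' p.1 - msg ν G t Set.univ x x' p.2) ^ 2 = 4 * (X p * Z p) :=
    fun p => by simp only [hX, hZ]; ring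
  simp only [e1, integral_const_mul]
  have e2 : ∫ p, Z p ∂rep G θ ν t
      = (∫ p, (msg ν G t Set.univ x x' p.1 - msg ν G t Set.univ x x' p.2) ^ 2 ∂rep G θ ν t) / 4 :=
    integral_div _ _
  rw [e2] at main
  linarith

/-- The weighted ball around a vertex. -/
noncomputable def Vsum (h : Reg G d) (θ : ℝ) (ν : Measure (V → Bool)) (t : ℝ) (K : ℕ) (v : V)
    (ω : Omega V) : ℝ :=
  1 + (bn d)⁻¹ * ∑ c ∈ h.nbr v, Asum h θ ν t K c v ω

@[fun_prop]
lemma measurable_Vsum (h : Reg G d) (t : ℝ) (K : ℕ) (v : V) :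
    Measurable (Vsum h θ ν t K v) := by
  unfold Vsum
  exact ((Finset.measurable_sum _ fun c _ => measurable_Asum h t K c v).const_mul _).const_add _

lemma ball_sum_le (h : Reg G d) (hd : 3 ≤ d) (hθ : |θ| < 1) (hc : bn d * θ ^ 2 = 1) (t : ℝ)
    (K : ℕ) (v : V) (ω : Omega V) :
    ∑ u ∈ h.ball v K, (θ ^ 2) ^ G.dist v u * upW h θ ν t v u ω ≤ Vsum h θ ν t K v ω := by
  have hb := two_le_bn hd
  have hθb : θ ^ 2 = (bn d)⁻¹ := eq_inv_of_mul_eq_one_left (by linarith)
  have hmem : v ∈ h.ball v K := h.mem_ball.2 (by simp)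
  rw [← Finset.add_sum_erase _ _ hmem, SimpleGraph.dist_self, pow_zero, one_mul, upW_self]
  simp only [Vsum]
  refine add_le_add le_rfl ?_
  rw [← Finset.sum_fiberwise_of_maps_to (t := h.nbr v) (g := fun u => parent h.tree u v)
    fun u hu => h.mem_nbr.2 (parent_spec h.tree (Finset.ne_of_mem_erase hu).symm).1,
    Finset.mul_sum]
  refine Finset.sum_le_sum fun c hc' => ?_
  have hadj := h.mem_nbr.1 hc'
  have eA : (bn d)⁻¹ * Asum h θ ν t K c v ω
      = ∑ u ∈ (Finset.range K).biUnion (sideSph h c v),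
          (bn d)⁻¹ * (((bn d)⁻¹) ^ G.dist c u * upW h θ ν t c u ω) := by
    rw [Finset.sum_biUnion fun a _ b _ hab => by
      rw [Function.onFun, Finset.disjoint_left]
      exact fun u hua hub => hab (((mem_sideSph h).1 hua).1.symm.trans ((mem_sideSph h).1 hub).1)]
    simp only [Asum, Finset.mul_sum]
    exact Finset.sum_congr rfl fun a _ => Finset.sum_congr rfl fun u hu => by
      rw [((mem_sideSph h).1 hu).1]
  rw [eA]
  refine le_trans ?_ (Finset.sum_le_sum_of_subset_of_nonneg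
    (s := (((h.ball v K).erase v).filter fun u => parent h.tree u v = c)) ?_
    fun u _ _ => mul_nonneg (by positivity) (mul_nonneg (by positivity) (upW_nonneg h hθ _ _ _ _)))
  · refine Finset.sum_le_sum fun u hu => ?_
    obtain ⟨hu1, rfl⟩ := Finset.mem_filter.1 hu
    have hne := (Finset.ne_of_mem_erase hu1).symm
    have hd' := parent_dist h.tree (o := u) hne
    have hdv : G.dist v u = G.dist (parent h.tree u v) u + 1 := by
      rw [G.dist_comm, ← hd', G.dist_comm]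
    rw [hθb, hdv, pow_succ', mul_assoc, upW_step h hadj.symm hd'.symm t ω]
    exact mul_le_mul_of_nonneg_left (mul_le_mul_of_nonneg_left
      (mul_le_of_le_one_right (upW_nonneg h hθ _ _ _ _)
        (edgeWt_le_one hθ (abs_msg_le _ _ _ _ _))) (by positivity)) (by positivity)
  · intro u hu
    obtain ⟨hu1, rfl⟩ := Finset.mem_filter.1 hu
    have hne := (Finset.ne_of_mem_erase hu1).symm
    have hd' := parent_dist h.tree (o := u) hne
    have hK := h.mem_ball.1 (Finset.mem_of_mem_erase hu1)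
    rw [G.dist_comm] at hK
    refine Finset.mem_biUnion.2 ⟨G.dist (parent h.tree u v) u, Finset.mem_range.2 ?_,
      (mem_sideSph h).2 ⟨rfl, hd'.symm⟩⟩
    rw [G.dist_comm]; omega

lemma Vsum_bounds (h : Reg G d) (hd : 3 ≤ d) (hθ : |θ| < 1) (t : ℝ) (K : ℕ) (v : V) (ω : Omega V) :
    1 ≤ Vsum h θ ν t K v ω ∧ Vsum h θ ν t K v ω ≤ 1 + 2 * K := by
  have hb := two_le_bn hd
  have hs : ∀ c ∈ h.nbr v, 0 ≤ Asum h θ ν t K c v ω ∧ Asum h θ ν t K c v ω ≤ K := fun c hc' =>
    Asum_bounds h hd hθ t K (h.mem_nbr.1 hc').symm ω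
  refine ⟨le_add_of_nonneg_right (mul_nonneg (by positivity)
    (Finset.sum_nonneg fun c hc' => (hs c hc').1)), add_le_add le_rfl ?_⟩
  refine (mul_le_mul_of_nonneg_left (Finset.sum_le_sum fun c hc' => (hs c hc').2)
    (by positivity)).trans ?_
  rw [Finset.sum_const, nsmul_eq_mul, h.card_nbr, ← mul_assoc]
  refine mul_le_mul_of_nonneg_right ?_ (Nat.cast_nonneg _)
  rw [inv_mul_le_iff₀ (by linarith)]
  have : (d : ℝ) = bn d + 1 := by rw [bn]; ring
  linarith

lemma Vsum_moment (h : Reg G d) (hd : 3 ≤ d) (hθ : |θ| < 1) (t : ℝ) (K P : ℕ) (hP : 1 ≤ P) (v : V)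
    {M : ℝ} (hM : 1 ≤ M) (hmom : ∀ y y', G.Adj y y' →
      ∫ ω, Asum h θ ν t K y y' ω ^ P ∂probM ν ≤ M ^ P) :
    ∫ ω, Vsum h θ ν t K v ω ^ P ∂probM ν ≤ (6 * M) ^ P := by
  have hb := two_le_bn hd
  have hdc : (d : ℝ) = bn d + 1 := by rw [bn]; ring
  have hd0 : (d : ℝ) ≠ 0 := by linarith
  have hpt : ∀ ω, Vsum h θ ν t K v ω ^ P ≤ (3 : ℝ) ^ P
      * (1 + ∑ c ∈ h.nbr v, (d : ℝ)⁻¹ * Asum h θ ν t K c v ω ^ P) := by
    intro ω
    have hs : ∀ c ∈ h.nbr v, 0 ≤ Asum h θ ν t K c v ω := fun c hc' =>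
      (Asum_bounds h hd hθ t K (h.mem_nbr.1 hc').symm ω).1
    set S := ∑ c ∈ h.nbr v, (d : ℝ)⁻¹ * Asum h θ ν t K c v ω
    have hS0 : 0 ≤ S := Finset.sum_nonneg fun c hc' => mul_nonneg (by positivity) (hs c hc')
    have hcoef : (bn d)⁻¹ ≤ 2 * (d : ℝ)⁻¹ := by
      rw [← div_eq_mul_inv, ← one_div, div_le_div_iff₀ (by linarith) (by linarith)]
      linarith
    have h1 : Vsum h θ ν t K v ω ≤ 1 + 2 * S := by
      simp only [Vsum, S, Finset.mul_sum]
      refine add_le_add le_rfl (Finset.sum_le_sum fun c hc' => ?_)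
      rw [← mul_assoc]
      exact mul_le_mul_of_nonneg_right hcoef (hs c hc')
    have h2 : S ^ P ≤ ∑ c ∈ h.nbr v, (d : ℝ)⁻¹ * Asum h θ ν t K c v ω ^ P :=
      Real.pow_arith_mean_le_arith_mean_pow _ (fun _ => (d : ℝ)⁻¹) _ (fun _ _ => by positivity)
        (by rw [Finset.sum_const, nsmul_eq_mul, h.card_nbr, mul_inv_cancel₀ hd0]) hs P
    refine (pow_le_pow_left₀ (by linarith [(Vsum_bounds (ν := ν) h hd hθ t K v ω).1]) h1 P).trans ?_
    rcases le_total S 1 with h3 | h3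
    · refine (pow_le_pow_left₀ (by linarith) (show 1 + 2 * S ≤ 3 * 1 by linarith) P).trans ?_
      rw [mul_pow, one_pow]
      exact mul_le_mul_of_nonneg_left (le_add_of_nonneg_right ((pow_nonneg hS0 P).trans h2))
        (by positivity)
    · refine (pow_le_pow_left₀ (by linarith) (show 1 + 2 * S ≤ 3 * S by linarith) P).trans ?_
      rw [mul_pow]
      exact mul_le_mul_of_nonneg_left (h2.trans (le_add_of_nonneg_left zero_le_one))
        (by positivity)
  have hAi : ∀ c ∈ h.nbr v,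
      Integrable (fun ω => (d : ℝ)⁻¹ * Asum h θ ν t K c v ω ^ P) (probM ν) :=
    fun c hc' => (integrable_bdd ((measurable_Asum h t K c v).pow_const _) (C := (K : ℝ) ^ P)
      fun ω => by
        obtain ⟨a0, a1⟩ := Asum_bounds (ν := ν) h hd hθ t K (h.mem_nbr.1 hc').symm ω
        rw [abs_pow, abs_of_nonneg a0]; exact pow_le_pow_left₀ a0 a1 _).const_mul _
  refine (integral_mono_of_nonneg (Eventually.of_forall fun ω => pow_nonneg
    (zero_le_one.trans (Vsum_bounds h hd hθ t K v ω).1) P)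
    (((integrable_const _).add (integrable_finsetSum _ hAi)).const_mul _)
    (Eventually.of_forall hpt)).trans ?_
  rw [integral_const_mul, integral_add' (integrable_const _) (integrable_finsetSum _ hAi),
    integral_const, probReal_univ, one_smul, integral_finsetSum _ hAi]
  have h1 : ∑ c ∈ h.nbr v, ∫ ω, (d : ℝ)⁻¹ * Asum h θ ν t K c v ω ^ P ∂probM ν ≤ M ^ P := by
    simp only [integral_const_mul]
    refine (Finset.sum_le_sum fun c hc' => mul_le_mul_of_nonneg_left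
      (hmom c v (h.mem_nbr.1 hc').symm) (by positivity)).trans (le_of_eq ?_)
    rw [Finset.sum_const, nsmul_eq_mul, h.card_nbr, ← mul_assoc, mul_inv_cancel₀ hd0, one_mul]
  calc (3 : ℝ) ^ P * (1 + ∑ c ∈ h.nbr v, ∫ ω, (d : ℝ)⁻¹ * Asum h θ ν t K c v ω ^ P ∂probM ν)
      ≤ 3 ^ P * (2 * M ^ P) := by
        refine mul_le_mul_of_nonneg_left ?_ (by positivity)
        linarith [one_le_pow₀ (n := P) hM]
    _ ≤ 3 ^ P * (2 ^ P * M ^ P) := by
        refine mul_le_mul_of_nonneg_left (mul_le_mul_of_nonneg_right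
          (le_self_pow₀ one_le_two (by omega)) (by positivity)) (by positivity)
    _ = _ := by rw [← mul_assoc, ← mul_pow, ← mul_pow]; congr 1; ring

/-- The end term is damped. -/
theorem end_le [Countable V] (h : Reg G d) (hd : 3 ≤ d) (hν : HasMarginals G θ ν) (hθ : |θ| < 1)
    (t : ℝ) (K P : ℕ) (hP : 1 ≤ P) (v : V) {M κ : ℝ} (hM : 1 ≤ M) (hκ : 0 < κ)
    (hmom : ∀ y y', G.Adj y y' → ∫ ω, Asum h θ ν t K y y' ω ^ P ∂probM ν ≤ M ^ P) :
    ∫ p, Vsum h θ ν t K v p.1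
        * (mu ν t Set.univ v p.1 - mu ν t Set.univ v p.2) ^ 2 ∂rep G θ ν t
      ≤ 24 * M * (κ * amb G θ ν t v + (κ ^ (P - 1))⁻¹) := by
  set X : Omega V × Omega V → ℝ := fun p => Vsum h θ ν t K v p.1 with hX
  set Z : Omega V × Omega V → ℝ := fun p =>
    (mu ν t Set.univ v p.1 - mu ν t Set.univ v p.2) ^ 2 / 4 with hZ
  have hXb : ∀ p, 0 ≤ X p ∧ X p ≤ 1 + 2 * (K : ℝ) := fun p => by
    obtain ⟨a, b⟩ := Vsum_bounds (ν := ν) h hd hθ t K v p.1
    exact ⟨by simp only [hX]; linarith, b⟩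
  have hZ0 : ∀ p, 0 ≤ Z p := fun p => div_nonneg (sq_nonneg _) (by norm_num)
  have hZ1 : ∀ p, Z p ≤ 1 := fun p => by
    simp only [hZ]
    rw [div_le_one (by norm_num)]
    exact (le_abs_self _).trans (abs_sq_sub_le (abs_mu_le _ _ _ _) (abs_mu_le _ _ _ _))
  have hXm : Measurable X := (measurable_Vsum h t K v).comp measurable_fst
  have hZm : Measurable Z := by simp only [hZ]; fun_prop
  have hmomX : ∫ p, X p ^ P ∂rep G θ ν t ≤ (6 * M) ^ P := by
    rw [integral_rep_fst t (f := fun ω => Vsum h θ ν t K v ω ^ P)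
      ((measurable_Vsum h t K v).pow_const _)]
    exact Vsum_moment h hd hθ t K P hP v hM hmom
  have main := split_scaled (μ := rep G θ ν t) (X := X) (Z := Z)
    (integrable_bdd hXm (C := 1 + 2 * (K : ℝ)) fun p => by
      rw [abs_of_nonneg (hXb p).1]; exact (hXb p).2)
    (integrable_bdd (hXm.pow_const P) (C := (1 + 2 * (K : ℝ)) ^ P) fun p => by
      rw [abs_pow, abs_of_nonneg (hXb p).1]; exact pow_le_pow_left₀ (hXb p).1 (hXb p).2 P)
    (integrable_bdd hZm (C := 1) fun p => by rw [abs_of_nonneg (hZ0 p)]; exact hZ1 p)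
    (integrable_bdd (hXm.mul hZm) (C := 1 + 2 * (K : ℝ)) fun p => by
      rw [abs_mul, abs_of_nonneg (hXb p).1, abs_of_nonneg (hZ0 p)]
      exact (mul_le_of_le_one_right (hXb p).1 (hZ1 p)).trans (hXb p).2)
    (fun p => (hXb p).1) hZ0 hZ1 hP (by linarith : (0 : ℝ) < 6 * M) hκ hmomX
  have e1 : ∀ p : Omega V × Omega V, Vsum h θ ν t K v p.1
      * (mu ν t Set.univ v p.1 - mu ν t Set.univ v p.2) ^ 2 = 4 * (X p * Z p) :=
    fun p => by simp only [hX, hZ]; ring
  simp only [e1, integral_const_mul]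
  have e2 : ∫ p, Z p ∂rep G θ ν t = amb G θ ν t v / 2 := by
    simp only [hZ]
    rw [integral_div, integral_rep_sub_sq (G := G) (θ := θ) (ν := ν) t (measurable_mu t _ v)
      (abs_mu_le t _ v),
      ← amb_eq_integral]
    ring
  rw [e2] at main
  have h0 : 0 ≤ 6 * M * (κ * amb G θ ν t v) :=
    mul_nonneg (by linarith) (mul_nonneg hκ.le (amb_nonneg t v))
  linarith

/-- The conditional variance of one covariance through two copies. -/
lemma halfJ_eq_rep [Countable V] (t : ℝ) (v u : V) :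
    4 * ∫ ω, (halfJ ν t v u ω - bE G θ ν t (halfJ ν t v u) ω) ^ 2 ∂probM ν
      = (∫ p, (covJ ν t Set.univ v u p.1 - covJ ν t Set.univ v u p.2) ^ 2 ∂rep G θ ν t) / 2 := by
  have e := integral_rep_sub_sq (G := G) (θ := θ) (ν := ν) t (measurable_halfJ (ν := ν) t v u)
    (abs_halfJ_le (ν := ν) t v u)
  have e' : ∀ p : Omega V × Omega V, (halfJ ν t v u p.1 - halfJ ν t v u p.2) ^ 2
      = (covJ ν t Set.univ v u p.1 - covJ ν t Set.univ v u p.2) ^ 2 / 4 := fun p => by
    simp only [halfJ]; ring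
  simp only [e', integral_div] at e
  linarith

/-- The bound on one covariance by transport terms. -/
lemma halfJ_le_tau [Countable V] (h : Reg G d) (hν : HasMarginals G θ ν) (hθ : |θ| < 1)
    (h0 : θ ≠ 0) (t : ℝ) (v u : V) :
    4 * ∫ ω, (halfJ ν t v u ω - bE G θ ν t (halfJ ν t v u) ω) ^ 2 ∂probM ν
      ≤ (θ ^ 2) ^ G.dist v u * (8 / (1 - θ ^ 2) ^ 3) *
        ((∑ i ∈ Finset.range (G.dist v u), tau h θ ν t (ray h v u) (G.dist v u) i)
          + ∫ p, upW h θ ν t v u p.1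
              * (mu ν t Set.univ v p.1 - mu ν t Set.univ v p.2) ^ 2 ∂rep G θ ν t) := by
  rw [halfJ_eq_rep]
  refine (half_le_self (integral_nonneg fun _ => sq_nonneg _)).trans ?_
  have hb1 := covJ_sub_sq_le h hν hθ h0 (ray_geo h v u) t
  simp only [ray_zero, ray_last] at hb1
  have i2 : Integrable (fun p : Omega V × Omega V => upW h θ ν t v u p.1
      * (mu ν t Set.univ v p.1 - mu ν t Set.univ v p.2) ^ 2) (rep G θ ν t) :=
    integrable_bdd (by fun_prop) (C := 1 * 4) fun p => by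
      rw [abs_mul, abs_of_nonneg (upW_nonneg h hθ _ _ _ _)]
      exact mul_le_mul (upW_le_one h hθ _ _ _ _) (abs_sq_sub_le (abs_mu_le _ _ _ _)
        (abs_mu_le _ _ _ _)) (abs_nonneg _) zero_le_one
  have i1 := fun i => integrable_tau (ν := ν) h hθ t (ray h v u i) u (ray h v u (i + 1)) v
    (ray h v u i) (ray h v u (i + 1))
  refine (integral_mono_of_nonneg (Eventually.of_forall fun _ => sq_nonneg _)
    (((integrable_finsetSum _ fun i _ => i1 i).add i2).const_mul _) hb1).trans (le_of_eq ?_)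
  simp only [Pi.add_apply]
  rw [integral_const_mul, integral_add (integrable_finsetSum _ fun i _ => i1 i) i2,
    integral_finsetSum _ fun i _ => i1 i]
  simp only [tau, ray_zero, ray_last]

lemma card_filter_sphere (h : Reg G d) (v : V) (K k : ℕ) :
    (((h.ball v K).filter fun u => G.dist v u = k).card : ℝ) ≤ 2 * bn d ^ k := by
  refine le_trans ?_ (h.card_sphere_le v k)
  rw [Set.ncard_eq_toFinset_card _ (h.finite_sphere v k)]
  exact_mod_cast Finset.card_le_card fun u hu => by simp [(Finset.mem_filter.1 hu).2]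

/-- The sum of the conditional variances over a ball, by transport. -/
theorem ball_le_transport [Countable V] (h : Reg G d) (hd : 3 ≤ d) (hν : HasMarginals G θ ν)
    (hθ : |θ| < 1) (hc : bn d * θ ^ 2 = 1) {x x' : V} (hxx' : G.Adj x x') (t : ℝ) (K : ℕ) (v : V) :
    ∑ u ∈ h.ball v K, 4 * ∫ ω, (halfJ ν t v u ω - bE G θ ν t (halfJ ν t v u) ω) ^ 2 ∂probM ν
      ≤ 8 / (1 - θ ^ 2) ^ 3 * (2 * (∫ p, Asum h θ ν t K x x' p.1 * Asum h θ ν t K x' x p.2
          * (msg ν G t Set.univ x x' p.1 - msg ν G t Set.univ x x' p.2) ^ 2 ∂rep G θ ν t)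
        + ∫ p, Vsum h θ ν t K v p.1
            * (mu ν t Set.univ v p.1 - mu ν t Set.univ v p.2) ^ 2 ∂rep G θ ν t) := by
  have h0θ : θ ≠ 0 := fun e => by rw [e] at hc; simp at hc
  have h2θ : 0 < 1 - θ ^ 2 := by linarith [(sq_lt_one_iff_abs_lt_one θ).2 hθ]
  set D := 8 / (1 - θ ^ 2) ^ 3 with hD
  have hD0 : 0 ≤ D := by positivity
  choose Y hY using exists_geo h
  refine (Finset.sum_le_sum fun u _ => halfJ_le_tau h hν hθ h0θ t v u).trans ?_
  simp only [mul_add, Finset.sum_add_distrib]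
  rw [mul_left_comm D 2]
  refine add_le_add ?_ ?_
  · rw [← Finset.sum_fiberwise_of_maps_to (t := Finset.range (K + 1)) (g := G.dist v)
      fun u hu => Finset.mem_range.2 (Nat.lt_succ_of_le (h.mem_ball.1 hu))]
    calc _ ≤ ∑ k ∈ Finset.range (K + 1), 2 * (D * ∑ i ∈ Finset.range k,
          tau h θ ν t (Y (i + 1 + (k - 1 - i))) (i + 1 + (k - 1 - i)) i) := by
          refine Finset.sum_le_sum fun k _ => ?_
          rw [Finset.sum_congr rfl (g := fun _ => (θ ^ 2) ^ k * D * ∑ i ∈ Finset.range k,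
              tau h θ ν t (Y (i + 1 + (k - 1 - i))) (i + 1 + (k - 1 - i)) i) fun u hu => by
            obtain ⟨-, rfl⟩ := Finset.mem_filter.1 hu
            congr 1
            refine Finset.sum_congr rfl fun i hi => ?_
            rw [Finset.mem_range] at hi
            rw [show i + 1 + (G.dist v u - 1 - i) = G.dist v u by omega]
            exact tau_eq h hν hθ t (hY _) (ray_geo h v u) hi,
            Finset.sum_const, nsmul_eq_mul, ← mul_assoc, ← mul_assoc, mul_assoc _ D]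
          refine mul_le_mul_of_nonneg_right ?_
            (mul_nonneg hD0 (Finset.sum_nonneg fun i _ => tau_nonneg h hθ _ _ _ _))
          refine (mul_le_mul_of_nonneg_right (card_filter_sphere h v K k) (by positivity)).trans
            (le_of_eq ?_)
          rw [mul_assoc, ← mul_pow, hc, one_pow, mul_one]
      _ ≤ 2 * (D * ∑ a ∈ Finset.range K, ∑ b ∈ Finset.range K,
            tau h θ ν t (Y (a + 1 + b)) (a + 1 + b) a) := by
          rw [← Finset.mul_sum, ← Finset.mul_sum]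
          exact mul_le_mul_of_nonneg_left (mul_le_mul_of_nonneg_left
            (triangle_le (f := fun a b => tau h θ ν t (Y (a + 1 + b)) (a + 1 + b) a)
              (fun a b => tau_nonneg h hθ _ _ _ _) K) hD0) zero_le_two
      _ = _ := by rw [pair_sum h hd hν hθ hY hxx']
  · set Zv : Omega V × Omega V → ℝ := fun p =>
      (mu ν t Set.univ v p.1 - mu ν t Set.univ v p.2) ^ 2 with hZv
    have hiu : ∀ u, Integrable (fun p : Omega V × Omega V =>
        (θ ^ 2) ^ G.dist v u * (upW h θ ν t v u p.1 * Zv p)) (rep G θ ν t) := fun u =>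
      (integrable_bdd (by fun_prop) (C := 1 * 4) fun p => by
        rw [abs_mul, abs_of_nonneg (upW_nonneg h hθ _ _ _ _)]
        exact mul_le_mul (upW_le_one h hθ _ _ _ _) (abs_sq_sub_le (abs_mu_le _ _ _ _)
          (abs_mu_le _ _ _ _)) (abs_nonneg _) zero_le_one).const_mul _
    calc ∑ u ∈ h.ball v K, (θ ^ 2) ^ G.dist v u * D
          * ∫ p, upW h θ ν t v u p.1 * Zv p ∂rep G θ ν t
        = D * ∫ p, ∑ u ∈ h.ball v K,
            (θ ^ 2) ^ G.dist v u * (upW h θ ν t v u p.1 * Zv p) ∂rep G θ ν t := by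
          rw [integral_finsetSum _ fun u _ => hiu u, Finset.mul_sum]
          simp only [integral_const_mul]
          exact Finset.sum_congr rfl fun u _ => by ring
      _ ≤ D * ∫ p, Vsum h θ ν t K v p.1 * Zv p ∂rep G θ ν t := by
          refine mul_le_mul_of_nonneg_left (integral_mono
            (integrable_finsetSum _ fun u _ => hiu u)
            (integrable_bdd (by fun_prop) (C := (1 + 2 * (K : ℝ)) * 4) fun p => ?_) fun p => ?_) hD0
          · obtain ⟨a, b⟩ := Vsum_bounds (ν := ν) h hd hθ t K v p.1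
            rw [abs_mul, abs_of_nonneg (by linarith : 0 ≤ Vsum h θ ν t K v p.1)]
            exact mul_le_mul b (abs_sq_sub_le (abs_mu_le _ _ _ _) (abs_mu_le _ _ _ _))
              (abs_nonneg _) (by positivity)
          · simp only [← mul_assoc, ← Finset.sum_mul]
            exact mul_le_mul_of_nonneg_right (ball_sum_le h hd hθ hc t K v p.1) (sq_nonneg _)

/-- The first bound on the conditional variance of the posterior covariances. -/
theorem crude_bound [Countable V] (h : Reg G d) (hd : 3 ≤ d) (hν : HasMarginals G θ ν)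
    (hθ : |θ| < 1) (hc : bn d * θ ^ 2 = 1) :
    ∃ C, 0 ≤ C ∧ ∀ x0 p0, G.Adj x0 p0 → ∀ t, 0 < qe ν G t x0 p0 → ∀ P : ℕ, 1 ≤ P →
      ∀ κ : ℝ, 0 < κ → ∀ (K : ℕ) (v : V),
        ∑ u ∈ h.ball v K, 4 * ∫ ω, (halfJ ν t v u ω
            - bE G θ ν t (halfJ ν t v u) ω) ^ 2 ∂probM ν
          ≤ C * (1 / qe ν G t x0 p0 + Real.log P + 1) ^ 2
              * (κ * amb G θ ν t v + (κ ^ (P - 1))⁻¹) := by
  obtain ⟨C0, hC0, hmom⟩ := Asum_moment h hd hν hθ hc
  obtain ⟨C1, hC1, hrep⟩ := replica_msg h hν hθ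
  have h2θ : 0 < 1 - θ ^ 2 := by linarith [(sq_lt_one_iff_abs_lt_one θ).2 hθ]
  set N := 2 * C0 + 1 with hN
  refine ⟨8 / (1 - θ ^ 2) ^ 3 * (8 * N ^ 2 * (C1 / 4 + 1) + 24 * N), by positivity,
    fun x0 p0 hx0 t hq P hP κ hκ K v => ?_⟩
  set M := 1 / qe ν G t x0 p0 + Real.log P + 1 with hM
  have hlP : 0 ≤ Real.log P := Real.log_nonneg (by exact_mod_cast hP)
  have hq1 : 1 ≤ 1 / qe ν G t x0 p0 := by rw [le_div_iff₀ hq, one_mul]; exact mom_le_one _ _ _ _
  have hM1 : 1 ≤ M := by rw [hM]; linarith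
  have hm1 : ∀ x p, G.Adj x p →
      ∫ ω, Asum h θ ν t K x p ω ^ (2 * P) ∂probM ν ≤ (N * M) ^ (2 * P) := fun x p hxp => by
    refine (hmom x0 p0 hx0 t hq (2 * P) (by omega) K x p hxp).trans (pow_le_pow_left₀ ?_ ?_ _)
    · have : 0 ≤ Real.log ((2 * P : ℕ) : ℝ) :=
        Real.log_nonneg (by exact_mod_cast (show 1 ≤ 2 * P by omega))
      positivity
    · push_cast
      rw [Real.log_mul (by norm_num) (by exact_mod_cast (show P ≠ 0 by omega))]
      have hl2 : Real.log 2 ≤ 1 := by linarith [Real.log_le_sub_one_of_pos (two_pos (α := ℝ))]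
      rw [hN, hM]
      nlinarith [mul_nonneg hC0 (show (0 : ℝ) ≤ 1 / qe ν G t x0 p0 + Real.log P + 1 - Real.log 2 by
        linarith)]
  have hm2 : ∀ x p, G.Adj x p → ∫ ω, Asum h θ ν t K x p ω ^ P ∂probM ν ≤ (N * M) ^ P :=
    fun x p hxp => (hmom x0 p0 hx0 t hq P hP K x p hxp).trans
      (pow_le_pow_left₀ (by positivity) (mul_le_mul_of_nonneg_right (by linarith) (by linarith)) _)
  have hN1 : 1 ≤ N := by linarith
  have hNM : 1 ≤ N * M := one_le_mul_of_one_le_of_one_le hN1 hM1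
  obtain ⟨w, hw⟩ := h.exists_dist v 1
  have hvw := dist_eq_one_iff_adj.1 hw
  refine (ball_le_transport h hd hν hθ hc hvw t K v).trans ?_
  have hp := pair_le h hd hν hθ hvw t K P hP (by linarith : 0 < N * M) hκ hm1
  have he := end_le h hd hν hθ t K P hP v hNM hκ hm2
  have hamb := amb_nonneg (G := G) (θ := θ) (ν := ν) t v
  have hrep' := hrep t v w hvw
  set E := κ * amb G θ ν t v + (κ ^ (P - 1))⁻¹ with hE
  have hκ' : 0 ≤ (κ ^ (P - 1))⁻¹ := by positivity
  have hE0 : 0 ≤ E := by positivity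
  set I := ∫ p, (msg ν G t Set.univ v w p.1 - msg ν G t Set.univ v w p.2) ^ 2 ∂rep G θ ν t
  have h1 : κ * (I / 4) + (κ ^ (P - 1))⁻¹ ≤ (C1 / 4 + 1) * E := by
    rw [hE]
    have := mul_le_mul_of_nonneg_left hrep' hκ.le
    nlinarith [mul_nonneg hC1 hκ', mul_nonneg hκ.le hamb]
  have hN2 : N * M ≤ N * M ^ 2 := mul_le_mul_of_nonneg_left (by nlinarith) (by linarith)
  have h2 : 24 * (N * M) * E ≤ 24 * (N * M ^ 2) * E :=
    mul_le_mul_of_nonneg_right (by linarith) hE0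
  have h3 := mul_le_mul_of_nonneg_left h1 (show 0 ≤ 8 * (N * M) ^ 2 by positivity)
  refine (mul_le_mul_of_nonneg_left (show _ ≤ (8 * N ^ 2 * (C1 / 4 + 1) + 24 * N) * M ^ 2 * E by
    linarith) (by positivity)).trans (le_of_eq (by ring))

end Vale.Agent.P161
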