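import Vale.Agent.P161.Critical.Rays

/-!
Damping of products of edge weights: one step, exponential moments of the weighted sums over a
side, and their high moments.
-/

open MeasureTheory ProbabilityTheory SimpleGraph Filter
open scoped Topology

set_option linter.unusedSectionVars false

namespace Vale.Agent.P161

universe u

variable {V : Type u} [DecidableEq V] {G : SimpleGraph V} [DecidableRel G.Adj] {θ : ℝ} {d : ℕ}
variable {ν : Measure (V → Bool)} [IsProbabilityMeasure ν]

lemma edgeWt_den_pos (hθ : |θ| < 1) {a : ℝ} (ha : |a| ≤ 1) : 0 < 1 - θ ^ 2 * a ^ 2 := by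
  have h1 : a ^ 2 ≤ 1 := (sq_le_one_iff_abs_le_one a).2 ha
  have h2 : θ ^ 2 < 1 := (sq_lt_one_iff_abs_lt_one θ).2 hθ
  nlinarith [sq_nonneg a, sq_nonneg θ]

lemma edgeWt_nonneg (hθ : |θ| < 1) {a : ℝ} (ha : |a| ≤ 1) : 0 ≤ edgeWt θ a :=
  div_nonneg (by linarith [(sq_le_one_iff_abs_le_one a).2 ha]) (edgeWt_den_pos hθ ha).le

lemma edgeWt_le (hθ : |θ| < 1) {a : ℝ} (ha : |a| ≤ 1) :
    edgeWt θ a ≤ 1 - (1 - θ ^ 2) * a ^ 2 := by
  rw [edgeWt, div_le_iff₀ (edgeWt_den_pos hθ ha)]
  have h2 : θ ^ 2 < 1 := (sq_lt_one_iff_abs_lt_one θ).2 hθ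
  nlinarith [mul_nonneg (mul_nonneg (sq_nonneg θ) (sq_nonneg a))
    (mul_nonneg (sub_nonneg.2 h2.le) (sq_nonneg a))]

lemma edgeWt_le_one (hθ : |θ| < 1) {a : ℝ} (ha : |a| ≤ 1) : edgeWt θ a ≤ 1 :=
  (edgeWt_le hθ ha).trans (by
    have h2 : θ ^ 2 < 1 := (sq_lt_one_iff_abs_lt_one θ).2 hθ
    nlinarith [sq_nonneg a])

lemma edgeWt_neg (θ a : ℝ) : edgeWt θ (-a) = edgeWt θ a := by simp [edgeWt]

@[fun_prop]
lemma measurable_edgeWt (θ : ℝ) : Measurable (edgeWt θ) := by unfold edgeWt; fun_prop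

lemma abs_msg_le (t : ℝ) (S : Set V) (x p : V) (ω : Omega V) : |msg ν G t S x p ω| ≤ 1 :=
  abs_cE_le _ _ _ _

@[fun_prop]
lemma measurable_msg (t : ℝ) (S : Set V) (x p : V) : Measurable (msg ν G t S x p) :=
  measurable_cE _ _ _

lemma measurable_msg_obs (t : ℝ) (S : Set V) (x p : V) :
    Measurable[obsAlg t (S ∩ sideOf G x p)] (msg ν G t S x p) :=
  measurable_cE_obs _ _ _

lemma siteDep_of_obs {t : ℝ} {B : Set V} {F : Omega V → ℝ} (hF : Measurable[obsAlg t B] F) :
    SiteDep B F := by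
  obtain ⟨φ, -, e⟩ := hF.exists_eq_measurable_comp
  rw [e]
  exact (siteDep_obs t B).comp φ

/-- One step of damping. -/
theorem step_damp (h : Reg G d) (hν : HasMarginals G θ ν) (hθ : |θ| < 1) {v v' : V}
    (hvv' : G.Adj v v') (t : ℝ) {A B : Set V} (hA : A ⊆ sideOf G v v') (hB : B ⊆ sideOf G v' v)
    {F : Omega V → ℝ} (hFm : Measurable[obsAlg t B] F) {C : ℝ} (hF0 : ∀ ω, 0 ≤ F ω)
    (hFC : ∀ ω, F ω ≤ C) :
    ∫ ω, edgeWt θ (mu ν t (A ∪ B) v ω) * F ω ∂probM ν
      ≤ (1 - (1 - θ ^ 2) ^ 2 * mom ν t A v 1) * ∫ ω, F ω ∂probM ν := by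
  have hFm' : Measurable F := hFm.mono (obsAlg_le t B) le_rfl
  obtain ⟨φ0, hφ0, eF⟩ := hFm.exists_eq_measurable_comp
  obtain ⟨φA, hφA, hφA1, eA⟩ := exists_cE_eq (ν := ν) t A (sp v)
  obtain ⟨φB, hφB, hφB1, eB⟩ := exists_cE_eq (ν := ν) t B (sp v')
  set r : ℝ → ℝ → ℝ := fun a b => (a + θ * b) / (1 + θ * (a * b))
  have hr : ∀ a b : ℝ, |a| ≤ 1 → |b| ≤ 1 → |r a b| ≤ 1 := fun a b ha hb => by
    have hpos := one_add_mul_pos hθ ha hb
    simp only [r]
    rw [abs_div, abs_of_pos hpos, div_le_one hpos, abs_le]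
    obtain ⟨a1, a2⟩ := abs_le.1 ha
    obtain ⟨c1, c2⟩ := abs_le.1 (show |θ * b| ≤ 1 by
      rw [abs_mul]; exact mul_le_one₀ hθ.le (abs_nonneg _) hb)
    constructor <;> nlinarith [mul_nonneg (by linarith : 0 ≤ 1 + a) (by linarith : 0 ≤ 1 + θ * b),
      mul_nonneg (by linarith : 0 ≤ 1 - a) (by linarith : 0 ≤ 1 - θ * b)]
  set P : Omega V × Omega V → ℝ := fun p => edgeWt θ (r (mu ν t A v p.1) (mu ν t B v' p.2))
    * F p.2 * (1 + θ * (mu ν t A v p.1 * mu ν t B v' p.2)) with hP
  set Q : Omega V × Omega V → ℝ := fun p => edgeWt θ (r (-(mu ν t A v p.1)) (mu ν t B v' p.2))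
    * F p.2 * (1 + θ * (-(mu ν t A v p.1) * mu ν t B v' p.2)) with hQ
  have hrm : Measurable (Function.uncurry r) := by
    show Measurable fun z : ℝ × ℝ => (z.1 + θ * z.2) / (1 + θ * (z.1 * z.2))
    fun_prop
  have hma : Measurable fun p : Omega V × Omega V => mu ν t A v p.1 :=
    (measurable_cE t A _).comp measurable_fst
  have hmb : Measurable fun p : Omega V × Omega V => mu ν t B v' p.2 :=
    (measurable_cE t B _).comp measurable_snd
  have hmF : Measurable fun p : Omega V × Omega V => F p.2 := hFm'.comp measurable_snd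
  have hPm : Measurable P := (((measurable_edgeWt θ).comp (hrm.comp (hma.prodMk hmb))).mul hmF).mul
    (((hma.mul hmb).const_mul θ).const_add 1)
  have hQm : Measurable Q := (((measurable_edgeWt θ).comp (hrm.comp (hma.neg.prodMk hmb))).mul
    hmF).mul (((hma.neg.mul hmb).const_mul θ).const_add 1)
  have hC0 : 0 ≤ C := (hF0 (fun _ => false, 0)).trans (hFC _)
  have hbd : ∀ a b f : ℝ, |a| ≤ 1 → |b| ≤ 1 → 0 ≤ f → f ≤ C →
      |edgeWt θ (r a b) * f * (1 + θ * (a * b))| ≤ C * 2 := fun a b f ha hb hf hf' => by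
    have h1 := edgeWt_nonneg hθ (hr a b ha hb)
    have h2 := edgeWt_le_one hθ (hr a b ha hb)
    have h3 : |θ * (a * b)| ≤ 1 := by
      rw [abs_mul]; exact mul_le_one₀ hθ.le (abs_nonneg _) (by
        rw [abs_mul]; exact mul_le_one₀ ha (abs_nonneg _) hb)
    rw [abs_mul, abs_of_nonneg (mul_nonneg h1 hf)]
    refine mul_le_mul ((mul_le_of_le_one_left hf h2).trans hf') ?_ (abs_nonneg _) hC0
    exact (abs_add_le _ _).trans (by rw [abs_one]; linarith)
  have hPi : Integrable P ((probM ν).prod (probM ν)) := integrable_bdd hPm fun p =>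
    hbd _ _ _ (abs_mu_le _ _ _ _) (abs_mu_le _ _ _ _) (hF0 _) (hFC _)
  have hQi : Integrable Q ((probM ν).prod (probM ν)) := integrable_bdd hQm fun p =>
    hbd _ _ _ (by rw [abs_neg]; exact abs_mu_le _ _ _ _) (abs_mu_le _ _ _ _) (hF0 _) (hFC _)
  have e1 : ∫ ω, edgeWt θ (mu ν t (A ∪ B) v ω) * F ω ∂probM ν
      = ∫ p, P p ∂(probM ν).prod (probM ν) := by
    have hΨ : Measurable fun z : (V × ℕ × ℕ → ℝ) × (V × ℕ × ℕ → ℝ) =>
        edgeWt θ (r (φA z.1) (φB z.2)) * φ0 z.2 :=
      ((measurable_edgeWt θ).comp (hrm.comp ((hφA.comp measurable_fst).prodMk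
        (hφB.comp measurable_snd)))).mul (hφ0.comp measurable_snd)
    calc _ = ∫ ω, edgeWt θ (r (φA (obs t A ω)) (φB (obs t B ω))) * φ0 (obs t B ω) ∂probM ν :=
          integral_congr_ae (by
          filter_upwards [edge_formulas h hν hθ hvv' t hA hB] with ω hω
          rw [hω]
          simp only [mu, eA, eB, eF, r, Function.comp_apply])
      _ = _ := cut_obs h hν hθ hvv' t hA hB hΨ
      _ = _ := integral_congr_ae (Eventually.of_forall fun p => by
          simp only [hP, pairDensity, mu, eF, Function.comp_apply]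
          rw [show (fun ω : Omega V => spin (ω.1 v)) = sp v from rfl,
            show (fun ω : Omega V => spin (ω.1 v')) = sp v' from rfl, eA, eB])
  have e2 : ∫ p, Q p ∂(probM ν).prod (probM ν) = ∫ p, P p ∂(probM ν).prod (probM ν) := by
    have hT : MeasurePreserving (Prod.map (flipAll (V := V)) (id : Omega V → Omega V))
        ((probM ν).prod (probM ν)) ((probM ν).prod (probM ν)) :=
      (measurePreserving_flipAll h hν).prod (MeasurePreserving.id _)
    have e := integral_map (μ := (probM ν).prod (probM ν)) (f := P) hT.measurable.aemeasurable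
      hPm.aestronglyMeasurable
    rw [hT.map_eq] at e
    rw [e]
    refine integral_congr_ae ?_
    filter_upwards [Measure.quasiMeasurePreserving_fst.ae (mu_flipAll h hν t A v)] with p hp
    simp only [hP, hQ, Prod.map_fst, Prod.map_snd, id, hp]
  set c := (1 - θ ^ 2) ^ 2 with hc
  have hpt : ∀ p, P p + Q p ≤ 2 * F p.2 - 2 * c * (mu ν t A v p.1 ^ (2 * 1) * F p.2) := by
    intro p
    set a := mu ν t A v p.1
    set b := mu ν t B v' p.2
    have ha : |a| ≤ 1 := abs_mu_le _ _ _ _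
    have hb : |b| ≤ 1 := abs_mu_le _ _ _ _
    have ht2 : θ ^ 2 < 1 := (sq_lt_one_iff_abs_lt_one θ).2 hθ
    have ha2 : a ^ 2 ≤ 1 := (sq_le_one_iff_abs_le_one _).2 ha
    have hb2 : b ^ 2 ≤ 1 := (sq_le_one_iff_abs_le_one _).2 hb
    obtain ⟨x1, x2⟩ := abs_lt.1 (show |θ * (a * b)| < 1 by
      rw [abs_mul]
      exact mul_lt_one_of_nonneg_of_lt_one_left (abs_nonneg _) hθ
        (by rw [abs_mul]; exact mul_le_one₀ ha (abs_nonneg _) hb))
    set x := θ * (a * b) with hx
    have h1 : (0 : ℝ) < 1 + x := by linarith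
    have h2 : (0 : ℝ) < 1 - x := by linarith
    have h3 : (0 : ℝ) < 1 - x ^ 2 := by nlinarith
    have k1 := mul_le_mul_of_nonneg_right (edgeWt_le hθ (hr a b ha hb)) h1.le
    have k2 := mul_le_mul_of_nonneg_right (edgeWt_le hθ (hr (-a) b (by rwa [abs_neg]) hb)) h2.le
    have e : r a b ^ 2 * (1 + x) + r (-a) b ^ 2 * (1 - x)
        = 2 * (a ^ 2 + θ ^ 2 * b ^ 2 - 2 * (a ^ 2 * (θ ^ 2 * b ^ 2))) / (1 - x ^ 2) := by
      have e1 : ∀ X z : ℝ, 0 < z → (X / z) ^ 2 * z = X ^ 2 / z := fun X z hz => by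
        rw [div_pow]; field_simp
      simp only [r]
      rw [show θ * (-a * b) = -x by rw [hx]; ring, ← sub_eq_add_neg, ← hx, e1 _ _ h1, e1 _ _ h2,
        div_add_div _ _ h1.ne' h2.ne', div_eq_div_iff (mul_ne_zero h1.ne' h2.ne') h3.ne', hx]
      ring
    have hN : (1 - θ ^ 2) * a ^ 2
        ≤ (a ^ 2 + θ ^ 2 * b ^ 2 - 2 * (a ^ 2 * (θ ^ 2 * b ^ 2))) / (1 - x ^ 2) := by
      rw [le_div_iff₀ h3]
      have : 0 ≤ (1 - θ ^ 2) * a ^ 2 * x ^ 2 := by
        have : 0 ≤ 1 - θ ^ 2 := by linarith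
        positivity
      nlinarith [mul_nonneg (mul_nonneg (sq_nonneg θ) (sq_nonneg b)) (sub_nonneg.2 ha2),
        mul_nonneg (mul_nonneg (sq_nonneg θ) (sq_nonneg a)) (sub_nonneg.2 hb2)]
    have k3 : edgeWt θ (r a b) * (1 + x) + edgeWt θ (r (-a) b) * (1 - x) ≤ 2 - 2 * c * a ^ 2 := by
      have := mul_le_mul_of_nonneg_left hN (show 0 ≤ 2 * (1 - θ ^ 2) by linarith)
      have e' : (1 - θ ^ 2) * (r a b ^ 2 * (1 + x) + r (-a) b ^ 2 * (1 - x))
          = 2 * (1 - θ ^ 2) * ((a ^ 2 + θ ^ 2 * b ^ 2 - 2 * (a ^ 2 * (θ ^ 2 * b ^ 2))) / (1 - x ^ 2)) := by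
        rw [e, mul_div_assoc]; ring
      rw [hc]
      linarith
    have k4 := mul_le_mul_of_nonneg_right k3 (hF0 p.2)
    simp only [hP, hQ]
    rw [show mu ν t A v p.1 = a from rfl, show mu ν t B v' p.2 = b from rfl, ← hx,
      show θ * (-a * b) = -x by rw [hx]; ring]
    refine le_of_eq_of_le ?_ (k4.trans (le_of_eq ?_)) <;> ring
  have hFi : Integrable F (probM ν) := integrable_bdd hFm' (C := C) fun ω => by
    rw [abs_of_nonneg (hF0 ω)]; exact hFC ω
  have hFi2 : Integrable (fun p : Omega V × Omega V => F p.2) ((probM ν).prod (probM ν)) :=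
    hFi.comp_snd (probM ν)
  have haF : Integrable (fun p : Omega V × Omega V => mu ν t A v p.1 ^ (2 * 1) * F p.2)
      ((probM ν).prod (probM ν)) := (integrable_mu_pow t A v _).mul_prod hFi
  have h4 := integral_mono (hPi.add hQi) ((hFi2.const_mul 2).sub (haF.const_mul (2 * c))) hpt
  simp only [Pi.add_apply, Pi.sub_apply] at h4
  rw [integral_add hPi hQi, e2, integral_sub (hFi2.const_mul 2) (haF.const_mul (2 * c)),
    integral_const_mul, integral_const_mul,
    integral_prod_mul (fun ω => mu ν t A v ω ^ (2 * 1)) F,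
    integral_fun_snd F, probReal_univ, one_smul] at h4
  rw [e1]
  simp only [mom]
  linarith

/-- The information carried over from one neighbour. -/
lemma fan_single_ge (h : Reg G d) (hd : 3 ≤ d) (hν : HasMarginals G θ ν) (hθ : |θ| < 1)
    (hc : bn d * θ ^ 2 = 1) {x e : V} (hxe : G.Adj x e) (t : ℝ) {B : Set V}
    (hB : B ⊆ sideOf G e x) : θ ^ 2 * mom ν t B e 1 ≤ mom ν t ({x} ∪ B) x 1 := by
  refine le_trans ?_ (mom_union_ge h hν hθ hxe t
    (Set.singleton_subset_iff.2 (self_mem_sideOf hxe)) hB)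
  have h1 := mom_le_one (ν := ν) t B e 1
  have h2 : 2 * θ ^ 2 ≤ 1 := by nlinarith [two_le_bn hd, sq_nonneg θ]
  have h3 : 2 * θ ^ 2 * mom ν t B e 1 ≤ 1 :=
    (mul_le_of_le_one_right (mul_nonneg zero_le_two (sq_nonneg θ)) h1).trans h2
  linarith [mul_le_mul_of_nonneg_left h3 (mom_nonneg (ν := ν) t {x} x 1)]

/-- The damping constant. -/
noncomputable def kap (θ : ℝ) : ℝ := (1 - θ ^ 2) ^ 2 * θ ^ 2

lemma kap_nonneg (θ : ℝ) : 0 ≤ kap θ := by unfold kap; positivity

lemma kap_le_one (hθ : |θ| < 1) : kap θ ≤ 1 := by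
  have h2 : θ ^ 2 < 1 := (sq_lt_one_iff_abs_lt_one θ).2 hθ
  unfold kap
  exact mul_le_one₀ (pow_le_one₀ (by linarith) (by linarith [sq_nonneg θ])) (sq_nonneg _) h2.le

lemma kap_pos (hθ : |θ| < 1) (hc : bn d * θ ^ 2 = 1) : 0 < kap θ := by
  have h2 : θ ^ 2 < 1 := (sq_lt_one_iff_abs_lt_one θ).2 hθ
  have h0 : θ ≠ 0 := fun e => by rw [e] at hc; simp at hc
  unfold kap
  exact mul_pos (pow_pos (by linarith) 2) (by positivity)

/-- The weighted sums over one side, with one extra step at its mouth. -/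
noncomputable def Pr (h : Reg G d) (θ : ℝ) (ν : Measure (V → Bool)) (t : ℝ) :
    ℕ → V → V → Omega V → ℝ
  | 0, _, _ => fun _ => 1
  | K + 1, x, p => fun ω =>
      1 + edgeWt θ (msg ν G t Set.univ x p ω)
        * ((bn d)⁻¹ * ∑ c ∈ kids h x p, Pr h θ ν t K c x ω)

lemma Pr_obs (h : Reg G d) (t : ℝ) : ∀ (K : ℕ) {x p : V}, G.Adj x p →
    Measurable[obsAlg t (sideOf G x p)] (Pr h θ ν t K x p)
  | 0, _, _, _ => measurable_const
  | K + 1, x, p, hxp => by
    refine Measurable.const_add (Measurable.mul ?_ (Measurable.const_mul ?_ _)) _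
    · exact (measurable_edgeWt θ).comp
        ((measurable_msg_obs t Set.univ x p).mono (obsAlg_mono le_rfl Set.inter_subset_right) le_rfl)
    · refine Finset.measurable_sum _ fun c hc => ?_
      obtain ⟨hcp, hadj⟩ := (mem_kids h).1 hc
      exact (Pr_obs h t K hadj.symm).mono (obsAlg_mono le_rfl (side_subset h hxp hadj hcp)) le_rfl

@[fun_prop]
lemma measurable_Pr (h : Reg G d) (t : ℝ) : ∀ (K : ℕ) (x p : V),
    Measurable (Pr h θ ν t K x p)
  | 0, _, _ => measurable_const
  | K + 1, x, p => by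
    refine Measurable.const_add (Measurable.mul ?_ (Measurable.const_mul ?_ _)) _
    · exact (measurable_edgeWt θ).comp (measurable_msg t _ x p)
    · exact Finset.measurable_sum _ fun c _ => measurable_Pr h t K c x

lemma avg_kids (h : Reg G d) (hd : 3 ≤ d) {x p : V} (hxp : G.Adj x p) (c : ℝ) :
    (bn d)⁻¹ * ∑ _z ∈ kids h x p, c = c := by
  have := two_le_bn hd
  rw [Finset.sum_const, nsmul_eq_mul, card_kids h hxp, ← mul_assoc,
    inv_mul_cancel₀ (by linarith), one_mul]

lemma Pr_bounds (h : Reg G d) (hd : 3 ≤ d) (hθ : |θ| < 1) (t : ℝ) :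
    ∀ (K : ℕ) {x p : V}, G.Adj x p → ∀ ω,
      1 ≤ Pr h θ ν t K x p ω ∧ Pr h θ ν t K x p ω ≤ K + 1
  | 0, _, _, _, _ => by simp [Pr]
  | K + 1, x, p, hxp, ω => by
    have hb := two_le_bn hd
    have ih := fun c (hc : c ∈ kids h x p) =>
      Pr_bounds h hd hθ t K ((mem_kids h).1 hc).2.symm ω
    have h0 : 0 ≤ (bn d)⁻¹ * ∑ c ∈ kids h x p, Pr h θ ν t K c x ω :=
      mul_nonneg (by positivity) (Finset.sum_nonneg fun c hc => by linarith [(ih c hc).1])
    have h1 : (bn d)⁻¹ * ∑ c ∈ kids h x p, Pr h θ ν t K c x ω ≤ K + 1 :=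
      (mul_le_mul_of_nonneg_left (Finset.sum_le_sum fun c hc => (ih c hc).2) (by positivity)).trans
        (le_of_eq (avg_kids h hd hxp _))
    have w0 := edgeWt_nonneg hθ (abs_msg_le (ν := ν) (G := G) t Set.univ x p ω)
    have w1 := edgeWt_le_one hθ (abs_msg_le (ν := ν) (G := G) t Set.univ x p ω)
    simp only [Pr]
    push_cast
    exact ⟨le_add_of_nonneg_right (mul_nonneg w0 h0),
      by linarith [(mul_le_of_le_one_left h0 w1).trans h1]⟩

lemma Pr_mono (h : Reg G d) (hd : 3 ≤ d) (hθ : |θ| < 1) (t : ℝ) :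
    ∀ (K : ℕ) {x p : V}, G.Adj x p → ∀ ω, Pr h θ ν t K x p ω ≤ Pr h θ ν t (K + 1) x p ω
  | 0, x, p, hxp, ω => by
    have := (Pr_bounds (ν := ν) h hd hθ t 1 hxp ω).1
    simpa [Pr] using this
  | K + 1, x, p, hxp, ω => by
    have hb := two_le_bn hd
    show 1 + edgeWt θ (msg ν G t Set.univ x p ω) * ((bn d)⁻¹ * ∑ c ∈ kids h x p, Pr h θ ν t K c x ω)
      ≤ 1 + edgeWt θ (msg ν G t Set.univ x p ω)
          * ((bn d)⁻¹ * ∑ c ∈ kids h x p, Pr h θ ν t (K + 1) c x ω)
    refine add_le_add le_rfl (mul_le_mul_of_nonneg_left (mul_le_mul_of_nonneg_left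
      (Finset.sum_le_sum fun c hc => Pr_mono h hd hθ t K ((mem_kids h).1 hc).2.symm ω)
      (by positivity)) (edgeWt_nonneg hθ (abs_msg_le _ _ _ _ _)))

lemma Pr_flip (h : Reg G d) (hν : HasMarginals G θ ν) (t : ℝ) : ∀ (K : ℕ) (x p : V),
    ∀ᵐ ω ∂probM ν, Pr h θ ν t K x p (flipAll ω) = Pr h θ ν t K x p ω
  | 0, _, _ => Eventually.of_forall fun _ => rfl
  | K + 1, x, p => by
    filter_upwards [mu_flipAll h hν t (Set.univ ∩ sideOf G x p) x,
      (ae_ball_iff (kids h x p).countable_toSet).2 fun c _ => Pr_flip h hν t K c x] with ω e1 e2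
    simp only [Pr, msg, e1, edgeWt_neg]
    rw [Finset.sum_congr rfl fun c hc => e2 c hc]

/-- The exponential moment of the weighted sums. -/
theorem Pr_exp_le (h : Reg G d) (hd : 3 ≤ d) (hν : HasMarginals G θ ν) (hθ : |θ| < 1)
    (hc : bn d * θ ^ 2 = 1) {x0 p0 : V} (hx0 : G.Adj x0 p0) (t : ℝ) :
    ∀ (K : ℕ) {x p : V}, G.Adj x p →
      ∫ ω, Real.exp (kap θ * qe ν G t x0 p0 / 4 * Pr h θ ν t K x p ω) ∂probM ν ≤ 2 := by
  set l := kap θ * qe ν G t x0 p0 / 4 with hl
  have hkq : kap θ * qe ν G t x0 p0 ≤ 1 :=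
    mul_le_one₀ (kap_le_one hθ) (mom_nonneg _ _ _ _) (mom_le_one _ _ _ _)
  have hl0 : 0 ≤ l := div_nonneg (mul_nonneg (kap_nonneg θ) (mom_nonneg _ _ _ _)) (by norm_num)
  have hl1 : l ≤ 1 / 4 := by rw [hl]; linarith
  have hexp : Real.exp l ≤ 1 + 2 * l := by
    refine (Real.exp_bound_div_one_sub_of_interval hl0 (by linarith)).trans ?_
    rw [div_le_iff₀ (by linarith)]
    nlinarith
  intro K
  induction K with
  | zero =>
    intro x p _
    simp only [Pr, mul_one, integral_const, probReal_univ, one_smul]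
    linarith
  | succ K ih =>
    intro x p hxp
    have hb := two_le_bn hd
    set w : Omega V → ℝ := fun ω => edgeWt θ (msg ν G t Set.univ x p ω) with hw
    set g : V → Omega V → ℝ := fun c ω => Real.exp (l * Pr h θ ν t K c x ω) - 1 with hg
    have hgm : ∀ c, Measurable (g c) := fun c => by simp only [hg]; fun_prop
    have hwm : Measurable w := (measurable_edgeWt θ).comp (measurable_msg t _ x p)
    have hgb : ∀ c ∈ kids h x p, ∀ ω, 0 ≤ g c ω ∧ g c ω ≤ Real.exp (l * (K + 1)) := by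
      intro c hc' ω
      obtain ⟨b1, b2⟩ := Pr_bounds (ν := ν) h hd hθ t K ((mem_kids h).1 hc').2.symm ω
      refine ⟨?_, ?_⟩
      · simp only [hg, sub_nonneg]
        exact Real.one_le_exp (mul_nonneg hl0 (by linarith))
      · simp only [hg]
        linarith [Real.exp_le_exp.2 (mul_le_mul_of_nonneg_left b2 hl0)]
    have hgi : ∀ c ∈ kids h x p, Integrable (fun ω => w ω * g c ω) (probM ν) := fun c hc' =>
      integrable_bdd (hwm.mul (hgm c)) (C := Real.exp (l * (K + 1))) fun ω => by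
        obtain ⟨b1, b2⟩ := hgb c hc' ω
        have w0 := edgeWt_nonneg hθ (abs_msg_le (ν := ν) (G := G) t Set.univ x p ω)
        have w1 := edgeWt_le_one hθ (abs_msg_le (ν := ν) (G := G) t Set.univ x p ω)
        show |w ω * g c ω| ≤ _
        simp only [hw]
        rw [abs_of_nonneg (mul_nonneg w0 b1)]
        exact (mul_le_of_le_one_left b1 w1).trans b2
    have hpt : ∀ ω, Real.exp (l * Pr h θ ν t (K + 1) x p ω)
        ≤ Real.exp l * (1 + (bn d)⁻¹ * ∑ c ∈ kids h x p, w ω * g c ω) := by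
      intro ω
      have w0 := edgeWt_nonneg hθ (abs_msg_le (ν := ν) (G := G) t Set.univ x p ω)
      have w1 := edgeWt_le_one hθ (abs_msg_le (ν := ν) (G := G) t Set.univ x p ω)
      have e : l * Pr h θ ν t (K + 1) x p ω
          = l + w ω * ((bn d)⁻¹ * ∑ c ∈ kids h x p, l * Pr h θ ν t K c x ω) := by
        simp only [Pr, hw, ← Finset.mul_sum]; ring
      rw [e, Real.exp_add]
      refine mul_le_mul_of_nonneg_left ?_ (Real.exp_pos l).le
      set A := (bn d)⁻¹ * ∑ c ∈ kids h x p, l * Pr h θ ν t K c x ω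
      have j1 : Real.exp (w ω * A) ≤ 1 + w ω * (Real.exp A - 1) := by
        have := convexOn_exp.2 (Set.mem_univ (0 : ℝ)) (Set.mem_univ A)
          (show 0 ≤ 1 - w ω by simp only [hw]; linarith) w0 (by simp only [hw]; ring)
        simp only [smul_eq_mul, mul_zero, zero_add, Real.exp_zero, mul_one] at this
        simp only [hw] at this ⊢
        linarith
      have j2 : Real.exp A ≤ (bn d)⁻¹ * ∑ c ∈ kids h x p, Real.exp (l * Pr h θ ν t K c x ω) := by
        have := convexOn_exp.map_sum_le (t := kids h x p) (w := fun _ => (bn d)⁻¹)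
          (p := fun c => l * Pr h θ ν t K c x ω) (fun _ _ => by positivity)
          (by rw [Finset.sum_const, nsmul_eq_mul, card_kids h hxp]; field_simp)
          (fun _ _ => Set.mem_univ _)
        simp only [smul_eq_mul] at this
        simp only [A, Finset.mul_sum] at this ⊢
        exact this
      refine j1.trans ?_
      have j3 := mul_le_mul_of_nonneg_left j2 w0
      simp only [hg, mul_sub, Finset.sum_sub_distrib, ← Finset.mul_sum, mul_one]
      rw [Finset.sum_const, nsmul_eq_mul, card_kids h hxp, ← mul_assoc (bn d)⁻¹ (bn d),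
        inv_mul_cancel₀ (by linarith : bn d ≠ 0), one_mul, mul_left_comm]
      simp only [hw] at j3 ⊢
      linarith
    have hstep : ∀ c ∈ kids h x p,
        ∫ ω, w ω * g c ω ∂probM ν ≤ 1 - kap θ * qe ν G t x0 p0 := by
      intro c hc'
      obtain ⟨hcp, hadj⟩ := (mem_kids h).1 hc'
      obtain ⟨e, he⟩ : ((kids h x p).erase c).Nonempty := by
        rw [← Finset.card_pos, Finset.card_erase_of_mem hc']
        have h1 := card_kids h hxp
        have : 2 ≤ (kids h x p).card := by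
          exact_mod_cast (show (2 : ℝ) ≤ (kids h x p).card by linarith)
        omega
      obtain ⟨hec, hek⟩ := Finset.mem_erase.1 he
      have hea := ((mem_kids h).1 hek).2
      set C := (kids h x p).erase c
      have hA : fanOf G x C ⊆ sideOf G x c :=
        fanOf_subset h hadj (fun i hi => ((mem_kids h).1 (Finset.mem_of_mem_erase hi)).2)
          (Finset.notMem_erase c _)
      have hu : fanOf G x C ∪ sideOf G c x = sideOf G x p := by
        rw [← fanOf_insert, Finset.insert_erase hc', fanOf_kids h hxp]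
      have hq : θ ^ 2 * qe ν G t x0 p0 ≤ mom ν t (fanOf G x C) x 1 := by
        refine le_trans ?_ (mom_mono le_rfl (show {x} ∪ sideOf G e x ⊆ fanOf G x C from
          Set.union_subset_union_right _ (Set.subset_biUnion_of_mem (u := fun c => sideOf G c x) he))
          x 1)
        refine le_trans (le_of_eq ?_) (fan_single_ge h hd hν hθ hc hea t subset_rfl)
        rw [show mom ν t (sideOf G e x) e 1 = qe ν G t x0 p0 from qe_eq h hν hea.symm hx0 t]
      have hsd := step_damp h hν hθ hadj t hA (B := sideOf G c x) subset_rfl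
        (F := g c) (C := Real.exp (l * (K + 1)))
        (((Pr_obs h t K hadj.symm).const_mul l).exp.sub_const 1)
        (fun ω => (hgb c hc' ω).1) (fun ω => (hgb c hc' ω).2)
      rw [hu] at hsd
      have hm : ∫ ω, w ω * g c ω ∂probM ν
          = ∫ ω, edgeWt θ (mu ν t (sideOf G x p) x ω) * g c ω ∂probM ν := by
        simp only [hw, msg_univ]
      rw [hm]
      refine hsd.trans ?_
      have hEg : ∫ ω, g c ω ∂probM ν ≤ 1 := by
        have hi : Integrable (fun ω => Real.exp (l * Pr h θ ν t K c x ω)) (probM ν) :=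
          integrable_bdd (by fun_prop) (C := Real.exp (l * (K + 1))) fun ω => by
            rw [abs_of_pos (Real.exp_pos _)]
            exact Real.exp_le_exp.2 (mul_le_mul_of_nonneg_left
              (Pr_bounds h hd hθ t K hadj.symm ω).2 hl0)
        simp only [hg]
        rw [integral_sub hi (integrable_const _), integral_const, probReal_univ, one_smul]
        linarith [ih hadj.symm]
      have hEg0 : 0 ≤ ∫ ω, g c ω ∂probM ν := integral_nonneg fun ω => (hgb c hc' ω).1
      have hk : kap θ * qe ν G t x0 p0 ≤ (1 - θ ^ 2) ^ 2 * mom ν t (fanOf G x C) x 1 := by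
        rw [kap, mul_assoc]; exact mul_le_mul_of_nonneg_left hq (sq_nonneg _)
      calc _ ≤ (1 - kap θ * qe ν G t x0 p0) * ∫ ω, g c ω ∂probM ν :=
            mul_le_mul_of_nonneg_right (by linarith) hEg0
        _ ≤ _ := mul_le_of_le_one_right (by linarith) hEg
    have hsi : Integrable (fun ω => ∑ c ∈ kids h x p, w ω * g c ω) (probM ν) :=
      integrable_finsetSum _ hgi
    have hLi : Integrable (fun ω => Real.exp (l * Pr h θ ν t (K + 1) x p ω)) (probM ν) :=
      integrable_bdd (by fun_prop) (C := Real.exp (l * ((K + 1 : ℕ) + 1))) fun ω => by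
        rw [abs_of_pos (Real.exp_pos _)]
        exact Real.exp_le_exp.2 (mul_le_mul_of_nonneg_left (Pr_bounds h hd hθ t _ hxp ω).2 hl0)
    refine (integral_mono hLi (((integrable_const (1 : ℝ)).add (hsi.const_mul _)).const_mul _)
      hpt).trans ?_
    simp only [Pi.add_apply]
    rw [integral_const_mul, integral_add (integrable_const _) (hsi.const_mul _), integral_const,
      probReal_univ, one_smul, integral_const_mul, integral_finsetSum _ hgi]
    have hs := mul_le_mul_of_nonneg_left (Finset.sum_le_sum hstep)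
      (show 0 ≤ (bn d)⁻¹ by positivity)
    rw [avg_kids h hd hxp] at hs
    calc Real.exp l * (1 + (bn d)⁻¹ * ∑ c ∈ kids h x p, ∫ ω, w ω * g c ω ∂probM ν)
        ≤ (1 + 2 * l) * (1 + (1 - kap θ * qe ν G t x0 p0)) := by
          refine mul_le_mul hexp (by linarith) ?_ (by linarith)
          have : 0 ≤ (bn d)⁻¹ * ∑ c ∈ kids h x p, ∫ ω, w ω * g c ω ∂probM ν :=
            mul_nonneg (by positivity) (Finset.sum_nonneg fun c hc' => integral_nonneg fun ω =>
              mul_nonneg (edgeWt_nonneg hθ (abs_msg_le _ _ _ _ _)) (hgb c hc' ω).1)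
          linarith
      _ ≤ 2 := by rw [hl]; nlinarith [mul_nonneg (kap_nonneg θ) (mom_nonneg (ν := ν) t (sideOf G x0 p0) x0 1)]

/-- Sums of the weighted sums over the vertices at a given depth. -/
noncomputable def Sj (h : Reg G d) (θ : ℝ) (ν : Measure (V → Bool)) (t : ℝ) (K : ℕ) :
    ℕ → V → V → Omega V → ℝ
  | 0, x, p => Pr h θ ν t K x p
  | j + 1, x, p => fun ω => ∑ c ∈ kids h x p, Sj h θ ν t K j c x ω

lemma Sj_obs (h : Reg G d) (t : ℝ) (K : ℕ) : ∀ (j : ℕ) {x p : V}, G.Adj x p →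
    Measurable[obsAlg t (sideOf G x p)] (Sj h θ ν t K j x p)
  | 0, _, _, hxp => Pr_obs h t K hxp
  | j + 1, x, p, hxp => by
    refine Finset.measurable_sum _ fun c hc => ?_
    obtain ⟨hcp, hadj⟩ := (mem_kids h).1 hc
    exact (Sj_obs h t K j hadj.symm).mono (obsAlg_mono le_rfl (side_subset h hxp hadj hcp)) le_rfl

lemma measurable_Sj (h : Reg G d) (t : ℝ) (K : ℕ) : ∀ (j : ℕ) (x p : V),
    Measurable (Sj h θ ν t K j x p)
  | 0, x, p => measurable_Pr h t K x p
  | j + 1, x, _ => Finset.measurable_sum _ fun c _ => measurable_Sj h t K j c x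

lemma Sj_bounds (h : Reg G d) (hd : 3 ≤ d) (hθ : |θ| < 1) (t : ℝ) (K : ℕ) :
    ∀ (j : ℕ) {x p : V}, G.Adj x p → ∀ ω,
      0 ≤ Sj h θ ν t K j x p ω ∧ Sj h θ ν t K j x p ω ≤ bn d ^ j * (K + 1)
  | 0, x, p, hxp, ω => by
    obtain ⟨b1, b2⟩ := Pr_bounds (ν := ν) h hd hθ t K hxp ω
    simp only [Sj, pow_zero, one_mul]
    exact ⟨by linarith, b2⟩
  | j + 1, x, p, hxp, ω => by
    have ih := fun c (hc : c ∈ kids h x p) =>
      Sj_bounds h hd hθ t K j ((mem_kids h).1 hc).2.symm ω
    simp only [Sj]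
    refine ⟨Finset.sum_nonneg fun c hc => (ih c hc).1,
      (Finset.sum_le_sum fun c hc => (ih c hc).2).trans (le_of_eq ?_)⟩
    rw [Finset.sum_const, nsmul_eq_mul, card_kids h hxp, pow_succ']
    ring

lemma Sj_flip (h : Reg G d) (hν : HasMarginals G θ ν) (t : ℝ) (K : ℕ) : ∀ (j : ℕ) (x p : V),
    ∀ᵐ ω ∂probM ν, Sj h θ ν t K j x p (flipAll ω) = Sj h θ ν t K j x p ω
  | 0, x, p => Pr_flip h hν t K x p
  | j + 1, x, p => by
    filter_upwards [(ae_ball_iff (kids h x p).countable_toSet).2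
      fun c _ => Sj_flip h hν t K j c x] with ω e
    simp only [Sj]
    exact Finset.sum_congr rfl fun c hc => e c hc

lemma Pr_le_Sj (h : Reg G d) (hd : 3 ≤ d) (hθ : |θ| < 1) (t : ℝ) (K : ℕ) :
    ∀ (j : ℕ) {x p : V}, G.Adj x p → ∀ ω,
      Pr h θ ν t (K + j) x p ω ≤ j + Sj h θ ν t K j x p ω / bn d ^ j
  | 0, x, p, _, ω => by simp [Sj]
  | j + 1, x, p, hxp, ω => by
    have hb := two_le_bn hd
    have h0 : 0 ≤ (bn d)⁻¹ * ∑ c ∈ kids h x p, Pr h θ ν t (K + j) c x ω :=
      mul_nonneg (by positivity) (Finset.sum_nonneg fun c hc => by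
        linarith [(Pr_bounds (ν := ν) h hd hθ t (K + j) ((mem_kids h).1 hc).2.symm ω).1])
    have h1 := mul_le_of_le_one_left h0
      (edgeWt_le_one hθ (abs_msg_le (ν := ν) (G := G) t Set.univ x p ω))
    have ihs : ∀ c ∈ kids h x p, Pr h θ ν t (K + j) c x ω
        ≤ (j : ℝ) + Sj h θ ν t K j c x ω / bn d ^ j := fun c hc =>
      Pr_le_Sj h hd hθ t K j ((mem_kids h).1 hc).2.symm ω
    have h2 := mul_le_mul_of_nonneg_left (Finset.sum_le_sum ihs) (show 0 ≤ (bn d)⁻¹ by positivity)
    rw [Finset.sum_add_distrib, mul_add, avg_kids h hd hxp, ← Finset.sum_div, mul_div_assoc'] at h2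
    show 1 + edgeWt θ (msg ν G t Set.univ x p ω)
        * ((bn d)⁻¹ * ∑ c ∈ kids h x p, Pr h θ ν t (K + j) c x ω)
      ≤ ((j + 1 : ℕ) : ℝ) + (∑ c ∈ kids h x p, Sj h θ ν t K j c x ω) / bn d ^ (j + 1)
    push_cast
    have e : (∑ c ∈ kids h x p, Sj h θ ν t K j c x ω) / bn d ^ (j + 1)
        = (bn d)⁻¹ * (∑ c ∈ kids h x p, Sj h θ ν t K j c x ω) / bn d ^ j := by
      rw [pow_succ]; field_simp
    rw [e]
    linarith

/-- The children are independent for even functions. -/
theorem Sj_exp_le (h : Reg G d) (hd : 3 ≤ d) (hν : HasMarginals G θ ν) (hθ : |θ| < 1)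
    (hc : bn d * θ ^ 2 = 1) {x0 p0 : V} (hx0 : G.Adj x0 p0) (t : ℝ) (K : ℕ) :
    ∀ (j : ℕ) {x p : V}, G.Adj x p →
      ∫ ω, Real.exp (kap θ * qe ν G t x0 p0 / 4 * Sj h θ ν t K j x p ω) ∂probM ν
        ≤ 2 ^ ((d - 1) ^ j) := by
  set l := kap θ * qe ν G t x0 p0 / 4 with hl
  have hl0 : 0 ≤ l := div_nonneg (mul_nonneg (kap_nonneg θ) (mom_nonneg _ _ _ _)) (by norm_num)
  intro j
  induction j with
  | zero => intro x p hxp; simpa [Sj] using Pr_exp_le h hd hν hθ hc hx0 t K hxp
  | succ j ih =>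
    intro x p hxp
    set e : V → Omega V → ℝ := fun c ω => Real.exp (l * Sj h θ ν t K j c x ω) with he
    have hcard : (kids h x p).card = d - 1 := by
      rw [kids, Finset.card_erase_of_mem (h.mem_nbr.2 hxp), h.card_nbr]
    have key : ∀ C, C ⊆ kids h x p →
        ∫ ω, ∏ c ∈ C, e c ω ∂probM ν ≤ 2 ^ ((d - 1) ^ j * C.card) := by
      refine fan_induction h (by simp) fun c C hadj hA hCk hck hcC ihC => ?_
      simp only [Finset.prod_insert hcC, mul_comm (e c _)]
      set B := Real.exp (l * (bn d ^ j * (K + 1))) with hB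
      have hB1 : 1 ≤ B := Real.one_le_exp (mul_nonneg hl0 (by
        have := two_le_bn hd; positivity))
      have heb : ∀ i ∈ kids h x p, ∀ ω, |e i ω| ≤ B := fun i hi ω => by
        rw [he, abs_of_pos (Real.exp_pos _)]
        exact Real.exp_le_exp.2 (mul_le_mul_of_nonneg_left
          (Sj_bounds h hd hθ t K j ((mem_kids h).1 hi).2.symm ω).2 hl0)
      have hprodb : ∀ ω, |∏ i ∈ C, e i ω| ≤ B ^ ((kids h x p).card) := fun ω => by
        rw [Finset.abs_prod]
        refine (Finset.prod_le_prod (fun i _ => abs_nonneg _) fun i hi => heb i (hCk hi) ω).trans ?_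
        rw [Finset.prod_const]
        exact pow_le_pow_right₀ hB1 (Finset.card_le_card hCk)
      have hem : ∀ i, Measurable (e i) := fun i => by
        have := measurable_Sj (θ := θ) (ν := ν) h t K j i x
        simp only [he]; fun_prop
      have hfd : SiteDep (sideOf G x c) fun ω => ∏ i ∈ C, e i ω := by
        refine siteDep_of_obs (t := t) (Finset.measurable_prod _ fun i hi => ?_)
        refine ((((Sj_obs h t K j ((mem_kids h).1 (hCk hi)).2.symm).const_mul l).exp).mono
          (obsAlg_mono le_rfl ?_) le_rfl)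
        exact Set.Subset.trans
          (Set.subset_union_of_subset_right
            (Set.subset_biUnion_of_mem (u := fun z => sideOf G z x) hi) _) hA
      have hgd : SiteDep (sideOf G c x) (e c) :=
        siteDep_of_obs (t := t) (((Sj_obs h t K j hadj.symm).const_mul l).exp)
      have hev : ∫ ω, (∏ i ∈ C, e i ω) * spin (ω.1 x) ∂probM ν = 0 :=
        integral_even_mul_sp h hν (Finset.measurable_prod _ fun i _ => hem i) (by
          filter_upwards [(ae_ball_iff C.countable_toSet).2 fun i _ =>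
            Sj_flip h hν t K j i x] with ω hω
          exact Finset.prod_congr rfl fun i hi => by simp only [he, hω i hi]) x
      rw [cut_identity h hν hθ hadj (Finset.measurable_prod _ fun i _ => hem i) (hem c) hfd hgd
        (C := B ^ ((kids h x p).card)) hprodb fun ω => (heb c hck ω).trans
          (le_self_pow₀ hB1 (Finset.card_ne_zero.2 ⟨c, hck⟩)), hev, zero_mul, mul_zero, add_zero]
      rw [Finset.card_insert_of_notMem hcC, mul_add, mul_one, pow_add]
      exact mul_le_mul ihC (ih hadj.symm) (integral_nonneg fun ω => (Real.exp_pos _).le)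
        (by positivity)
    have := key _ subset_rfl
    rw [hcard, ← pow_succ] at this
    refine le_of_eq_of_le ?_ this
    refine integral_congr_ae (Eventually.of_forall fun ω => ?_)
    simp only [Sj, he, Finset.mul_sum, Real.exp_sum]

/-- The high moments of the weighted sums. -/
theorem Pr_moment (h : Reg G d) (hd : 3 ≤ d) (hν : HasMarginals G θ ν) (hθ : |θ| < 1)
    (hc : bn d * θ ^ 2 = 1) :
    ∃ C, 0 ≤ C ∧ ∀ x0 p0, G.Adj x0 p0 → ∀ t, 0 < qe ν G t x0 p0 → ∀ P : ℕ, 1 ≤ P →
      ∀ K x p, G.Adj x p →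
        ∫ ω, Pr h θ ν t K x p ω ^ P ∂probM ν
          ≤ (C * (1 / qe ν G t x0 p0 + Real.log P + 1)) ^ P := by
  set n := d - 1 with hn
  have hn2 : 2 ≤ n := by omega
  have hbn : (n : ℝ) = bn d := by rw [hn, bn, Nat.cast_sub (by omega), Nat.cast_one]
  have hk := kap_pos hθ hc
  have hlog : 0 < Real.log 2 := Real.log_pos one_lt_two
  set a := (Real.log n + 1) / Real.log 2 + 1 with ha
  have hlogn : 0 ≤ Real.log n := Real.log_nonneg (by exact_mod_cast (show 1 ≤ n by omega))
  have ha0 : 0 ≤ a := by positivity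
  set b := (2 : ℝ) ^ n * 4 / kap θ with hb
  have hb0 : 0 ≤ b := by positivity
  refine ⟨4 * (a + b), by positivity, fun x0 p0 hx0 t hq P hP K x p hxp => ?_⟩
  set q := qe ν G t x0 p0
  set l := kap θ * q / 4 with hl
  have hl0 : 0 < l := by positivity
  set j := Nat.clog n P
  have hjP : P ≤ n ^ j := Nat.le_pow_clog (by omega) P
  have hjn : n ^ j ≤ n * P := by
    rcases Nat.lt_or_ge 1 P with h1 | h1
    · have := Nat.pow_pred_clog_lt_self (by omega : 1 < n) h1
      have hj0 : 0 < Nat.clog n P := Nat.clog_pos (by omega) h1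
      calc n ^ j = n ^ (Nat.clog n P).pred * n := by
            rw [← pow_succ]
            congr 1
            show Nat.clog n P = (Nat.clog n P).pred + 1
            rw [Nat.pred_eq_sub_one]
            omega
        _ ≤ P * n := Nat.mul_le_mul_right _ this.le
        _ = n * P := mul_comm _ _
    · have : P = 1 := by omega
      subst this
      simp only [j, Nat.clog_of_right_le_one le_rfl, pow_zero]
      omega
  set m := n ^ j
  have hm0 : (0 : ℝ) < (m : ℝ) := by exact_mod_cast (show 0 < n ^ j from pow_pos (by omega) j)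
  have hP0 : (1 : ℝ) ≤ (P : ℝ) := by exact_mod_cast hP
  have hj : (j : ℝ) ≤ a * (Real.log P + 1) := by
    have h1 : (j : ℝ) * Real.log 2 ≤ Real.log n + Real.log P := by
      rw [← Real.log_pow, ← Real.log_mul (by positivity) (by positivity)]
      refine Real.log_le_log (by positivity) ?_
      exact_mod_cast (Nat.pow_le_pow_left hn2 j).trans hjn
    have h2 : 0 ≤ Real.log P := Real.log_nonneg hP0
    have h3 : (j : ℝ) ≤ (Real.log n + Real.log P) / Real.log 2 := by
      rw [le_div_iff₀ hlog]; exact h1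
    refine h3.trans ?_
    have e : a * Real.log 2 = Real.log n + 1 + Real.log 2 := by
      rw [ha, add_mul, div_mul_cancel₀ _ hlog.ne', one_mul]
    rw [div_le_iff₀ hlog, mul_right_comm, e]
    nlinarith
  set S : Omega V → ℝ := fun ω => Sj h θ ν t K j x p ω / m
  have hS0 : ∀ ω, 0 ≤ S ω := fun ω => div_nonneg (Sj_bounds h hd hθ t K j hxp ω).1 hm0.le
  have hSm : Measurable (S) := (measurable_Sj h t K j x p).div_const _
  have hle : ∀ ω, Pr h θ ν t K x p ω ≤ j + S ω := fun ω => by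
    refine le_trans ?_ ((Pr_le_Sj (ν := ν) h hd hθ t K j hxp ω).trans (le_of_eq ?_))
    · exact monotone_nat_of_le_succ (f := fun K => Pr h θ ν t K x p ω)
        (fun K => Pr_mono (ν := ν) h hd hθ t K hxp ω) (Nat.le_add_right K j)
    · simp only [S, m, Nat.cast_pow, hbn]
  have hSP : ∀ ω, S ω ^ P ≤ ((P : ℝ) / (l * m)) ^ P
      * Real.exp (l * Sj h θ ν t K j x p ω) := by
    intro ω
    obtain ⟨b1, -⟩ := Sj_bounds (ν := ν) h hd hθ t K j hxp ω
    have h1 := Real.pow_div_factorial_le_exp _ (mul_nonneg hl0.le b1) P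
    rw [div_le_iff₀ (by positivity)] at h1
    have h2 : (P.factorial : ℝ) ≤ (P : ℝ) ^ P := by exact_mod_cast Nat.factorial_le_pow P
    have h3 := h1.trans (mul_le_mul_of_nonneg_left h2 (Real.exp_pos _).le)
    have e : S ω ^ P = (l * Sj h θ ν t K j x p ω) ^ P / (l * m) ^ P := by
      rw [← div_pow]; congr 1; simp only [S]; field_simp
    rw [e, div_pow (P : ℝ), div_mul_eq_mul_div ((P : ℝ) ^ P)]
    exact div_le_div_of_nonneg_right (h3.trans (le_of_eq (mul_comm _ _)))
      (pow_nonneg (mul_nonneg hl0.le hm0.le) _)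
  set M := (2 : ℝ) ^ n / l with hM
  have hint : ∫ ω, S ω ^ P ∂probM ν ≤ M ^ P := by
    have hie : Integrable (fun ω => Real.exp (l * Sj h θ ν t K j x p ω)) (probM ν) :=
      integrable_bdd ((measurable_Sj h t K j x p).const_mul l).exp
        (C := Real.exp (l * (bn d ^ j * (K + 1)))) fun ω => by
        rw [abs_of_pos (Real.exp_pos _)]
        exact Real.exp_le_exp.2 (mul_le_mul_of_nonneg_left (Sj_bounds h hd hθ t K j hxp ω).2 hl0.le)
    refine (integral_mono_of_nonneg (Eventually.of_forall fun ω => pow_nonneg (hS0 ω) _)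
      (hie.const_mul _) (Eventually.of_forall hSP)).trans ?_
    rw [integral_const_mul]
    refine (mul_le_mul_of_nonneg_left (Sj_exp_le h hd hν hθ hc hx0 t K j hxp) (by positivity)).trans
      ?_
    calc ((P : ℝ) / (l * m)) ^ P * 2 ^ m ≤ (1 / l) ^ P * 2 ^ (n * P) := by
          refine mul_le_mul (pow_le_pow_left₀ (by positivity) ?_ _)
            (pow_le_pow_right₀ one_le_two hjn) (by positivity) (by positivity)
          rw [div_le_div_iff₀ (by positivity) hl0, one_mul, mul_comm]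
          exact mul_le_mul_of_nonneg_left (by exact_mod_cast hjP) hl0.le
      _ = M ^ P := by simp only [hM, div_eq_mul_inv, mul_pow, one_mul, pow_mul]; ring
  have hj0 : (0 : ℝ) ≤ j := Nat.cast_nonneg _
  have hpt : ∀ ω, Pr h θ ν t K x p ω ^ P ≤ 2 ^ P * ((j : ℝ) ^ P + S ω ^ P) := fun ω => by
    refine (pow_le_pow_left₀ (zero_le_one.trans (Pr_bounds h hd hθ t K hxp ω).1) (hle ω) P).trans ?_
    rcases le_total (j : ℝ) (S ω) with h1 | h1
    · calc ((j : ℝ) + S ω) ^ P ≤ (2 * S ω) ^ P :=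
            pow_le_pow_left₀ (by linarith [hS0 ω]) (by linarith) P
        _ ≤ _ := by
            rw [mul_pow]; exact mul_le_mul_of_nonneg_left (le_add_of_nonneg_left (by positivity))
              (by positivity)
    · calc ((j : ℝ) + S ω) ^ P ≤ (2 * j) ^ P :=
            pow_le_pow_left₀ (by linarith [hS0 ω]) (by linarith) P
        _ ≤ _ := by
            rw [mul_pow]
            exact mul_le_mul_of_nonneg_left (le_add_of_nonneg_right (pow_nonneg (hS0 ω) _))
              (by positivity)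
  have hSi : Integrable (fun ω => S ω ^ P) (probM ν) :=
    integrable_bdd (hSm.pow_const P) (C := (bn d ^ j * (K + 1) / m) ^ P) fun ω => by
      rw [abs_of_nonneg (pow_nonneg (hS0 ω) _)]
      exact pow_le_pow_left₀ (hS0 ω)
        (div_le_div_of_nonneg_right (Sj_bounds h hd hθ t K j hxp ω).2 hm0.le) _
  refine (integral_mono_of_nonneg (Eventually.of_forall fun ω => pow_nonneg
    (zero_le_one.trans (Pr_bounds h hd hθ t K hxp ω).1) _)
    (((integrable_const _).add hSi).const_mul _) (Eventually.of_forall hpt)).trans ?_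
  simp only [Pi.add_apply]
  rw [integral_const_mul, integral_add (integrable_const _) hSi, integral_const, probReal_univ,
    one_smul]
  set T := (a + b) * (1 / q + Real.log P + 1)
  have h1q : 0 ≤ 1 / q := by positivity
  have hlp : 0 ≤ Real.log P := Real.log_nonneg hP0
  have hjT : (j : ℝ) ≤ T := hj.trans (mul_le_mul (by linarith) (by linarith) (by linarith)
    (by linarith))
  have hMT : M ≤ T := by
    have : M = b * (1 / q) := by rw [hM, hb, hl]; field_simp
    rw [this]
    exact mul_le_mul (by linarith) (by linarith) h1q (by linarith)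
  calc (2 : ℝ) ^ P * ((j : ℝ) ^ P + ∫ ω, S ω ^ P ∂probM ν)
      ≤ 2 ^ P * (T ^ P + T ^ P) := by
        refine mul_le_mul_of_nonneg_left (add_le_add (pow_le_pow_left₀ hj0 hjT _)
          (hint.trans (pow_le_pow_left₀ (by positivity) hMT _))) (by positivity)
    _ ≤ 2 ^ P * (2 ^ P * T ^ P) := by
        refine mul_le_mul_of_nonneg_left ?_ (by positivity)
        have : 0 ≤ T ^ P := pow_nonneg (hj0.trans hjT) _
        nlinarith [le_self_pow₀ (one_le_two (α := ℝ)) (show P ≠ 0 by omega)]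
    _ = _ := by rw [← mul_assoc, ← mul_pow, ← mul_pow]; congr 1; simp only [T]; ring

end Vale.Agent.P161
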