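import Vale.Agent.P161.Critical.Static

/-!
Moments of sums of edge weights along a geodesic: truncated messages and independent blocks.
-/

open MeasureTheory ProbabilityTheory SimpleGraph Filter
open scoped Topology

set_option linter.unusedSectionVars false

namespace Vale.Agent.P161

universe u

variable {V : Type u} [DecidableEq V] {G : SimpleGraph V} [DecidableRel G.Adj] {θ : ℝ} {d : ℕ}
variable {ν : Measure (V → Bool)} [IsProbabilityMeasure ν]

/-- The loss along an edge carrying the message `a`. -/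
noncomputable def psiW (θ a : ℝ) : ℝ := 1 - edgeWt θ a

/-- The mean loss along an edge. -/
noncomputable def psiBar (ν : Measure (V → Bool)) (G : SimpleGraph V) (θ t : ℝ) (x p : V) : ℝ :=
  ∫ ω, psiW θ (msg ν G t Set.univ x p ω) ∂probM ν

lemma one_sub_theta_sq_le (hθ : |θ| < 1) {a : ℝ} (ha : |a| ≤ 1) :
    1 - θ ^ 2 ≤ 1 - θ ^ 2 * a ^ 2 := by
  linarith [mul_le_of_le_one_right (sq_nonneg θ) ((sq_le_one_iff_abs_le_one a).2 ha)]

lemma psiW_eq (hθ : |θ| < 1) {a : ℝ} (ha : |a| ≤ 1) :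
    psiW θ a = (1 - θ ^ 2) * a ^ 2 / (1 - θ ^ 2 * a ^ 2) := by
  have h2 : (0 : ℝ) < 1 - θ ^ 2 := by linarith [(sq_lt_one_iff_abs_lt_one θ).2 hθ]
  have h3 := lt_of_lt_of_le h2 (one_sub_theta_sq_le hθ ha)
  rw [psiW, edgeWt, eq_div_iff h3.ne', sub_mul, div_mul_cancel₀ _ h3.ne']
  ring

lemma psiW_nonneg (hθ : |θ| < 1) {a : ℝ} (ha : |a| ≤ 1) : 0 ≤ psiW θ a := by
  have h2 : (0 : ℝ) < 1 - θ ^ 2 := by linarith [(sq_lt_one_iff_abs_lt_one θ).2 hθ]
  rw [psiW_eq hθ ha]
  exact div_nonneg (mul_nonneg h2.le (sq_nonneg a)) (h2.le.trans (one_sub_theta_sq_le hθ ha))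

lemma psiW_le_sq (hθ : |θ| < 1) {a : ℝ} (ha : |a| ≤ 1) : psiW θ a ≤ a ^ 2 := by
  have h2 : (0 : ℝ) < 1 - θ ^ 2 := by linarith [(sq_lt_one_iff_abs_lt_one θ).2 hθ]
  have h3 := lt_of_lt_of_le h2 (one_sub_theta_sq_le hθ ha)
  rw [psiW_eq hθ ha, div_le_iff₀ h3, mul_comm (1 - θ ^ 2)]
  exact mul_le_mul_of_nonneg_left (one_sub_theta_sq_le hθ ha) (sq_nonneg a)

lemma psiW_le_one (hθ : |θ| < 1) {a : ℝ} (ha : |a| ≤ 1) : psiW θ a ≤ 1 :=
  (psiW_le_sq hθ ha).trans ((sq_le_one_iff_abs_le_one a).2 ha)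

lemma abs_psiW_le (hθ : |θ| < 1) {a : ℝ} (ha : |a| ≤ 1) : |psiW θ a| ≤ 1 := by
  rw [abs_of_nonneg (psiW_nonneg hθ ha)]; exact psiW_le_one hθ ha

lemma psiW_neg (θ a : ℝ) : psiW θ (-a) = psiW θ a := by simp [psiW, edgeWt]

@[fun_prop]
lemma measurable_psiW : Measurable (psiW θ) := by unfold psiW edgeWt; fun_prop

lemma psiW_lip (hθ : |θ| < 1) {a b : ℝ} (ha : |a| ≤ 1) (hb : |b| ≤ 1) :
    |psiW θ a - psiW θ b| ≤ 2 / (1 - θ ^ 2) * |a - b| := by
  have h2 : (0 : ℝ) < 1 - θ ^ 2 := by linarith [(sq_lt_one_iff_abs_lt_one θ).2 hθ]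
  have hA := one_sub_theta_sq_le hθ ha
  have hB := one_sub_theta_sq_le hθ hb
  have hA0 := lt_of_lt_of_le h2 hA
  have hB0 := lt_of_lt_of_le h2 hB
  have e : psiW θ a - psiW θ b
      = (1 - θ ^ 2) * ((a + b) * (a - b)) / ((1 - θ ^ 2 * a ^ 2) * (1 - θ ^ 2 * b ^ 2)) := by
    rw [psiW_eq hθ ha, psiW_eq hθ hb, div_sub_div _ _ hA0.ne' hB0.ne']
    congr 1
    ring
  rw [e, abs_div, abs_of_pos (mul_pos hA0 hB0), abs_mul, abs_mul, abs_of_pos h2]
  calc (1 - θ ^ 2) * (|a + b| * |a - b|) / ((1 - θ ^ 2 * a ^ 2) * (1 - θ ^ 2 * b ^ 2))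
      ≤ (1 - θ ^ 2) * (2 * |a - b|) / ((1 - θ ^ 2) * (1 - θ ^ 2)) := by
        refine div_le_div₀ (by positivity) ?_ (by positivity) (mul_le_mul hA hB h2.le hA0.le)
        gcongr
        linarith [abs_add_le a b]
    _ = _ := by field_simp

/-- The mean loss does not depend on the edge. -/
lemma psiBar_eq (h : Reg G d) (hν : HasMarginals G θ ν) {x p x' p' : V} (hxp : G.Adj x p)
    (hxp' : G.Adj x' p') (t : ℝ) : psiBar ν G θ t x p = psiBar ν G θ t x' p' := by
  obtain ⟨γ, h1, h2⟩ := h.exists_iso (o := x) (u := p) (o' := x') (u' := p')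
    (by rw [dist_eq_one_iff_adj.2 hxp, dist_eq_one_iff_adj.2 hxp'])
  have hT := measurePreserving_gact h hν γ
  unfold psiBar
  conv_rhs => rw [← hT.map_eq]
  rw [integral_map hT.measurable.aemeasurable
    (f := fun ω => psiW θ (msg ν G t Set.univ x' p' ω))
    (measurable_psiW.comp (measurable_mu t _ x')).aestronglyMeasurable]
  refine integral_congr_ae ?_
  filter_upwards [msg_gact h hν γ t Set.univ x p] with ω hω
  rw [Set.image_univ, γ.surjective.range_eq, h1, h2] at hω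
  rw [hω]

/-- The rate at which an edge forgets. -/
noncomputable def forgetRate (θ : ℝ) : ℝ := 2 * |θ| / (1 + θ ^ 2)

lemma forgetRate_nonneg (θ : ℝ) : 0 ≤ forgetRate θ := by unfold forgetRate; positivity

lemma forgetRate_lt_one (hθ : |θ| < 1) : forgetRate θ < 1 := by
  rw [forgetRate, div_lt_one (by positivity), ← sq_abs]
  nlinarith [mul_pos (sub_pos.2 hθ) (sub_pos.2 hθ)]

/-- One step of the recursion contracts. -/
lemma contract_step (hθ : |θ| < 1) {D a b s : ℝ} (hD : 0 ≤ D) (ha : |a| ≤ 1) (hb : |b| ≤ 1)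
    (hs : |s| ≤ 1) (hab : |a - b| ≤ D * (1 - a * b)) :
    |(s + θ * a) / (1 + θ * (s * a)) - (s + θ * b) / (1 + θ * (s * b))|
      ≤ forgetRate θ * D
        * (1 - (s + θ * a) / (1 + θ * (s * a)) * ((s + θ * b) / (1 + θ * (s * b)))) := by
  have hda : 0 < 1 + θ * (s * a) := one_add_mul_pos hθ hs ha
  have hdb : 0 < 1 + θ * (s * b) := one_add_mul_pos hθ hs hb
  have e1 : (s + θ * a) / (1 + θ * (s * a)) - (s + θ * b) / (1 + θ * (s * b))
      = θ * (a - b) * (1 - s ^ 2) / ((1 + θ * (s * a)) * (1 + θ * (s * b))) := by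
    rw [div_sub_div _ _ hda.ne' hdb.ne']
    congr 1
    ring
  have e2 : 1 - (s + θ * a) / (1 + θ * (s * a)) * ((s + θ * b) / (1 + θ * (s * b)))
      = (1 - θ ^ 2 * (a * b)) * (1 - s ^ 2) / ((1 + θ * (s * a)) * (1 + θ * (s * b))) := by
    rw [div_mul_div_comm, one_sub_div (mul_ne_zero hda.ne' hdb.ne')]
    congr 1
    ring
  have hs2 : 0 ≤ 1 - s ^ 2 := by linarith [(sq_le_one_iff_abs_le_one s).2 hs]
  rw [e1, e2, abs_div, abs_of_pos (mul_pos hda hdb), abs_mul, abs_mul, abs_of_nonneg hs2,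
    mul_div_assoc']
  refine div_le_div_of_nonneg_right ?_ (mul_pos hda hdb).le
  rw [← mul_assoc (forgetRate θ * D)]
  refine mul_le_mul_of_nonneg_right ?_ hs2
  have hx : -1 ≤ a * b := (abs_le.1 (by rw [abs_mul]; exact mul_le_one₀ ha (abs_nonneg _) hb)).1
  have h2 : (0 : ℝ) ≤ 1 - θ ^ 2 := by linarith [(sq_lt_one_iff_abs_lt_one θ).2 hθ]
  have hkey : |θ| * (1 - a * b) ≤ forgetRate θ * (1 - θ ^ 2 * (a * b)) := by
    rw [forgetRate, div_mul_eq_mul_div, le_div_iff₀ (by positivity)]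
    have := mul_nonneg (abs_nonneg θ) (mul_nonneg h2 (show (0 : ℝ) ≤ 1 + a * b by linarith))
    linarith
  calc |θ| * |a - b| ≤ |θ| * (D * (1 - a * b)) := mul_le_mul_of_nonneg_left hab (abs_nonneg _)
    _ = D * (|θ| * (1 - a * b)) := by ring
    _ ≤ D * (forgetRate θ * (1 - θ ^ 2 * (a * b))) := mul_le_mul_of_nonneg_left hkey hD
    _ = _ := by ring

/-! ### Windows along a geodesic -/

/-- The part of the tree behind the `i`-th vertex of a geodesic. -/
def sideAt (G : SimpleGraph V) (y : ℕ → V) (i : ℕ) : Set V := sideOf G (y i) (y (i + 1))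

lemma sideAt_mono (h : Reg G d) {y : ℕ → V} {k : ℕ} (hy : Geo G y k) {i j : ℕ} (hij : i ≤ j)
    (hj : j < k) : sideAt G y i ⊆ sideAt G y j := by
  induction j with
  | zero => rw [show i = 0 by omega]
  | succ j ih =>
    rcases Nat.lt_or_ge i (j + 1) with hlt | hge
    · refine (ih (by omega) (by omega)).trans
        (side_subset h (hy.1 (j + 1) hj) (hy.1 j (by omega)).symm fun e => ?_)
      have := hy.dist_eq h.tree (show j ≤ j + 2 by omega) (by omega)
      rw [e, show j + 1 + 1 = j + 2 from rfl, SimpleGraph.dist_self] at this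
      omega
    · rw [show i = j + 1 by omega]

/-- The window of length `L` behind the `i`-th vertex. -/
def winSet (G : SimpleGraph V) (y : ℕ → V) (L i : ℕ) : Set V :=
  if L ≤ i then sideAt G y i \ sideAt G y (i - L) else sideAt G y i

lemma winSet_subset (y : ℕ → V) (L i : ℕ) : winSet G y L i ⊆ sideAt G y i := by
  unfold winSet; split_ifs
  · exact Set.sdiff_subset
  · exact subset_rfl

/-- The truncated message. -/
noncomputable def winMsg (ν : Measure (V → Bool)) (G : SimpleGraph V) (t : ℝ) (y : ℕ → V)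
    (L i : ℕ) : Omega V → ℝ :=
  mu ν t (winSet G y L i) (y i)

/-- Messages computed from a window forget the rest exponentially fast. -/
lemma msg_forget (h : Reg G d) (hν : HasMarginals G θ ν) (hθ : |θ| < 1) (t : ℝ) {y : ℕ → V}
    {k : ℕ} (hy : Geo G y k) (j : ℕ) :
    ∀ n, j + n < k → ∀ᵐ ω ∂probM ν,
      |mu ν t (sideAt G y (j + n)) (y (j + n)) ω
          - mu ν t (sideAt G y (j + n) \ sideAt G y j) (y (j + n)) ω|
        ≤ forgetRate θ ^ n * (1 - mu ν t (sideAt G y (j + n)) (y (j + n)) ω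
          * mu ν t (sideAt G y (j + n) \ sideAt G y j) (y (j + n)) ω) := by
  intro n
  induction n with
  | zero =>
    intro _
    refine Eventually.of_forall fun ω => ?_
    rw [pow_zero, one_mul]
    obtain ⟨a1, a2⟩ := abs_le.1 (abs_mu_le (ν := ν) t (sideAt G y (j + 0)) (y (j + 0)) ω)
    obtain ⟨b1, b2⟩ :=
      abs_le.1 (abs_mu_le (ν := ν) t (sideAt G y (j + 0) \ sideAt G y j) (y (j + 0)) ω)
    refine abs_le.2 ⟨?_, ?_⟩ <;>
      nlinarith [mul_nonneg (sub_nonneg.2 a2) (show (0 : ℝ) ≤ 1 + _ by linarith [b1]),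
        mul_nonneg (sub_nonneg.2 b2) (show (0 : ℝ) ≤ 1 + _ by linarith [a1])]
  | succ n ih =>
    intro hn
    have hG := h.tree
    set i := j + n with hi
    rw [show j + (n + 1) = i + 1 by omega] at hn ⊢
    have hadj := (hy.1 i (by omega)).symm
    have hji : sideAt G y j ⊆ sideAt G y i := sideAt_mono h hy (by omega) (by omega)
    have hi1 : sideAt G y i ⊆ sideAt G y (i + 1) := sideAt_mono h hy (by omega) hn
    set A := sideAt G y (i + 1) \ sideAt G y i
    have hA : A ⊆ sideOf G (y (i + 1)) (y i) := fun z hz =>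
      (mem_sideOf_or hG hadj z).resolve_right hz.2
    have u1 : A ∪ sideAt G y i = sideAt G y (i + 1) := Set.sdiff_union_of_subset hi1
    have u2 : A ∪ (sideAt G y i \ sideAt G y j) = sideAt G y (i + 1) \ sideAt G y j := by
      ext z
      simp only [A, Set.mem_union, Set.mem_sdiff]
      have := @hji z
      have := @hi1 z
      tauto
    have f1 := edge_formulas h hν hθ hadj t hA (B := sideAt G y i) subset_rfl
    have f2 := edge_formulas h hν hθ hadj t hA (B := sideAt G y i \ sideAt G y j) Set.sdiff_subset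
    rw [u1] at f1
    rw [u2] at f2
    filter_upwards [f1, f2, ih (by omega)] with ω e1 e2 e3
    rw [e1, e2, pow_succ']
    exact contract_step hθ (pow_nonneg (forgetRate_nonneg θ) n) (abs_mu_le _ _ _ _)
      (abs_mu_le _ _ _ _) (abs_mu_le _ _ _ _) e3

/-- The truncated message is close to the message. -/
lemma winMsg_close (h : Reg G d) (hν : HasMarginals G θ ν) (hθ : |θ| < 1) (t : ℝ) {y : ℕ → V}
    {k : ℕ} (hy : Geo G y k) (L i : ℕ) (hi : i < k) :
    ∀ᵐ ω ∂probM ν, |msg ν G t Set.univ (y i) (y (i + 1)) ω - winMsg ν G t y L i ω|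
      ≤ 2 * forgetRate θ ^ L := by
  have hc := pow_nonneg (forgetRate_nonneg θ) L
  by_cases hL : L ≤ i
  · have := msg_forget h hν hθ t hy (i - L) L (by omega)
    rw [show i - L + L = i by omega] at this
    filter_upwards [this] with ω hω
    rw [msg_univ, winMsg, winSet, if_pos hL]
    refine hω.trans ?_
    rw [mul_comm 2]
    refine mul_le_mul_of_nonneg_left ?_ hc
    have := abs_le.1 (show |mu ν t (sideAt G y i) (y i) ω
        * mu ν t (sideAt G y i \ sideAt G y (i - L)) (y i) ω| ≤ 1 by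
      rw [abs_mul]; exact mul_le_one₀ (abs_mu_le _ _ _ _) (abs_nonneg _) (abs_mu_le _ _ _ _))
    linarith [this.1]
  · refine Eventually.of_forall fun ω => ?_
    rw [msg_univ, winMsg, winSet, if_neg hL]
    simp [sideAt, hc]

/-! ### Sums of independent blocks -/

lemma add_pow_two_step (s z : ℝ) (p : ℕ) :
    (s + z) ^ (2 * (p + 1)) ≤ s ^ (2 * (p + 1)) + (2 * ((p : ℝ) + 1)) * (s ^ (2 * p + 1) * z)
      + 4 ^ (p + 1) * (s ^ (2 * p) * z ^ 2 + z ^ (2 * (p + 1))) := by
  set N := 2 * p with hN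
  set T := s ^ N * z ^ 2 + z ^ (N + 2) with hT
  have e2 : 2 * (p + 1) = N + 2 := by omega
  rw [e2]
  have hT0 : 0 ≤ T := by
    have a : 0 ≤ s ^ N := by rw [hN, pow_mul]; positivity
    have b : 0 ≤ z ^ (N + 2) := by rw [← e2, pow_mul]; positivity
    positivity
  rw [add_comm s z, add_pow, Finset.sum_range_succ', Finset.sum_range_succ']
  simp only [pow_zero, zero_add, pow_one, one_mul, Nat.sub_zero, Nat.choose_zero_right,
    Nat.choose_one_right, Nat.cast_one, mul_one]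
  have hterm : ∀ i ∈ Finset.range (N + 1),
      z ^ (i + 1 + 1) * s ^ (N + 2 - (i + 1 + 1)) * ((N + 2).choose (i + 1 + 1) : ℝ)
        ≤ T * ((N + 2).choose (i + 1 + 1) : ℝ) := by
    intro i hi
    refine mul_le_mul_of_nonneg_right ?_ (Nat.cast_nonneg _)
    have hiN : i ≤ N := Nat.lt_succ_iff.1 (Finset.mem_range.1 hi)
    rw [show N + 2 - (i + 1 + 1) = N - i by omega, show i + 1 + 1 = 2 + i by omega]
    refine (le_abs_self _).trans ?_
    rw [abs_mul, abs_pow, abs_pow, hT, ← (even_two_mul p).pow_abs (a := s), ← hN,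
      ← (show Even (N + 2) from ⟨p + 1, by omega⟩).pow_abs (a := z), ← sq_abs z]
    rcases le_total |z| |s| with hzs | hzs
    · refine le_trans ?_ (le_add_of_nonneg_right (by positivity))
      calc |z| ^ (2 + i) * |s| ^ (N - i) = |z| ^ i * |s| ^ (N - i) * |z| ^ 2 := by
            rw [pow_add]; ring
        _ ≤ |s| ^ i * |s| ^ (N - i) * |z| ^ 2 := by gcongr
        _ = _ := by rw [← pow_add, Nat.add_sub_of_le hiN]
    · refine le_trans ?_ (le_add_of_nonneg_left (by positivity))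
      calc |z| ^ (2 + i) * |s| ^ (N - i) ≤ |z| ^ (2 + i) * |z| ^ (N - i) := by gcongr
        _ = _ := by rw [← pow_add]; congr 1; omega
  have hch : ∑ i ∈ Finset.range (N + 1), ((N + 2).choose (i + 1 + 1) : ℝ) ≤ 4 ^ (p + 1) := by
    have h4 : (∑ m ∈ Finset.range (N + 2 + 1), ((N + 2).choose m : ℝ)) = 4 ^ (p + 1) := by
      rw [← Nat.cast_sum, Nat.sum_range_choose, ← e2, pow_mul]; norm_num
    rw [← h4, Finset.sum_range_succ' _ (N + 2), Finset.sum_range_succ' _ (N + 1)]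
    simp only [Nat.choose_zero_right, Nat.cast_one]
    linarith [show (0 : ℝ) ≤ ((N + 2).choose (0 + 1) : ℝ) from Nat.cast_nonneg _]
  have hsum := (Finset.sum_le_sum hterm).trans (le_of_eq (Finset.mul_sum _ _ _).symm)
  have h5 := mul_le_mul_of_nonneg_left hch hT0
  rw [show N + 2 - 1 = N + 1 by omega]
  have e3 : z * s ^ (N + 1) * ((N + 2 : ℕ) : ℝ) = 2 * ((p : ℝ) + 1) * (s ^ (N + 1) * z) := by
    rw [hN]; push_cast; ring
  rw [e3]
  linarith

lemma succ_pow_step (p n : ℕ) :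
    (n : ℝ) ^ (p + 1) + ((n : ℝ) + 1) ^ p ≤ ((n : ℝ) + 1) ^ (p + 1) := by
  rw [pow_succ, pow_succ]
  have : (n : ℝ) ^ p ≤ ((n : ℝ) + 1) ^ p :=
    pow_le_pow_left₀ (Nat.cast_nonneg _) (by linarith) p
  nlinarith [Nat.cast_nonneg (α := ℝ) n]

/-- Even moments of centred sums whose last term is independent of the previous ones. -/
theorem block_moment {α : Type*} [MeasurableSpace α] {μ : Measure α} [IsProbabilityMeasure μ]
    {M : ℕ → ℝ} (hM : ∀ l, 0 ≤ M l) (p : ℕ) :
    ∃ C, 0 ≤ C ∧ ∀ (Z : ℕ → α → ℝ) (I : Finset ℕ) (q B : ℝ), 0 ≤ q →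
      (∀ i, Measurable (Z i)) → (∀ i ω, |Z i ω| ≤ B) →
      (∀ i ∈ I, ∫ ω, Z i ω ∂μ = 0) →
      (∀ i ∈ I, ∀ l, ∫ ω, Z i ω ^ (2 * l) ∂μ ≤ M l * q ^ (2 * l)) →
      (∀ m ∈ I, ∀ J : Finset ℕ, J ⊆ I → (∀ i ∈ J, i < m) → ∀ j l : ℕ,
        ∫ ω, (∑ i ∈ J, Z i ω) ^ j * Z m ω ^ l ∂μ
          = (∫ ω, (∑ i ∈ J, Z i ω) ^ j ∂μ) * ∫ ω, Z m ω ^ l ∂μ) →
      ∫ ω, (∑ i ∈ I, Z i ω) ^ (2 * p) ∂μ ≤ C * (I.card : ℝ) ^ p * q ^ (2 * p) := by
  induction p with
  | zero => exact ⟨1, zero_le_one, fun Z I q B _ _ _ _ _ _ => by simp⟩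
  | succ p ih =>
    obtain ⟨C, hC, hih⟩ := ih
    set K := 4 ^ (p + 1) * (C * M 1 + M (p + 1)) with hK
    have hM1 := hM 1
    have hMp := hM (p + 1)
    have hK0 : 0 ≤ K := by positivity
    refine ⟨K, hK0, fun Z I q B hq hZm hZb hZ0 hZp hind => ?_⟩
    induction I using Finset.induction_on_max with
    | empty => simp
    | insert m J hJm ihJ =>
      have hmJ : m ∉ J := fun hh => lt_irrefl m (hJm m hh)
      have hsub : J ⊆ insert m J := Finset.subset_insert m J
      have hJ := ihJ (fun i hi => hZ0 i (hsub hi)) (fun i hi => hZp i (hsub hi))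
        (fun a ha L hL => hind a (hsub ha) L (hL.trans hsub))
      have hJp := hih Z J q B hq hZm hZb (fun i hi => hZ0 i (hsub hi))
        (fun i hi => hZp i (hsub hi)) (fun a ha L hL => hind a (hsub ha) L (hL.trans hsub))
      have hfac := hind m (Finset.mem_insert_self m J) J hsub hJm
      set S : α → ℝ := fun ω => ∑ i ∈ J, Z i ω with hS
      have hSm : Measurable S := Finset.measurable_sum _ fun i _ => hZm i
      have hSb : ∀ ω, |S ω| ≤ J.card * B := fun ω =>
        (Finset.abs_sum_le_sum_abs _ _).trans (by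
          simpa using Finset.sum_le_card_nsmul J (fun i => |Z i ω|) B fun i _ => hZb i ω)
      have hint : ∀ j l : ℕ, Integrable (fun ω => S ω ^ j * Z m ω ^ l) μ := fun j l =>
        integrable_bdd ((hSm.pow_const j).mul ((hZm m).pow_const l))
          (C := (J.card * B) ^ j * B ^ l) fun ω => by
          rw [abs_mul, abs_pow, abs_pow]
          exact mul_le_mul (pow_le_pow_left₀ (abs_nonneg _) (hSb ω) j)
            (pow_le_pow_left₀ (abs_nonneg _) (hZb m ω) l) (by positivity)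
            (pow_nonneg ((abs_nonneg _).trans (hSb ω)) j)
      have i0 : Integrable (fun ω => S ω ^ (2 * (p + 1))) μ := by simpa using hint (2 * (p + 1)) 0
      have i1 : Integrable (fun ω => 2 * ((p : ℝ) + 1) * (S ω ^ (2 * p + 1) * Z m ω)) μ := by
        simpa using (hint (2 * p + 1) 1).const_mul (2 * ((p : ℝ) + 1))
      have i2 : Integrable (fun ω => S ω ^ (2 * p) * Z m ω ^ 2) μ := hint _ _
      have i3 : Integrable (fun ω => Z m ω ^ (2 * (p + 1))) μ := by simpa using hint 0 (2 * (p + 1))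
      have ifull : Integrable (fun ω => (S ω + Z m ω) ^ (2 * (p + 1))) μ :=
        integrable_bdd ((hSm.add (hZm m)).pow_const _) (C := (J.card * B + B) ^ (2 * (p + 1)))
          fun ω => by
          rw [abs_pow]
          exact pow_le_pow_left₀ (abs_nonneg _)
            ((abs_add_le _ _).trans (add_le_add (hSb ω) (hZb m ω))) _
      have hle : ∫ ω, (S ω + Z m ω) ^ (2 * (p + 1)) ∂μ
          ≤ ∫ ω, (S ω ^ (2 * (p + 1)) + 2 * ((p : ℝ) + 1) * (S ω ^ (2 * p + 1) * Z m ω)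
            + 4 ^ (p + 1) * (S ω ^ (2 * p) * Z m ω ^ 2 + Z m ω ^ (2 * (p + 1)))) ∂μ :=
        integral_mono ifull ((i0.add i1).add ((i2.add i3).const_mul _))
          fun ω => add_pow_two_step _ _ p
      have e1 : ∫ ω, S ω ^ (2 * p + 1) * Z m ω ∂μ = 0 := by
        have := hfac (2 * p + 1) 1
        simp only [pow_one] at this
        rw [this, hZ0 m (Finset.mem_insert_self m J), mul_zero]
      have e2 : ∫ ω, S ω ^ (2 * p) * Z m ω ^ 2 ∂μ
          ≤ C * (J.card : ℝ) ^ p * q ^ (2 * p) * (M 1 * q ^ 2) := by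
        rw [hfac (2 * p) 2]
        refine mul_le_mul hJp ?_ (integral_nonneg fun _ => sq_nonneg _) (by positivity)
        simpa using hZp m (Finset.mem_insert_self m J) 1
      have e3 := hZp m (Finset.mem_insert_self m J) (p + 1)
      rw [integral_add (f := fun ω => S ω ^ (2 * (p + 1))
          + 2 * ((p : ℝ) + 1) * (S ω ^ (2 * p + 1) * Z m ω))
          (g := fun ω => 4 ^ (p + 1) * (S ω ^ (2 * p) * Z m ω ^ 2 + Z m ω ^ (2 * (p + 1))))
          (i0.add i1) ((i2.add i3).const_mul _),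
        integral_add i0 i1, integral_const_mul, integral_const_mul, integral_add i2 i3, e1,
        mul_zero, add_zero] at hle
      have hsum : ∀ ω, ∑ i ∈ insert m J, Z i ω = S ω + Z m ω := fun ω => by
        rw [Finset.sum_insert hmJ, add_comm]
      simp only [hsum, Finset.card_insert_of_notMem hmJ]
      push_cast
      set n := (J.card : ℝ) with hn
      have hq2 : q ^ (2 * (p + 1)) = q ^ (2 * p) * q ^ 2 := by rw [← pow_add]; ring_nf
      refine hle.trans ?_
      have hstep := succ_pow_step p J.card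
      have hpw : (n ^ p) ≤ (n + 1) ^ p := pow_le_pow_left₀ (Nat.cast_nonneg _) (by linarith) p
      have hone : (1 : ℝ) ≤ (n + 1) ^ p := one_le_pow₀ (by linarith [Nat.cast_nonneg (α := ℝ) J.card])
      have h4 : (0 : ℝ) ≤ 4 ^ (p + 1) := by positivity
      have hqq : 0 ≤ q ^ (2 * (p + 1)) := by positivity
      calc (∫ ω, S ω ^ (2 * (p + 1)) ∂μ)
            + 4 ^ (p + 1) * ((∫ ω, S ω ^ (2 * p) * Z m ω ^ 2 ∂μ) + ∫ ω, Z m ω ^ (2 * (p + 1)) ∂μ)
          ≤ K * n ^ (p + 1) * q ^ (2 * (p + 1))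
            + 4 ^ (p + 1) * (C * n ^ p * q ^ (2 * p) * (M 1 * q ^ 2)
              + M (p + 1) * q ^ (2 * (p + 1))) :=
            add_le_add hJ (mul_le_mul_of_nonneg_left (add_le_add e2 e3) h4)
        _ = (K * n ^ (p + 1) + 4 ^ (p + 1) * (C * M 1 * n ^ p + M (p + 1) * 1))
              * q ^ (2 * (p + 1)) := by rw [hq2]; ring
        _ ≤ (K * n ^ (p + 1) + 4 ^ (p + 1) * (C * M 1 * (n + 1) ^ p + M (p + 1) * (n + 1) ^ p))
              * q ^ (2 * (p + 1)) := by gcongr
        _ = K * (n ^ (p + 1) + (n + 1) ^ p) * q ^ (2 * (p + 1)) := by rw [hK]; ring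
        _ ≤ _ := by gcongr

lemma sum_pow_card_le {ι : Type*} (R : Finset ι) (f : ι → ℝ) (p : ℕ) :
    (∑ r ∈ R, f r) ^ (2 * p) * (R.card : ℝ) ≤ (R.card : ℝ) ^ (2 * p) * ∑ r ∈ R, f r ^ (2 * p) := by
  rcases p with _ | p
  · simp
  have h1 := pow_sum_le_card_mul_sum_pow (s := R) (f := fun r => |f r|)
    (fun r _ => abs_nonneg _) (2 * p + 1)
  rw [show 2 * p + 1 + 1 = 2 * (p + 1) by ring] at h1
  simp only [fun r => (even_two_mul (p + 1)).pow_abs (f r)] at h1
  have h2 : (∑ r ∈ R, f r) ^ (2 * (p + 1)) ≤ (∑ r ∈ R, |f r|) ^ (2 * (p + 1)) := by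
    rw [← (even_two_mul (p + 1)).pow_abs]
    exact pow_le_pow_left₀ (abs_nonneg _) (Finset.abs_sum_le_sum_abs _ _) _
  refine (mul_le_mul_of_nonneg_right (h2.trans h1) (Nat.cast_nonneg _)).trans (le_of_eq ?_)
  rw [mul_right_comm, ← pow_succ, show 2 * p + 1 + 1 = 2 * (p + 1) by ring]

lemma add_pow_even_le (u v : ℝ) (p : ℕ) :
    (u + v) ^ (2 * p) ≤ 4 ^ p * (u ^ (2 * p) + v ^ (2 * p)) := by
  rw [← (even_two_mul p).pow_abs, ← (even_two_mul p).pow_abs (a := u),
    ← (even_two_mul p).pow_abs (a := v)]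
  rcases le_total |u| |v| with huv | huv
  · refine (pow_le_pow_left₀ (abs_nonneg _)
      ((abs_add_le u v).trans (show |u| + |v| ≤ 2 * |v| by linarith)) _).trans ?_
    rw [mul_pow, pow_mul (2 : ℝ), show (2 : ℝ) ^ 2 = 4 by norm_num]
    exact mul_le_mul_of_nonneg_left (le_add_of_nonneg_left (by positivity)) (by positivity)
  · refine (pow_le_pow_left₀ (abs_nonneg _)
      ((abs_add_le u v).trans (show |u| + |v| ≤ 2 * |u| by linarith)) _).trans ?_
    rw [mul_pow, pow_mul (2 : ℝ), show (2 : ℝ) ^ 2 = 4 by norm_num]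
    exact mul_le_mul_of_nonneg_left (le_add_of_nonneg_right (by positivity)) (by positivity)

/-- Even functions of the two sides of an edge are uncorrelated. -/
lemma cut_even (h : Reg G d) (hν : HasMarginals G θ ν) (hθ : |θ| < 1) {v v' : V}
    (hvv' : G.Adj v v') {f g : Omega V → ℝ} (hfm : Measurable f) (hgm : Measurable g)
    (hf : SiteDep (sideOf G v v') f) (hg : SiteDep (sideOf G v' v) g) {C : ℝ}
    (hfb : ∀ ω, |f ω| ≤ C) (hgb : ∀ ω, |g ω| ≤ C)
    (heven : ∀ᵐ ω ∂probM ν, f (flipAll ω) = f ω) :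
    ∫ ω, f ω * g ω ∂probM ν = (∫ ω, f ω ∂probM ν) * ∫ ω, g ω ∂probM ν := by
  rw [cut_identity h hν hθ hvv' hfm hgm hf hg hfb hgb,
    show (∫ ω, f ω * spin (ω.1 v) ∂probM ν) = 0 from integral_even_mul_sp h hν hfm heven v]
  ring

/-- Moments of sums of losses along a geodesic. -/
theorem window_moment (h : Reg G d) (hd : 3 ≤ d) (hν : HasMarginals G θ ν) (hθ : |θ| < 1)
    (hc : bn d * θ ^ 2 = 1) (p : ℕ) :
    ∃ C, 0 ≤ C ∧ ∀ t : ℝ, 0 < t → ∀ x0 p0, G.Adj x0 p0 → ∀ L : ℕ, 1 ≤ L →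
      ∀ y k, Geo G y k → ∀ a b : ℕ, a ≤ b → b ≤ k →
      ∫ ω, (∑ i ∈ Finset.Ico a b, (psiW θ (msg ν G t Set.univ (y i) (y (i + 1)) ω)
          - psiBar ν G θ t x0 p0)) ^ (2 * p) ∂probM ν
        ≤ C * (((L : ℝ) + 1) ^ (2 * p) * ((k : ℝ) + 1) ^ p * qe ν G t x0 p0 ^ (2 * p)
          + ((k : ℝ) + 1) ^ (2 * p) * (forgetRate θ ^ L) ^ (2 * p)) := by
  choose Cm hCm hmom using mom_le_pow h hd hν hθ hc
  set M : ℕ → ℝ := fun l => 4 ^ l * (Cm (2 * l) + 1) with hMdef
  have hM : ∀ l, 0 ≤ M l := fun l => by have := hCm (2 * l); positivity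
  obtain ⟨Cb, hCb, hblock⟩ := block_moment (α := Omega V) (μ := probM ν) hM p
  have h2 : (0 : ℝ) < 1 - θ ^ 2 := by linarith [(sq_lt_one_iff_abs_lt_one θ).2 hθ]
  set K := 8 / (1 - θ ^ 2) with hK
  have hK0 : 0 ≤ K := by positivity
  refine ⟨4 ^ p * (Cb + K ^ (2 * p)), by positivity,
    fun t ht x0 p0 hadj0 L _ y k hy a b _ hbk => ?_⟩
  set q := qe ν G t x0 p0 with hq
  have hq0 : 0 ≤ q := mom_nonneg _ _ _ _
  set ρ := forgetRate θ ^ L with hρ
  have hρ0 : 0 ≤ ρ := pow_nonneg (forgetRate_nonneg θ) L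
  set X : ℕ → Omega V → ℝ := fun i ω => psiW θ (msg ν G t Set.univ (y i) (y (i + 1)) ω) with hX
  set X' : ℕ → Omega V → ℝ := fun i ω => psiW θ (winMsg ν G t y L i ω) with hX'
  set Z : ℕ → Omega V → ℝ := fun i ω => X' i ω - ∫ η, X' i η ∂probM ν with hZ
  have hwb : ∀ i ω, |winMsg ν G t y L i ω| ≤ 1 := fun i ω => abs_mu_le _ _ _ _
  have hX'm : ∀ i, Measurable (X' i) := fun i => measurable_psiW.comp (measurable_mu t _ _)
  have hX'b : ∀ i ω, |X' i ω| ≤ 1 := fun i ω => abs_psiW_le hθ (hwb i ω)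
  have hXm : ∀ i, Measurable (X i) := fun i => measurable_psiW.comp (measurable_mu t _ _)
  have hXb : ∀ i ω, |X i ω| ≤ 1 := fun i ω => abs_psiW_le hθ (abs_mu_le _ _ _ _)
  have hX'i : ∀ i, Integrable (X' i) (probM ν) := fun i => integrable_bdd (hX'm i) (hX'b i)
  have hXi : ∀ i, Integrable (X i) (probM ν) := fun i => integrable_bdd (hXm i) (hXb i)
  have hm' : ∀ i, |∫ η, X' i η ∂probM ν| ≤ 1 := fun i =>
    abs_integral_le_integral_abs.trans ((integral_mono (hX'i i).abs (integrable_const (1 : ℝ))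
      (hX'b i)).trans (by simp))
  have hZm : ∀ i, Measurable (Z i) := fun i => (hX'm i).sub_const _
  have hZb : ∀ i ω, |Z i ω| ≤ 2 := fun i ω =>
    (abs_sub _ _).trans (by linarith [hX'b i ω, hm' i])
  have hZ0 : ∀ i, ∫ ω, Z i ω ∂probM ν = 0 := fun i => by
    simp only [hZ]
    rw [integral_sub (hX'i i) (integrable_const _)]
    simp
  have hflip : ∀ᵐ ω ∂probM ν, ∀ i, Z i (flipAll ω) = Z i ω := by
    rw [ae_all_iff]
    intro i
    filter_upwards [mu_flipAll h hν t (winSet G y L i) (y i)] with ω hω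
    simp only [hZ, hX', winMsg, hω, psiW_neg]
  have hdep : ∀ i, SiteDep (winSet G y L i) (Z i) := fun i =>
    ((siteDep_cE t _ _).comp (psiW θ)).comp fun x => x - ∫ η, X' i η ∂probM ν
  have hwin2 : ∀ i < k, ∀ l, mom ν t (winSet G y L i) (y i) l ≤ Cm l * q ^ l := by
    intro i hi l
    refine (mom_mono le_rfl (winSet_subset y L i) (y i) l).trans ?_
    rw [hq, ← qe_eq h hν (hy.1 i hi) hadj0 t]
    exact hmom l _ _ (hy.1 i hi) t ht
  have hwin1 : ∀ i < k, mom ν t (winSet G y L i) (y i) 1 ≤ q := by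
    intro i hi
    refine (mom_mono le_rfl (winSet_subset y L i) (y i) 1).trans ?_
    rw [hq, ← qe_eq h hν (hy.1 i hi) hadj0 t]
    rfl
  have hZp : ∀ i < k, ∀ l, ∫ ω, Z i ω ^ (2 * l) ∂probM ν ≤ M l * q ^ (2 * l) := by
    intro i hi l
    have hm : |∫ η, X' i η ∂probM ν| ≤ q := by
      rw [abs_of_nonneg (integral_nonneg fun η => psiW_nonneg hθ (hwb i η))]
      refine (integral_mono (hX'i i) (integrable_mu_pow t _ _ 2)
        fun η => psiW_le_sq hθ (hwb i η)).trans ?_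
      exact (hwin1 i hi)
    have hi1 : Integrable (fun ω => winMsg ν G t y L i ω ^ (2 * (2 * l))) (probM ν) :=
      integrable_mu_pow t _ _ _
    refine (integral_mono (g := fun ω => 4 ^ l * (winMsg ν G t y L i ω ^ (2 * (2 * l)) + q ^ (2 * l)))
      (integrable_bdd ((hZm i).pow_const _) (C := 2 ^ (2 * l)) fun ω => by
        rw [abs_pow]; exact pow_le_pow_left₀ (abs_nonneg _) (hZb i ω) _)
      ((hi1.add (integrable_const _)).const_mul _) fun ω => ?_).trans ?_
    · refine (le_of_eq (by simp only [hZ]; rw [sub_eq_add_neg])).trans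
        ((add_pow_even_le _ _ l).trans ?_)
      refine mul_le_mul_of_nonneg_left (add_le_add ?_ ?_) (by positivity)
      · calc X' i ω ^ (2 * l) ≤ (winMsg ν G t y L i ω ^ 2) ^ (2 * l) :=
              pow_le_pow_left₀ (psiW_nonneg hθ (hwb i ω)) (psiW_le_sq hθ (hwb i ω)) _
          _ = _ := by rw [← pow_mul]
      · rw [← (even_two_mul l).pow_abs, abs_neg]
        exact pow_le_pow_left₀ (abs_nonneg _) hm _
    · rw [integral_const_mul, integral_add hi1 (integrable_const _), integral_const,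
        probReal_univ, one_smul, hMdef, mul_assoc, add_mul, one_mul]
      exact mul_le_mul_of_nonneg_left (add_le_add (hwin2 i hi (2 * l)) le_rfl) (by positivity)
  -- independence inside a class
  have hfac : ∀ (r : ℕ), ∀ m ∈ (Finset.Ico a b).filter (fun i => i % (L + 1) = r), ∀ J : Finset ℕ,
      J ⊆ (Finset.Ico a b).filter (fun i => i % (L + 1) = r) → (∀ i ∈ J, i < m) → ∀ j l : ℕ,
      ∫ ω, (∑ i ∈ J, Z i ω) ^ j * Z m ω ^ l ∂probM ν
        = (∫ ω, (∑ i ∈ J, Z i ω) ^ j ∂probM ν) * ∫ ω, Z m ω ^ l ∂probM ν := by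
    intro r m hm J hJ hlt j l
    rcases J.eq_empty_or_nonempty with rfl | ⟨i0, hi0⟩
    · simp [integral_const_mul]
    obtain ⟨hm1, hm2⟩ := Finset.mem_filter.1 hm
    have hmk : m < k := lt_of_lt_of_le (Finset.mem_Ico.1 hm1).2 hbk
    have hgap : ∀ i ∈ J, i + (L + 1) ≤ m := by
      intro i hi
      have hr' := (Finset.mem_filter.1 (hJ hi)).2
      have e1 := Nat.div_add_mod i (L + 1)
      have e2 := Nat.div_add_mod m (L + 1)
      have hlt' := hlt i hi
      have hdd : i / (L + 1) < m / (L + 1) := by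
        by_contra hh
        rw [not_lt] at hh
        have := Nat.mul_le_mul_left (L + 1) hh
        omega
      have := Nat.mul_le_mul_left (L + 1) hdd
      rw [Nat.mul_succ] at this
      omega
    have hLm : L ≤ m := by have := hgap i0 hi0; omega
    have hcadj : G.Adj (y (m - L)) (y (m - L + 1)) := hy.1 _ (by omega)
    have hJs : ∀ i ∈ J, winSet G y L i ⊆ sideAt G y (m - L) := fun i hi =>
      (winSet_subset y L i).trans (sideAt_mono h hy (by have := hgap i hi; omega) (by omega))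
    have hms : winSet G y L m ⊆ sideOf G (y (m - L + 1)) (y (m - L)) := by
      rw [winSet, if_pos hLm]
      exact fun z hz => (mem_sideOf_or h.tree hcadj z).resolve_left hz.2
    refine cut_even h hν hθ hcadj ((Finset.measurable_sum _ fun i _ => hZm i).pow_const j)
      ((hZm m).pow_const l) ?_ (((hdep m).mono hms).comp fun x => x ^ l)
      (C := max ((2 * (J.card : ℝ)) ^ j) (2 ^ l)) (fun ω => ?_) (fun ω => ?_) ?_
    · intro ω ω' e1 e2
      simp only
      rw [Finset.sum_congr rfl fun i hi => ((hdep i).mono (hJs i hi)) ω ω' e1 e2]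
    · rw [abs_pow]
      refine le_trans (pow_le_pow_left₀ (abs_nonneg _) ?_ j) (le_max_left _ _)
      refine (Finset.abs_sum_le_sum_abs _ _).trans ?_
      refine (Finset.sum_le_card_nsmul J _ 2 fun i _ => hZb i ω).trans (le_of_eq ?_)
      rw [nsmul_eq_mul, mul_comm]
    · rw [abs_pow]
      exact le_trans (pow_le_pow_left₀ (abs_nonneg _) (hZb m ω) l) (le_max_right _ _)
    · filter_upwards [hflip] with ω hω
      rw [Finset.sum_congr rfl fun i _ => hω i]
  have hcls : ∀ r, ∫ ω, (∑ i ∈ (Finset.Ico a b).filter (fun i => i % (L + 1) = r), Z i ω) ^ (2 * p)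
      ∂probM ν ≤ Cb * ((k : ℝ) + 1) ^ p * q ^ (2 * p) := by
    intro r
    have hIk : ∀ i ∈ (Finset.Ico a b).filter (fun i => i % (L + 1) = r), i < k := fun i hi =>
      lt_of_lt_of_le (Finset.mem_Ico.1 (Finset.mem_filter.1 hi).1).2 hbk
    refine (hblock Z _ q 2 hq0 hZm hZb (fun i _ => hZ0 i) (fun i hi => hZp i (hIk i hi))
      (hfac r)).trans ?_
    refine mul_le_mul_of_nonneg_right (mul_le_mul_of_nonneg_left
      (pow_le_pow_left₀ (Nat.cast_nonneg _) ?_ p) hCb) (pow_nonneg hq0 _)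
    have h1 := Finset.card_filter_le (Finset.Ico a b) (fun i => i % (L + 1) = r)
    rw [Nat.card_Ico] at h1
    have h2 : ((Finset.Ico a b).filter (fun i => i % (L + 1) = r)).card ≤ k + 1 := by omega
    exact_mod_cast h2
  set T : Omega V → ℝ := fun ω => ∑ i ∈ Finset.Ico a b, Z i ω with hT
  have hbd : ∀ (I : Finset ℕ) ω, |(∑ i ∈ I, Z i ω) ^ (2 * p)| ≤ (2 * (I.card : ℝ)) ^ (2 * p) :=
    fun I ω => by
      rw [abs_pow]
      refine pow_le_pow_left₀ (abs_nonneg _) ((Finset.abs_sum_le_sum_abs _ _).trans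
        ((Finset.sum_le_card_nsmul I _ 2 fun i _ => hZb i ω).trans (le_of_eq ?_))) _
      rw [nsmul_eq_mul, mul_comm]
  have hint : ∀ I : Finset ℕ, Integrable (fun ω => (∑ i ∈ I, Z i ω) ^ (2 * p)) (probM ν) :=
    fun I => integrable_bdd ((Finset.measurable_sum _ fun i _ => hZm i).pow_const _) (hbd I)
  have hTb : ∫ ω, T ω ^ (2 * p) ∂probM ν
      ≤ ((L : ℝ) + 1) ^ (2 * p) * (Cb * ((k : ℝ) + 1) ^ p * q ^ (2 * p)) := by
    have hpt : ∀ ω, T ω ^ (2 * p) * ((L : ℝ) + 1) ≤ ((L : ℝ) + 1) ^ (2 * p)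
        * ∑ r ∈ Finset.range (L + 1),
          (∑ i ∈ (Finset.Ico a b).filter (fun i => i % (L + 1) = r), Z i ω) ^ (2 * p) := by
      intro ω
      have e : T ω = ∑ r ∈ Finset.range (L + 1),
          ∑ i ∈ (Finset.Ico a b).filter (fun i => i % (L + 1) = r), Z i ω :=
        (Finset.sum_fiberwise_of_maps_to
          (fun i _ => Finset.mem_range.2 (Nat.mod_lt i (Nat.succ_pos L))) _).symm
      have := sum_pow_card_le (Finset.range (L + 1))
        (fun r => ∑ i ∈ (Finset.Ico a b).filter (fun i => i % (L + 1) = r), Z i ω) p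
      rw [Finset.card_range, ← e] at this
      push_cast at this
      exact this
    refine le_of_mul_le_mul_right ?_ (show (0 : ℝ) < (L : ℝ) + 1 by positivity)
    rw [← integral_mul_const]
    refine (integral_mono ((hint _).mul_const _)
      ((integrable_finsetSum _ fun r _ => hint _).const_mul _) hpt).trans ?_
    rw [integral_const_mul, integral_finsetSum _ fun r _ => hint _, mul_assoc]
    refine mul_le_mul_of_nonneg_left ((Finset.sum_le_card_nsmul _ _ _ fun r _ => hcls r).trans_eq ?_)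
      (by positivity)
    rw [Finset.card_range, nsmul_eq_mul]
    push_cast
    ring
  have herr : ∀ᵐ ω ∂probM ν,
      |(∑ i ∈ Finset.Ico a b, (X i ω - psiBar ν G θ t x0 p0)) - T ω| ≤ K * (((k : ℝ) + 1) * ρ) := by
    have hlip : ∀ i ∈ Finset.Ico a b, ∀ᵐ ω ∂probM ν, |X i ω - X' i ω| ≤ 4 / (1 - θ ^ 2) * ρ := by
      intro i hi
      filter_upwards [winMsg_close h hν hθ t hy L i
        (lt_of_lt_of_le (Finset.mem_Ico.1 hi).2 hbk)] with ω hω
      refine (psiW_lip hθ (abs_mu_le _ _ _ _) (hwb i ω)).trans ?_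
      refine (mul_le_mul_of_nonneg_left hω (by positivity)).trans (le_of_eq ?_)
      rw [hρ]; ring
    filter_upwards [(ae_ball_iff (Finset.countable_toSet _)).2 hlip] with ω hω
    rw [hT, ← Finset.sum_sub_distrib]
    refine (Finset.abs_sum_le_sum_abs _ _).trans ((Finset.sum_le_card_nsmul _ _
      (2 * (4 / (1 - θ ^ 2) * ρ)) fun i hi => ?_).trans ?_)
    · have hik : i < k := lt_of_lt_of_le (Finset.mem_Ico.1 hi).2 hbk
      have eb : psiBar ν G θ t x0 p0 = ∫ η, X i η ∂probM ν :=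
        psiBar_eq h hν hadj0 (hy.1 i hik) t
      rw [eb]
      simp only [hZ]
      rw [show X i ω - (∫ η, X i η ∂probM ν) - (X' i ω - ∫ η, X' i η ∂probM ν)
        = (X i ω - X' i ω) - ((∫ η, X i η ∂probM ν) - ∫ η, X' i η ∂probM ν) by ring,
        ← integral_sub (hXi i) (hX'i i)]
      refine (abs_sub _ _).trans ?_
      rw [two_mul]
      refine add_le_add (hω i hi) (abs_integral_le_integral_abs.trans ?_)
      refine (integral_mono_ae ((hXi i).sub (hX'i i)).abs (integrable_const _) (hlip i hi)).trans ?_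
      simp
    · rw [Nat.card_Ico, nsmul_eq_mul, hK]
      have : ((b - a : ℕ) : ℝ) ≤ (k : ℝ) + 1 := by exact_mod_cast (show b - a ≤ k + 1 by omega)
      refine (mul_le_mul_of_nonneg_right this (by positivity)).trans (le_of_eq ?_)
      ring
  have hTi := hint (Finset.Ico a b)
  have hfull : Integrable (fun ω => (∑ i ∈ Finset.Ico a b,
      (X i ω - psiBar ν G θ t x0 p0)) ^ (2 * p)) (probM ν) :=
    integrable_bdd ((Finset.measurable_sum _ fun i _ => (hXm i).sub_const _).pow_const _)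
      (C := ((Finset.Ico a b).card * (1 + |psiBar ν G θ t x0 p0|)) ^ (2 * p)) fun ω => by
      rw [abs_pow]
      refine pow_le_pow_left₀ (abs_nonneg _) ((Finset.abs_sum_le_sum_abs _ _).trans
        ((Finset.sum_le_card_nsmul _ _ _ fun i _ =>
          (abs_sub _ _).trans (add_le_add (hXb i ω) le_rfl)).trans (le_of_eq ?_))) _
      rw [nsmul_eq_mul]
  refine (integral_mono_ae (g := fun ω => 4 ^ p * (T ω ^ (2 * p)
      + (K * (((k : ℝ) + 1) * ρ)) ^ (2 * p))) hfull
    ((hTi.add (integrable_const _)).const_mul _) ?_).trans ?_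
  · filter_upwards [herr] with ω hω
    set U := ∑ i ∈ Finset.Ico a b, (X i ω - psiBar ν G θ t x0 p0)
    have := add_pow_even_le (T ω) (U - T ω) p
    rw [add_sub_cancel] at this
    refine this.trans (mul_le_mul_of_nonneg_left (add_le_add le_rfl ?_) (by positivity))
    rw [← (even_two_mul p).pow_abs]
    exact pow_le_pow_left₀ (abs_nonneg _) hω _
  · rw [integral_const_mul, integral_add hTi (integrable_const _), integral_const, probReal_univ,
      one_smul, mul_pow, mul_pow]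
    set A := ((L : ℝ) + 1) ^ (2 * p) * ((k : ℝ) + 1) ^ p * q ^ (2 * p)
    set B := ((k : ℝ) + 1) ^ (2 * p) * ρ ^ (2 * p)
    have hA : 0 ≤ A := by positivity
    have hB : 0 ≤ B := by positivity
    calc (4 : ℝ) ^ p * ((∫ ω, T ω ^ (2 * p) ∂probM ν) + K ^ (2 * p) * B)
        ≤ 4 ^ p * (Cb * A + K ^ (2 * p) * B) := by
          refine mul_le_mul_of_nonneg_left (add_le_add (hTb.trans (le_of_eq ?_)) le_rfl) (by positivity)
          ring
      _ ≤ 4 ^ p * ((Cb + K ^ (2 * p)) * (A + B)) := by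
          refine mul_le_mul_of_nonneg_left ?_ (by positivity)
          have h3 : 0 ≤ K ^ (2 * p) * A := by positivity
          have h4 : 0 ≤ Cb * B := by positivity
          linarith
      _ = _ := by ring

end Vale.Agent.P161
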