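import Vale.Agent.P161.Critical.Crude
import Vale.Agent.P161.Critical.Converse
import Vale.Agent.P161.Critical.Windows

/-!
Functions of the observations in distant balls are correlated no more than the spins, and the
centred losses along a geodesic therefore have diffusive sums.
-/

open MeasureTheory ProbabilityTheory SimpleGraph Filter
open scoped Topology RealInnerProductSpace

set_option linter.unusedSectionVars false

namespace Vale.Agent.P161

universe u

variable {V : Type u} [DecidableEq V] {G : SimpleGraph V} [DecidableRel G.Adj] {θ : ℝ} {d : ℕ}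
variable {ν : Measure (V → Bool)} [IsProbabilityMeasure ν]

lemma abs_theta_eq_rho (hd : 3 ≤ d) (hc : bn d * θ ^ 2 = 1) : |θ| = rho d := by
  refine (sq_eq_sq₀ (abs_nonneg θ) (rho_pos hd).le).1 ?_
  rw [sq_abs]
  exact mul_left_cancel₀ (show bn d ≠ 0 by linarith [two_le_bn hd]) (hc.trans (rho_sq hd).symm)

lemma integral_sp (h : Reg G d) (hν : HasMarginals G θ ν) (v : V) :
    ∫ ω, sp v ω ∂probM ν = 0 := by
  simpa using integral_even_mul_sp h hν (f := fun _ => (1 : ℝ)) measurable_const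
    (Eventually.of_forall fun _ => rfl) v

lemma integral_sp_mul (h : Reg G d) (hν : HasMarginals G θ ν) (hθ : |θ| < 1) (v w : V) :
    ∫ ω, sp v ω * sp w ω ∂probM ν = θ ^ G.dist v w := by
  rw [← correlation h hν hθ v w, probM]
  have := integral_fun_fst (μ := ν) (ν := gam (V × ℕ × ℕ)) fun σ => spin (σ v) * spin (σ w)
  rw [probReal_univ, one_smul] at this
  exact this

/-- A function of one side of an edge sees the spins of the other side through the edge. -/
lemma integral_side_mul_sp (h : Reg G d) (hν : HasMarginals G θ ν) (hθ : |θ| < 1) {v v' w : V}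
    (hvv' : G.Adj v v') (hw : w ∈ sideOf G v' v) {F : Omega V → ℝ} (hFm : Measurable F)
    (hFd : SiteDep (sideOf G v v') F) (hFb : ∀ ω, |F ω| ≤ 1) :
    ∫ ω, F ω * sp w ω ∂probM ν = θ ^ G.dist v w * ∫ ω, F ω * sp v ω ∂probM ν := by
  rw [cut_identity h hν hθ hvv' hFm (measurable_sp w) hFd (siteDep_sp hw) hFb (abs_sp_le w),
    integral_sp h hν w, show (∫ ω, sp w ω * spin (ω.1 v') ∂probM ν) = θ ^ G.dist w v' from
      integral_sp_mul h hν hθ w v',
    show (fun ω : Omega V => F ω * spin (ω.1 v)) = fun ω => F ω * sp v ω from rfl,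
    G.dist_comm (u := v), show G.dist w v = G.dist w v' + 1 from hw, pow_succ]
  ring

lemma dist_across (h : Reg G d) {x x' u w : V} (hxx' : G.Adj x x') (hu : u ∈ sideOf G x x')
    (hw : w ∈ sideOf G x' x) : G.dist u w = G.dist x u + 1 + G.dist x' w := by
  obtain ⟨hg, -, -, e3⟩ := geo_across h hxx' hu hw
  have := hg.2
  rwa [ray_zero, e3] at this

/-- Centred functions of distant balls are hardly correlated. -/
theorem ball_cov (h : Reg G d) (hd : 3 ≤ d) (hν : HasMarginals G θ ν) (hθ : |θ| < 1)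
    (hc : bn d * θ ^ 2 = 1) (R : ℕ) {a x : V} {F F' : Omega V → ℝ} (hFm : Measurable F)
    (hF'm : Measurable F') (hFd : SiteDep (h.ball a R : Set V) F)
    (hF'd : SiteDep (h.ball x R : Set V) F') (hFb : ∀ ω, |F ω| ≤ 1) (hF'b : ∀ ω, |F' ω| ≤ 1)
    (hF0 : ∫ ω, F ω ∂probM ν = 0) :
    |∫ ω, F ω * F' ω ∂probM ν| ≤ (rho d ^ (2 * R + 2))⁻¹ * rho d ^ G.dist a x := by
  have hρ := rho_pos hd
  have hρ1 := rho_lt_one hd
  set D := G.dist a x with hD
  have hint : ∀ f : Omega V → ℝ, Measurable f → (∀ ω, |f ω| ≤ 1) →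
      |∫ ω, f ω ∂probM ν| ≤ 1 := fun f hfm hfb =>
    abs_integral_le_integral_abs.trans ((integral_mono (integrable_bdd hfm hfb).abs
      (integrable_const (1 : ℝ)) hfb).trans (by simp))
  rw [inv_mul_eq_div, le_div_iff₀ (by positivity)]
  rcases lt_or_ge D (2 * R + 2) with hlt | hge
  · have h1 : |∫ ω, F ω * F' ω ∂probM ν| ≤ 1 := hint _ (hFm.mul hF'm) fun ω => by
      rw [abs_mul]; exact mul_le_one₀ (hFb ω) (abs_nonneg _) (hF'b ω)
    exact (mul_le_of_le_one_left (by positivity) h1).trans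
      (pow_le_pow_of_le_one hρ.le hρ1.le hlt.le)
  set y : ℕ → V := ray h x a with hy0
  have hy : Geo G y D := by
    have := ray_geo h x a
    rwa [G.dist_comm, ← hD] at this
  have hya : y 0 = a := ray_zero h x a
  have hyx : y D = x := by rw [hy0, hD, G.dist_comm]; exact ray_last h x a
  set v := y R
  set v' := y (R + 1)
  have hvv' : G.Adj v v' := hy.1 R (by omega)
  set w := y (D - R)
  set w' := y (D - R - 1)
  have hw'w : G.Adj w' w := by
    have := hy.1 (D - R - 1) (by omega)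
    rwa [show D - R - 1 + 1 = D - R by omega] at this
  have hav : a ∈ sideOf G v v' := by
    have := sideAt_mono h hy (Nat.zero_le R) (by omega) (self_mem_sideOf (hy.1 0 (by omega)))
    rwa [hya] at this
  have hxv : x ∈ sideOf G v' v := by
    show G.dist x v = G.dist x v' + 1
    rw [← hyx, G.dist_comm, hy.dist_eq h.tree (show R ≤ D by omega) le_rfl, G.dist_comm,
      hy.dist_eq h.tree (show R + 1 ≤ D by omega) le_rfl]
    omega
  have hxw : x ∈ sideOf G w w' := by
    show G.dist x w' = G.dist x w + 1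
    rw [← hyx, G.dist_comm, hy.dist_eq h.tree (show D - R - 1 ≤ D by omega) le_rfl, G.dist_comm,
      hy.dist_eq h.tree (show D - R ≤ D by omega) le_rfl]
    omega
  have hva : G.dist v a = R := by
    rw [G.dist_comm, ← hya, hy.dist_eq h.tree (Nat.zero_le R) (by omega), Nat.sub_zero]
  have hv'x : G.dist v' x = D - (R + 1) := by
    rw [← hyx, hy.dist_eq h.tree (show R + 1 ≤ D by omega) le_rfl]
  have hwx : G.dist w x = R := by
    rw [← hyx, hy.dist_eq h.tree (show D - R ≤ D by omega) le_rfl]; omega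
  have hA : (h.ball a R : Set V) ⊆ sideOf G v v' := fun z hz => by
    refine (mem_sideOf_or h.tree hvv' z).resolve_right fun hz' => ?_
    have := dist_across h hvv' hav hz'
    rw [Finset.mem_coe, h.mem_ball] at hz
    omega
  have hB : (h.ball x R : Set V) ⊆ sideOf G v' v := fun z hz => by
    refine (mem_sideOf_or h.tree hvv' z).resolve_left fun hz' => ?_
    have := dist_across h hvv'.symm hxv hz'
    rw [Finset.mem_coe, h.mem_ball] at hz
    omega
  have hB' : (h.ball x R : Set V) ⊆ sideOf G w w' := fun z hz => by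
    refine (mem_sideOf_or h.tree hw'w.symm z).resolve_right fun hz' => ?_
    have := dist_across h hw'w.symm hxw hz'
    rw [Finset.mem_coe, h.mem_ball] at hz
    omega
  have hv'w : v' ∈ sideOf G w' w := by
    have hadj := hy.1 (R + 1) (by omega)
    have := sideAt_mono h hy (show R + 1 ≤ D - R - 1 by omega) (by omega) (self_mem_sideOf hadj)
    simpa [sideAt, show D - R - 1 + 1 = D - R by omega] using this
  have hdw : G.dist w v' = D - R - (R + 1) := by
    rw [G.dist_comm, hy.dist_eq h.tree (show R + 1 ≤ D - R by omega) (by omega)]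
  rw [cut_identity h hν hθ hvv' hFm hF'm (hFd.mono hA) (hF'd.mono hB) hFb hF'b, hF0, zero_mul,
    zero_add, show (fun ω : Omega V => F' ω * spin (ω.1 v')) = fun ω => F' ω * sp v' ω from rfl,
    integral_side_mul_sp h hν hθ hw'w.symm hv'w hF'm (hF'd.mono hB') hF'b, hdw]
  have b1 : |∫ ω, F ω * spin (ω.1 v) ∂probM ν| ≤ 1 := hint _ (hFm.mul (measurable_sp v)) fun ω => by
    rw [abs_mul]; exact mul_le_one₀ (hFb ω) (abs_nonneg _) (abs_sp_le v ω)
  have b2 : |∫ ω, F' ω * sp w ω ∂probM ν| ≤ 1 := hint _ (hF'm.mul (measurable_sp w)) fun ω => by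
    rw [abs_mul]; exact mul_le_one₀ (hF'b ω) (abs_nonneg _) (abs_sp_le w ω)
  rw [abs_mul, abs_mul, abs_mul, abs_pow, abs_theta_eq_rho hd hc]
  set n := D - R - (R + 1)
  calc rho d * (|∫ ω, F ω * spin (ω.1 v) ∂probM ν| * (rho d ^ n * |∫ ω, F' ω * sp w ω ∂probM ν|))
        * rho d ^ (2 * R + 2)
      ≤ rho d * (1 * (rho d ^ n * 1)) * rho d ^ (2 * R + 2) := by gcongr
    _ = rho d ^ (1 + n + (2 * R + 2)) := by rw [pow_add, pow_add]; ring
    _ ≤ rho d ^ D := pow_le_pow_of_le_one hρ.le hρ1.le (by omega)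

/-! ### Centred losses -/

/-- The loss along a directed edge. -/
noncomputable def psiE (ν : Measure (V → Bool)) (G : SimpleGraph V) (θ t : ℝ) (a b : V)
    (ω : Omega V) : ℝ :=
  psiW θ (msg ν G t Set.univ a b ω)

@[fun_prop]
lemma measurable_psiE (t : ℝ) (a b : V) : Measurable (psiE ν G θ t a b) :=
  measurable_psiW.comp (measurable_msg t _ a b)

lemma abs_psiE_le (hθ : |θ| < 1) (t : ℝ) (a b : V) (ω : Omega V) : |psiE ν G θ t a b ω| ≤ 1 :=
  abs_psiW_le hθ (abs_msg_le _ _ _ _ _)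

lemma bE_congr_ae {t : ℝ} {f f' : Omega V → ℝ} (hf : f =ᵐ[probM ν] f') :
    bE G θ ν t f =ᵐ[probM ν] bE G θ ν t f' := by
  filter_upwards [condExp_congr_ae (m := bAlg G θ ν t) hf] with ω e
  simp only [bE, e]

lemma cE_congr_ae {t : ℝ} {S : Set V} {f f' : Omega V → ℝ} (hf : f =ᵐ[probM ν] f') :
    cE ν t S f =ᵐ[probM ν] cE ν t S f' := by
  filter_upwards [condExp_congr_ae (m := obsAlg t S) hf] with ω e
  simp only [cE, e]

/-- The part of a loss which the innovations do not determine, halved. -/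
noncomputable def gW (G : SimpleGraph V) [DecidableRel G.Adj] (θ : ℝ) (ν : Measure (V → Bool))
    (t : ℝ) (a b : V) (ω : Omega V) : ℝ :=
  (psiE ν G θ t a b ω - bE G θ ν t (psiE ν G θ t a b) ω) / 2

@[fun_prop]
lemma measurable_gW (t : ℝ) (a b : V) : Measurable (gW G θ ν t a b) := by
  unfold gW; fun_prop

lemma abs_gW_le (hθ : |θ| < 1) (t : ℝ) (a b : V) (ω : Omega V) : |gW G θ ν t a b ω| ≤ 1 := by
  rw [gW, abs_div, abs_two, div_le_one two_pos]
  have h1 := abs_psiE_le (ν := ν) (G := G) hθ t a b ω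
  have h2 := abs_bE_le (G := G) (θ := θ) (ν := ν) t (psiE ν G θ t a b) ω
  exact (abs_sub _ _).trans (by linarith)

lemma measurable_gW_obs (t : ℝ) (a b : V) : Measurable[obsAlg t Set.univ] (gW G θ ν t a b) :=
  ((measurable_psiW.comp ((measurable_msg_obs t Set.univ a b).mono
    (obsAlg_mono le_rfl (Set.subset_univ _)) le_rfl)).sub
      ((measurable_bE_b t (psiE ν G θ t a b)).mono (bAlg_le_obsAlg t) le_rfl)).div_const 2

lemma integral_gW (hθ : |θ| < 1) (t : ℝ) (a b : V) : ∫ ω, gW G θ ν t a b ω ∂probM ν = 0 := by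
  have hm := measurable_psiE (ν := ν) (G := G) (θ := θ) t a b
  have hb := abs_psiE_le (ν := ν) (G := G) hθ t a b
  have e := integral_mul_bE (G := G) (θ := θ) (ν := ν) (t := t) (F := fun _ => (1 : ℝ)) hm hb
    measurable_const (integrable_const _)
  simp only [one_mul] at e
  simp only [gW, integral_div]
  rw [integral_sub (integrable_bdd hm hb) (integrable_bdd (measurable_bE t _) (abs_bE_le t _)), e,
    sub_self, zero_div]

lemma gW_gact (h : Reg G d) (hν : HasMarginals G θ ν) (hθ : |θ| < 1) (γ : G ≃g G) (t : ℝ)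
    (a b : V) : ∀ᵐ ω ∂probM ν, gW G θ ν t (γ a) (γ b) (gact γ ω) = gW G θ ν t a b ω := by
  have e1 : ∀ᵐ ω ∂probM ν, psiE ν G θ t (γ a) (γ b) (gact γ ω) = psiE ν G θ t a b ω := by
    filter_upwards [msg_gact h hν γ t Set.univ a b] with ω hω
    rw [Set.image_univ, γ.surjective.range_eq] at hω
    simp only [psiE, hω]
  filter_upwards [e1, bE_gact h hν hθ γ t (measurable_psiE (G := G) (θ := θ) (ν := ν) t (γ a) (γ b))
    (abs_psiE_le (G := G) (ν := ν) hθ t (γ a) (γ b)), bE_congr_ae (G := G) (θ := θ) (t := t)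
      (f := fun η => psiE ν G θ t (γ a) (γ b) (gact γ η)) (f' := psiE ν G θ t a b) e1] with ω q1 q2 q3
  simp only [gW, q1, q2, q3]

/-- The pairing of the losses of two copies. -/
lemma rep_pair [Countable V] (t : ℝ) {f f' : Omega V → ℝ} (hfm : Measurable f)
    (hf : ∀ ω, |f ω| ≤ 1) (hf'm : Measurable f') (hf' : ∀ ω, |f' ω| ≤ 1) :
    ∫ p, (f p.1 - f p.2) * (f' p.1 - f' p.2) ∂rep G θ ν t
      = 8 * ∫ ω, (f ω - bE G θ ν t f ω) / 2 * ((f' ω - bE G θ ν t f' ω) / 2) ∂probM ν := by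
  have hb : ∀ a b : Omega V → ℝ, Measurable a → Measurable b → (∀ ω, |a ω| ≤ 1) →
      (∀ ω, |b ω| ≤ 1) → Integrable (fun ω => a ω * b ω) (probM ν) := fun a b ha hb h1 h2 =>
    integrable_bdd (ha.mul hb) (C := 1) fun ω => abs_mul_le_one (h1 ω) (h2 ω)
  have hr : ∀ (φ ψ : Omega V × Omega V → ℝ), Measurable φ → Measurable ψ → (∀ p, |φ p| ≤ 1) →
      (∀ p, |ψ p| ≤ 1) → Integrable (fun p => φ p * ψ p) (rep G θ ν t) := fun φ ψ h1 h2 b1 b2 =>
    integrable_bdd (h1.mul h2) (C := 1) fun p => abs_mul_le_one (b1 p) (b2 p)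
  set B := bE G θ ν t f
  set B' := bE G θ ν t f'
  have hBm : Measurable B := measurable_bE t f
  have hB'm : Measurable B' := measurable_bE t f'
  have hB1 : ∀ ω, |B ω| ≤ 1 := abs_bE_le t f
  have hB'1 : ∀ ω, |B' ω| ≤ 1 := abs_bE_le t f'
  have k1 : ∫ ω, B ω * B' ω ∂probM ν = ∫ ω, B ω * f' ω ∂probM ν :=
    integral_mul_bE hf'm hf' (measurable_bE_b t f) (integrable_bdd hBm hB1)
  have k2 : ∫ ω, B' ω * B ω ∂probM ν = ∫ ω, B' ω * f ω ∂probM ν :=
    integral_mul_bE hfm hf (measurable_bE_b t f') (integrable_bdd hB'm hB'1)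
  have eL : ∫ p, (f p.1 - f p.2) * (f' p.1 - f' p.2) ∂rep G θ ν t
      = 2 * ∫ ω, f ω * f' ω ∂probM ν - ∫ ω, f ω * B' ω ∂probM ν - ∫ ω, f' ω * B ω ∂probM ν := by
    have e : ∀ p : Omega V × Omega V, (f p.1 - f p.2) * (f' p.1 - f' p.2)
        = (f p.1 * f' p.1 + f p.2 * f' p.2) - (f p.1 * f' p.2 + f' p.1 * f p.2) := fun p => by ring
    simp only [e]
    have i11 := hr (fun p => f p.1) (fun p => f' p.1) (by fun_prop) (by fun_prop)
      (fun p => hf _) (fun p => hf' _)
    have i22 := hr (fun p => f p.2) (fun p => f' p.2) (by fun_prop) (by fun_prop)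
      (fun p => hf _) (fun p => hf' _)
    have i12 := hr (fun p => f p.1) (fun p => f' p.2) (by fun_prop) (by fun_prop)
      (fun p => hf _) (fun p => hf' _)
    have i21 := hr (fun p => f' p.1) (fun p => f p.2) (by fun_prop) (by fun_prop)
      (fun p => hf' _) (fun p => hf _)
    rw [integral_sub (f := fun p : Omega V × Omega V => f p.1 * f' p.1 + f p.2 * f' p.2)
        (g := fun p : Omega V × Omega V => f p.1 * f' p.2 + f' p.1 * f p.2) (i11.add i22)
        (i12.add i21), integral_add i11 i22, integral_add i12 i21,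
      integral_rep_mul t hfm hf hf'm hf', integral_rep_mul t hf'm hf' hfm hf,
      integral_rep_fst t (f := fun ω => f ω * f' ω) (hfm.mul hf'm),
      integral_rep_snd t (f := fun ω => f ω * f' ω) (hfm.mul hf'm)]
    ring
  have e : ∀ ω, (f ω - B ω) / 2 * ((f' ω - B' ω) / 2)
      = ((f ω * f' ω + B ω * B' ω) - (f ω * B' ω + B ω * f' ω)) / 4 := fun ω => by ring
  rw [eL]
  simp only [e, integral_div]
  rw [integral_sub (f := fun ω => f ω * f' ω + B ω * B' ω) (g := fun ω => f ω * B' ω + B ω * f' ω)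
      ((hb f f' hfm hf'm hf hf').add (hb B B' hBm hB'm hB1 hB'1))
      ((hb f B' hfm hB'm hf hB'1).add (hb B f' hBm hf'm hB1 hf')),
    integral_add (hb f f' hfm hf'm hf hf') (hb B B' hBm hB'm hB1 hB'1),
    integral_add (hb f B' hfm hB'm hf hB'1) (hb B f' hBm hf'm hB1 hf'), k1]
  simp only [mul_comm (B' _)] at k2
  simp only [mul_comm (f' _)]
  rw [k1] at k2
  linarith

/-- A bounded field, covariant under automorphisms, as a field in `L²`. -/
noncomputable def edgeField (ν : Measure (V → Bool)) [IsProbabilityMeasure ν]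
    (F : V → V → Omega V → ℝ)
    (hm : ∀ a b, Measurable (F a b)) (hb : ∀ a b ω, |F a b ω| ≤ 1) (a b : V) :
    Lp ℝ 2 (probM ν) :=
  (MemLp.of_bound (hm a b).aestronglyMeasurable 1
    (Eventually.of_forall fun ω => (Real.norm_eq_abs _).trans_le (hb a b ω))).toLp (F a b)

lemma inner_edgeField {F F' : V → V → Omega V → ℝ} (hm : ∀ a b, Measurable (F a b))
    (hb : ∀ a b ω, |F a b ω| ≤ 1) (hm' : ∀ a b, Measurable (F' a b))
    (hb' : ∀ a b ω, |F' a b ω| ≤ 1) (a b x y : V) :
    ⟪edgeField ν F hm hb a b, edgeField ν F' hm' hb' x y⟫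
      = ∫ ω, F a b ω * F' x y ω ∂probM ν := by
  rw [L2.inner_def]
  refine integral_congr_ae ?_
  filter_upwards [MemLp.coeFn_toLp (MemLp.of_bound (hm a b).aestronglyMeasurable 1
      (Eventually.of_forall fun ω => (Real.norm_eq_abs _).trans_le (hb a b ω)) :
        MemLp (F a b) 2 (probM ν)),
    MemLp.coeFn_toLp (MemLp.of_bound (hm' x y).aestronglyMeasurable 1
      (Eventually.of_forall fun ω => (Real.norm_eq_abs _).trans_le (hb' x y ω)) :
        MemLp (F' x y) 2 (probM ν))] with ω e1 e2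
  simp only [edgeField, e1, e2]
  simp [mul_comm]

lemma invPair_edgeField (h : Reg G d) (hν : HasMarginals G θ ν) {F : V → V → Omega V → ℝ}
    (hm : ∀ a b, Measurable (F a b)) (hb : ∀ a b ω, |F a b ω| ≤ 1)
    (hF : ∀ (γ : G ≃g G) a b, G.Adj a b → ∀ᵐ ω ∂probM ν, F (γ a) (γ b) (gact γ ω) = F a b ω) :
    InvPair G (edgeField ν F hm hb) := by
  intro γ a b x y hab hxy
  have hT := measurePreserving_gact h hν γ
  rw [inner_edgeField hm hb hm hb, inner_edgeField hm hb hm hb]
  conv_lhs => rw [← hT.map_eq]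
  rw [integral_map (f := fun ω => F (γ a) (γ b) ω * F (γ x) (γ y) ω) hT.measurable.aemeasurable
    ((hm _ _).mul (hm _ _)).aestronglyMeasurable]
  refine integral_congr_ae ?_
  filter_upwards [hF γ a b hab, hF γ x y hxy] with ω e1 e2
  rw [e1, e2]

lemma image_ball (h : Reg G d) (γ : G ≃g G) (a : V) (R : ℕ) :
    γ '' (h.ball a R : Set V) = (h.ball (γ a) R : Set V) := by
  ext z
  simp only [Set.mem_image, Finset.mem_coe, h.mem_ball]
  refine ⟨?_, fun hz => ⟨γ.symm z, ?_, γ.apply_symm_apply z⟩⟩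
  · rintro ⟨w, hw, rfl⟩; rwa [dist_iso]
  · rwa [← dist_iso γ, γ.apply_symm_apply]

/-- Sums of centred losses along geodesics are diffusive. -/
theorem psi_rep_variance [Countable V] (h : Reg G d) (hd : 3 ≤ d) (hν : HasMarginals G θ ν)
    (hθ : |θ| < 1) (hc : bn d * θ ^ 2 = 1) :
    ∃ C, 0 ≤ C ∧ ∀ (t : ℝ) (x0 p0 : V), G.Adj x0 p0 → ∀ (y : ℕ → V) (k : ℕ), Geo G y k →
      ∫ p, (∑ i ∈ Finset.range k, (psiE ν G θ t (y i) (y (i + 1)) p.1
          - psiE ν G θ t (y i) (y (i + 1)) p.2)) ^ 2 ∂rep G θ ν t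
        ≤ C * k * ∫ p, (psiE ν G θ t x0 p0 p.1 - psiE ν G θ t x0 p0 p.2) ^ 2 ∂rep G θ ν t := by
  obtain ⟨C, hC0, hC⟩ := path_variance.{u, u} hd
  refine ⟨C, hC0, fun t x0 p0 hx0 y k hy => ?_⟩
  have hgm : ∀ a b, Measurable (gW G θ ν t a b) := fun a b => measurable_gW t a b
  have hgb : ∀ a b ω, |gW G θ ν t a b ω| ≤ 1 := fun a b ω => abs_gW_le hθ t a b ω
  set f := edgeField ν (gW G θ ν t) hgm hgb with hf
  have hfi : InvPair G f := invPair_edgeField h hν hgm hgb fun γ a b _ => gW_gact h hν hθ γ t a b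
  have hcst : ∀ a b, G.Adj a b → ‖f a b‖ = ‖f x0 p0‖ := by
    intro a b hab
    obtain ⟨γ, h1, h2⟩ := h.exists_iso (o := x0) (u := p0) (o' := a) (u' := b)
      (by rw [dist_eq_one_iff_adj.2 hx0, dist_eq_one_iff_adj.2 hab])
    refine (sq_eq_sq₀ (norm_nonneg _) (norm_nonneg _)).1 ?_
    rw [← real_inner_self_eq_norm_sq, ← real_inner_self_eq_norm_sq, ← h1, ← h2,
      hfi γ x0 p0 x0 p0 hx0 hx0]
  have hpair : ∀ a b x z, ∫ p, (psiE ν G θ t a b p.1 - psiE ν G θ t a b p.2)
      * (psiE ν G θ t x z p.1 - psiE ν G θ t x z p.2) ∂rep G θ ν t = 8 * ⟪f a b, f x z⟫ := by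
    intro a b x z
    rw [hf, inner_edgeField hgm hgb hgm hgb, rep_pair t (measurable_psiE t a b) (abs_psiE_le hθ t a b)
      (measurable_psiE t x z) (abs_psiE_le hθ t x z)]
    rfl
  -- approximation by local fields
  have happ : ∀ ε > 0, ∃ f' : V → V → Lp ℝ 2 (probM ν), InvPair G f' ∧
      (∀ a b, G.Adj a b → ‖f' a b - f a b‖ ≤ ε) ∧ ∃ K : ℝ, ∀ a b x z, G.Adj a b → G.Adj x z →
        |⟪f' a b, f' x z⟫| ≤ K * rho d ^ G.dist a x := by
    intro ε hε
    have hlim : Tendsto (fun R => ∫ ω, cE ν t (h.ball x0 R : Set V) (gW G θ ν t x0 p0) ω ^ 2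
        ∂probM ν) atTop (𝓝 (∫ ω, gW G θ ν t x0 p0 ω ^ 2 ∂probM ν)) := by
      have e : ∫ ω, cE ν t Set.univ (gW G θ ν t x0 p0) ω ^ 2 ∂probM ν
          = ∫ ω, gW G θ ν t x0 p0 ω ^ 2 ∂probM ν := integral_congr_ae (by
        filter_upwards [cE_unique (ν := ν) (hgm x0 p0) (hgb x0 p0) (measurable_gW_obs t x0 p0)
          (integrable_bdd (hgm x0 p0) (hgb x0 p0)) (fun s _ => rfl)] with ω hω
        rw [← hω])
      rw [← e]
      exact tendsto_integral_cE t (ball_mono h x0) (iUnion_ball h x0) (hgb x0 p0) (continuous_pow 2)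
    obtain ⟨R, hR⟩ := (hlim.eventually_const_lt
      (sub_lt_self _ (pow_pos hε 2))).exists
    set c : V → V → Omega V → ℝ := fun a b => cE ν t (h.ball a R : Set V) (gW G θ ν t a b) with hcd
    have hcm : ∀ a b, Measurable (c a b) := fun a b => measurable_cE _ _ _
    have hcb : ∀ a b ω, |c a b ω| ≤ 1 := fun a b ω => abs_cE_le _ _ _ _
    have hc0 : ∀ a b, ∫ ω, c a b ω ∂probM ν = 0 := fun a b => by
      have := integral_mul_cE (ν := ν) (t := t) (S := (h.ball a R : Set V)) (F := fun _ => (1 : ℝ))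
        (hgm a b) (hgb a b) measurable_const (C := 1) (fun _ => by simp)
      simp only [one_mul] at this
      rw [hcd, this, integral_gW hθ]
    have hci : InvPair G (edgeField ν c hcm hcb) := invPair_edgeField h hν hcm hcb fun γ a b _ => by
      filter_upwards [cE_gact h hν γ t (h.ball a R : Set V) (hgm (γ a) (γ b)) (hgb (γ a) (γ b)),
        cE_congr_ae (ν := ν) (t := t) (S := (h.ball a R : Set V))
          (gW_gact h hν hθ γ t a b)] with ω e1 e2
      rw [image_ball h γ a R] at e1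
      simp only [hcd, e1, e2]
    refine ⟨edgeField ν c hcm hcb, hci, fun a b hab => ?_, (rho d ^ (2 * R + 2))⁻¹,
      fun a b x z _ _ => ?_⟩
    · obtain ⟨γ, h1, h2⟩ := h.exists_iso (o := x0) (u := p0) (o' := a) (u' := b)
        (by rw [dist_eq_one_iff_adj.2 hx0, dist_eq_one_iff_adj.2 hab])
      have hcf : ∀ a b, ⟪edgeField ν c hcm hcb a b, f a b⟫
          = ⟪edgeField ν c hcm hcb a b, edgeField ν c hcm hcb a b⟫ := fun a b => by
        rw [hf, inner_edgeField hcm hcb hgm hgb, inner_edgeField hcm hcb hcm hcb]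
        exact (integral_mul_cE (hgm a b) (hgb a b) (measurable_cE_obs _ _ _) (hcb a b)).symm
      refine (pow_le_pow_iff_left₀ (norm_nonneg _) hε.le two_ne_zero).1 ?_
      rw [norm_sub_sq_real, hcf, real_inner_self_eq_norm_sq, hcst a b hab, ← h1, ← h2,
        ← real_inner_self_eq_norm_sq, hci γ x0 p0 x0 p0 hx0 hx0, inner_edgeField hcm hcb hcm hcb,
        ← real_inner_self_eq_norm_sq, hf, inner_edgeField hgm hgb hgm hgb]
      simp only [hcd, ← sq]
      linarith
    · rw [inner_edgeField hcm hcb hcm hcb]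
      exact ball_cov h hd hν hθ hc R (hcm a b) (hcm x z) (siteDep_cE _ _ _) (siteDep_cE _ _ _)
        (hcb a b) (hcb x z) (hc0 a b)
  have main := hC V G h _ f hfi happ ‖f x0 p0‖ (fun a b hab => (hcst a b hab).le) y k hy
  have hsum : ∫ p, (∑ i ∈ Finset.range k, (psiE ν G θ t (y i) (y (i + 1)) p.1
      - psiE ν G θ t (y i) (y (i + 1)) p.2)) ^ 2 ∂rep G θ ν t
      = 8 * ‖∑ i ∈ Finset.range k, f (y i) (y (i + 1))‖ ^ 2 := by
    have hi : ∀ i j, Integrable (fun p : Omega V × Omega V =>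
        (psiE ν G θ t (y i) (y (i + 1)) p.1 - psiE ν G θ t (y i) (y (i + 1)) p.2)
          * (psiE ν G θ t (y j) (y (j + 1)) p.1 - psiE ν G θ t (y j) (y (j + 1)) p.2))
        (rep G θ ν t) := fun i j => integrable_bdd (by fun_prop) (C := 2 * 2) fun p => by
      rw [abs_mul]
      refine mul_le_mul ?_ ?_ (abs_nonneg _) zero_le_two <;>
        exact (abs_sub _ _).trans ((add_le_add (abs_psiE_le hθ _ _ _ _)
          (abs_psiE_le hθ _ _ _ _)).trans (by norm_num))
    simp only [sq (Finset.sum _ _), Finset.sum_mul_sum]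
    rw [← real_inner_self_eq_norm_sq, sum_inner, Finset.mul_sum,
      integral_finsetSum _ fun i _ => integrable_finsetSum _ fun j _ => hi i j]
    refine Finset.sum_congr rfl fun i _ => ?_
    rw [integral_finsetSum _ fun j _ => hi i j, inner_sum, Finset.mul_sum]
    exact Finset.sum_congr rfl fun j _ => hpair _ _ _ _
  rw [hsum]
  have h8 : ∫ p, (psiE ν G θ t x0 p0 p.1 - psiE ν G θ t x0 p0 p.2) ^ 2 ∂rep G θ ν t
      = 8 * ‖f x0 p0‖ ^ 2 := by
    simp only [sq (_ - _)]
    rw [hpair, real_inner_self_eq_norm_sq]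
  rw [h8]
  linarith

end Vale.Agent.P161
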