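import Vale.Agent.P161.Critical.Tempered

/-!
Variance of sums along geodesics for invariant fields on directed edges.
-/

open SimpleGraph
open scoped RealInnerProductSpace

set_option linter.unusedSectionVars false

namespace Vale.Agent.P161

universe u v

variable {V : Type u} [DecidableEq V] {G : SimpleGraph V} [DecidableRel G.Adj] {d : ℕ}
variable {H : Type v} [NormedAddCommGroup H] [InnerProductSpace ℝ H]

/-- `y` runs along a geodesic for `k` steps. -/
def Geo (G : SimpleGraph V) (y : ℕ → V) (k : ℕ) : Prop :=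
  (∀ i < k, G.Adj (y i) (y (i + 1))) ∧ G.dist (y 0) (y k) = k

lemma dist_le_of_chain (hG : G.IsTree) {y : ℕ → V} {k : ℕ}
    (hy : ∀ i < k, G.Adj (y i) (y (i + 1))) :
    ∀ j i, i + j ≤ k → G.dist (y i) (y (i + j)) ≤ j := by
  intro j
  induction j with
  | zero => intro i _; simp
  | succ j ih =>
    intro i hij
    refine (hG.connected.dist_triangle (v := y (i + j))).trans ?_
    have h1 : G.dist (y (i + j)) (y (i + (j + 1))) ≤ 1 :=
      (dist_eq_one_iff_adj.2 (hy _ (by omega))).le
    have := ih i (by omega)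
    omega

lemma Geo.dist_eq (hG : G.IsTree) {y : ℕ → V} {k : ℕ} (hy : Geo G y k) {i j : ℕ} (hij : i ≤ j)
    (hj : j ≤ k) : G.dist (y i) (y j) = j - i := by
  have hle := dist_le_of_chain hG hy.1
  have h1 := hle i 0 (by omega)
  have h2 := hle (j - i) i (by omega)
  have h3 := hle (k - j) j (by omega)
  rw [Nat.zero_add] at h1
  rw [show i + (j - i) = j by omega] at h2
  rw [show j + (k - j) = k by omega] at h3
  have := hy.2
  have := hG.connected.dist_triangle (u := y 0) (v := y i) (w := y k)
  have := hG.connected.dist_triangle (u := y i) (v := y j) (w := y k)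
  omega

lemma Geo.sub (hG : G.IsTree) {y : ℕ → V} {k : ℕ} (hy : Geo G y k) (i l : ℕ) (hl : i + l ≤ k) :
    Geo G (fun j => y (i + j)) l := by
  refine ⟨fun j hj => hy.1 (i + j) (by omega), ?_⟩
  show G.dist (y (i + 0)) (y (i + l)) = l
  rw [hy.dist_eq hG (by omega) hl]
  omega

lemma parent_eq_of (h : Reg G d) {o x p : V} (hp : G.Adj x p) (hd : G.dist o p + 1 = G.dist o x) :
    parent h.tree o x = p :=
  h.parent_eq ⟨hp.symm, hd.symm⟩

lemma Reg.exists_dist (h : Reg G d) (o : V) : ∀ l, ∃ x, G.dist o x = l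
  | 0 => ⟨o, SimpleGraph.dist_self⟩
  | l + 1 => by
    obtain ⟨x, hx⟩ := h.exists_dist o l
    have hne : (children G o x).Nonempty := Set.nonempty_of_ncard_ne_zero (by
      rw [h.card_children]
      have := h.two_le
      split_ifs <;> omega)
    obtain ⟨z, hz⟩ := hne
    exact ⟨z, by rw [hz.2, hx]⟩

/-- Invariance of the pairings of an edge field. -/
def InvPair (G : SimpleGraph V) (h : V → V → H) : Prop :=
  ∀ (γ : G ≃g G) a b x y, G.Adj a b → G.Adj x y →
    ⟪h (γ a) (γ b), h (γ x) (γ y)⟫ = ⟪h a b, h x y⟫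

/-- The symmetrised field. -/
def symPart (s : ℝ) (h : V → V → H) (a b : V) : H := h a b + s • h b a

lemma InvPair.symPart {f : V → V → H} (hi : InvPair G f) (s : ℝ) :
    InvPair G (Vale.Agent.P161.symPart s f) := by
  intro γ a b x y hab hxy
  simp only [Vale.Agent.P161.symPart, inner_add_left, inner_add_right, inner_smul_left,
    inner_smul_right, hi γ _ _ _ _ hab hxy, hi γ _ _ _ _ hab.symm hxy,
    hi γ _ _ _ _ hab hxy.symm, hi γ _ _ _ _ hab.symm hxy.symm]

lemma symPart_swap {s : ℝ} (hs : s * s = 1) (f : V → V → H) (a b : V) :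
    symPart s f b a = s • symPart s f a b := by
  simp only [symPart, smul_add, smul_smul, hs, one_smul]
  rw [add_comm]

/-- The sum of an edge field over the edges leaving a vertex. -/
noncomputable def Reg.outSum (h : Reg G d) (g : V → V → H) (u : V) : H :=
  ∑ x ∈ h.nbr u, g u x

lemma Reg.outSum_rad (h : Reg G d) {g : V → V → H} (hi : InvPair G g) :
    ∃ c, Rad G (h.outSum g) (h.outSum g) c := by
  obtain ⟨o⟩ := h.tree.connected.nonempty
  choose z hz using h.exists_dist o
  refine ⟨fun l => ⟪h.outSum g o, h.outSum g (z l)⟫, fun u v => ?_⟩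
  obtain ⟨γ, hγu, hγv⟩ := h.exists_iso (o := o) (u := z (G.dist u v)) (o' := u) (u' := v) (hz _)
  have himg : ∀ w, h.nbr (γ w) = (h.nbr w).image γ := fun w => by
    ext x
    simp only [h.mem_nbr, Finset.mem_image]
    exact ⟨fun hx => ⟨γ.symm x, by rw [← γ.map_adj_iff]; simpa using hx, by simp⟩,
      fun ⟨y, hy, e⟩ => e ▸ γ.map_adj_iff.2 hy⟩
  conv_lhs => rw [← hγu, ← hγv]
  simp only [Reg.outSum, himg, Finset.sum_image γ.injective.injOn, sum_inner, inner_sum]
  exact Finset.sum_congr rfl fun a ha => Finset.sum_congr rfl fun b hb =>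
    hi γ _ _ _ _ (h.mem_nbr.1 hb) (h.mem_nbr.1 ha)

/-- The pairing of the two extreme edges of a geodesic. -/
noncomputable def Reg.endPair (h : Reg G d) (g : V → V → H) (a y : V) : ℝ :=
  ⟪g a (parent h.tree y a), g (parent h.tree a y) y⟫

lemma parent_iso (h : Reg G d) (γ : G ≃g G) {a y : V} (hne : a ≠ y) :
    parent h.tree (γ y) (γ a) = γ (parent h.tree y a) :=
  parent_eq_of h (γ.map_adj_iff.2 (parent_spec h.tree hne).1)
    (by rw [dist_iso, dist_iso]; exact parent_dist h.tree hne)

lemma Reg.endPair_eq (h : Reg G d) {g : V → V → H} (hi : InvPair G g) {a y a' y' : V}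
    (hne : a ≠ y) (hd : G.dist a y = G.dist a' y') : h.endPair g a' y' = h.endPair g a y := by
  obtain ⟨γ, h1, h2⟩ := h.exists_iso hd
  subst h1 h2
  rw [Reg.endPair, parent_iso h γ hne, parent_iso h γ hne.symm]
  exact hi γ _ _ _ _ (parent_spec h.tree hne).1 (parent_spec h.tree hne.symm).1.symm

lemma Geo.endPair (h : Reg G d) {y : ℕ → V} {l : ℕ} (hy : Geo G y (l + 1)) (g : V → V → H) :
    h.endPair g (y 0) (y (l + 1)) = ⟪g (y 0) (y 1), g (y l) (y (l + 1))⟫ := by
  have hG := h.tree
  have e0 := hy.dist_eq hG (Nat.zero_le (l + 1)) le_rfl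
  have e1 := hy.dist_eq hG (show 1 ≤ l + 1 by omega) le_rfl
  have e2 := hy.dist_eq hG (Nat.zero_le l) (Nat.le_succ l)
  rw [Reg.endPair, parent_eq_of h (hy.1 0 (Nat.succ_pos l))
      (by rw [G.dist_comm, e1, G.dist_comm, e0]; omega),
    parent_eq_of h (hy.1 l (Nat.lt_succ_self l)).symm (by rw [e2, e0]; omega)]

lemma exists_offset_corr (h : Reg G d) {g : V → V → H} (hi : InvPair G g) :
    ∃ R : ℕ → ℝ, ∀ a y l, G.dist a y = l + 1 → h.endPair g a y = R l := by
  obtain ⟨o⟩ := h.tree.connected.nonempty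
  choose z hz using h.exists_dist o
  refine ⟨fun l => h.endPair g o (z (l + 1)), fun a y l hl => ?_⟩
  refine h.endPair_eq hi (fun e => ?_) (by rw [hz, hl])
  have := hz (l + 1)
  rw [← e, SimpleGraph.dist_self] at this
  omega

lemma outSum_inner (h : Reg G d) {g : V → V → H} {s : ℝ} (hs : s * s = 1)
    (hsw : ∀ a b, g b a = s • g a b) {R : ℕ → ℝ}
    (hR : ∀ a y l, G.dist a y = l + 1 → h.endPair g a y = R l) {u v : V} {L : ℕ}
    (hL : G.dist u v = L + 1) :
    ⟪h.outSum g u, h.outSum g v⟫
      = s * (bn d ^ 2) * R (L + 2) + 2 * bn d * R (L + 1) + s * R L := by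
  have hG := h.tree
  obtain ⟨p, hp, hpv, hpr⟩ := h.exists_toward hL
  obtain ⟨q, hq, hqu, hqr⟩ := h.exists_toward (u := v) (v := u) (by rwa [G.dist_comm])
  have hp' := h.mem_nbr.1 hp
  have hq' := h.mem_nbr.1 hq
  have e11 : ⟪g u p, g v q⟫ = s * R L := by
    have e := hR u v L hL
    rw [Reg.endPair, parent_eq_of h hp' (by rw [G.dist_comm, hpv, G.dist_comm, hL]),
      parent_eq_of h hq' (by rw [G.dist_comm, hqu, hL])] at e
    rw [hsw q v, inner_smul_right, e]
  have e12 : ∀ z ∈ (h.nbr v).erase q, ⟪g u p, g v z⟫ = R (L + 1) := by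
    intro z hz
    have hz' := h.mem_nbr.1 (Finset.mem_of_mem_erase hz)
    have hzu : G.dist u z = L + 2 := by
      rw [G.dist_comm]; exact hqr z (Finset.mem_of_mem_erase hz) (Finset.ne_of_mem_erase hz)
    have e := hR u z (L + 1) hzu
    have hpz : G.dist p z = L + 1 := by
      have := hG.connected.dist_triangle (u := u) (v := p) (w := z)
      have := hG.connected.dist_triangle (u := p) (v := v) (w := z)
      have := dist_eq_one_iff_adj.2 hp'
      have := dist_eq_one_iff_adj.2 hz'
      omega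
    rw [Reg.endPair, parent_eq_of h hp' (by rw [G.dist_comm, hpz, G.dist_comm, hzu]),
      parent_eq_of h hz'.symm (by rw [hL, hzu])] at e
    exact e
  have e21 : ∀ x ∈ (h.nbr u).erase p, ⟪g u x, g v q⟫ = R (L + 1) := by
    intro x hx
    have hx' := h.mem_nbr.1 (Finset.mem_of_mem_erase hx)
    have hxv : G.dist x v = L + 2 := hpr x (Finset.mem_of_mem_erase hx) (Finset.ne_of_mem_erase hx)
    have hxq : G.dist x q = L + 1 := by
      have := hG.connected.dist_triangle (u := x) (v := q) (w := v)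
      have := hG.connected.dist_triangle (u := x) (v := u) (w := q)
      have := dist_eq_one_iff_adj.2 hq'
      have := dist_eq_one_iff_adj.2 hx'.symm
      have := G.dist_comm (u := q) (v := u)
      have := G.dist_comm (u := q) (v := v)
      omega
    have e := hR x v (L + 1) hxv
    rw [Reg.endPair, parent_eq_of h hx'.symm (by rw [G.dist_comm, hL, G.dist_comm, hxv]),
      parent_eq_of h hq' (by rw [hxq, hxv])] at e
    rw [hsw x u, hsw q v, inner_smul_left, inner_smul_right, e]
    simp [← mul_assoc, hs]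
  have e22 : ∀ x ∈ (h.nbr u).erase p, ∀ z ∈ (h.nbr v).erase q,
      ⟪g u x, g v z⟫ = s * R (L + 2) := by
    intro x hx z hz
    have hx' := h.mem_nbr.1 (Finset.mem_of_mem_erase hx)
    have hz' := h.mem_nbr.1 (Finset.mem_of_mem_erase hz)
    have hxv : G.dist x v = L + 2 := hpr x (Finset.mem_of_mem_erase hx) (Finset.ne_of_mem_erase hx)
    have hzu : G.dist u z = L + 2 := by
      rw [G.dist_comm]; exact hqr z (Finset.mem_of_mem_erase hz) (Finset.ne_of_mem_erase hz)
    have hpz : G.dist z p + 1 = G.dist z u := by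
      have := hG.connected.dist_triangle (u := u) (v := p) (w := z)
      have := hG.connected.dist_triangle (u := p) (v := v) (w := z)
      have := dist_eq_one_iff_adj.2 hp'
      have := dist_eq_one_iff_adj.2 hz'
      have := G.dist_comm (u := z) (v := p)
      have := G.dist_comm (u := z) (v := u)
      omega
    have hxz : G.dist x z = L + 3 := by
      rcases dist_succ_or hG z hx' with h3 | h3
      · refine absurd (h.closer_unique hx' hp' h3.symm hpz) (Finset.ne_of_mem_erase hx)
      · rw [G.dist_comm, h3, G.dist_comm, hzu]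
    have e := hR x z (L + 2) hxz
    rw [Reg.endPair, parent_eq_of h hx'.symm (by rw [G.dist_comm, hzu, G.dist_comm, hxz]),
      parent_eq_of h hz'.symm (by rw [hxv, hxz])] at e
    rw [hsw x u, inner_smul_left, e]
    simp
  have hcard : ∀ {w a : V}, a ∈ h.nbr w → ((((h.nbr w).erase a).card : ℕ) : ℝ) = bn d := by
    intro w a ha
    rw [Finset.card_erase_of_mem ha, h.card_nbr, Nat.cast_sub (by have := h.two_le; omega),
      Nat.cast_one, bn]
  simp only [Reg.outSum, sum_inner, inner_sum]
  rw [Finset.sum_comm, ← Finset.add_sum_erase _ _ hp, ← Finset.add_sum_erase _ _ hq]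
  rw [e11, Finset.sum_congr rfl e12, Finset.sum_const, nsmul_eq_mul, hcard hq,
    Finset.sum_congr rfl (g := fun x => R (L + 1) + bn d * (s * R (L + 2))) fun x hx => by
      rw [← Finset.add_sum_erase _ _ hq, e21 x hx, Finset.sum_congr rfl (e22 x hx),
        Finset.sum_const, nsmul_eq_mul, hcard hq],
    Finset.sum_const, nsmul_eq_mul, hcard hp]
  ring

/-- Two steps of summation of a geometrically growing second difference. -/
lemma second_diff_bound {z : ℕ → ℝ} {C ν : ℝ} (hν : 1 < ν) (hC : 0 ≤ C)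
    (h2 : ∀ L, |z (L + 2) - 2 * z (L + 1) + z L| ≤ C * (L + 2) * ν ^ (L + 1))
    {M : ℝ} (h0 : |z 0| ≤ M) (h1 : |z 1 - z 0| ≤ M) (L : ℕ) :
    |z L| ≤ (M + C * ν / (ν - 1)) * (1 + 1 / (ν - 1)) * (L + 1) * ν ^ L := by
  have hν1 : 0 < ν - 1 := by linarith
  have hM : 0 ≤ M := (abs_nonneg _).trans h0
  set a := M + C * ν / (ν - 1) with ha
  have ha0 : 0 ≤ a := by positivity
  have haC : C * ν ≤ a * (ν - 1) := by
    rw [ha, add_mul, div_mul_cancel₀ _ hν1.ne']
    nlinarith
  have hd1 : ∀ L : ℕ, |z (L + 1) - z L| ≤ a * (L + 1) * ν ^ L := by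
    intro L
    induction L with
    | zero =>
      simp only [Nat.cast_zero, zero_add, pow_zero, mul_one]
      exact h1.trans (le_add_of_nonneg_right (by positivity))
    | succ L ih =>
      have e : z (L + 1 + 1) - z (L + 1)
          = (z (L + 2) - 2 * z (L + 1) + z L) + (z (L + 1) - z L) := by ring
      rw [e]
      refine ((abs_add_le _ _).trans (add_le_add (h2 L) ih)).trans ?_
      have hp : 0 ≤ ν ^ L := by positivity
      push_cast
      rw [pow_succ]
      nlinarith [mul_nonneg (mul_nonneg (show (0 : ℝ) ≤ L + 2 by positivity) hp)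
        (sub_nonneg.2 haC), mul_nonneg ha0 hp]
  set b := a * (1 + 1 / (ν - 1)) with hb
  have hb0 : 0 ≤ b := by positivity
  have hba : a ≤ b := le_mul_of_one_le_right ha0 (by
    have : 0 ≤ 1 / (ν - 1) := by positivity
    linarith)
  have hbν : a ≤ b * (ν - 1) := by
    have e : (1 + 1 / (ν - 1)) * (ν - 1) = ν := by field_simp; ring
    rw [hb, mul_assoc, e]
    nlinarith
  induction L with
  | zero =>
    simp only [Nat.cast_zero, zero_add, pow_zero, mul_one]
    exact h0.trans (le_trans (le_add_of_nonneg_right (by positivity)) hba)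
  | succ L ih =>
    have e : z (L + 1) = (z (L + 1) - z L) + z L := by ring
    rw [e]
    refine ((abs_add_le _ _).trans (add_le_add (hd1 L) ih)).trans ?_
    have hp : 0 ≤ ν ^ L := by positivity
    push_cast
    rw [pow_succ]
    nlinarith [mul_nonneg (mul_nonneg (show (0 : ℝ) ≤ L + 1 by positivity) hp)
      (sub_nonneg.2 hbν), mul_nonneg hb0 (mul_nonneg hp (show 0 ≤ ν by linarith))]

/-- The correlation along a geodesic of an invariant, symmetric or antisymmetric, edge field. -/
lemma offset_decay (hd : 3 ≤ d) :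
    ∃ b : ℝ, 0 ≤ b ∧ ∀ (V : Type u) [DecidableEq V] (G : SimpleGraph V) [DecidableRel G.Adj]
      (h : Reg G d) (H : Type v) [NormedAddCommGroup H] [InnerProductSpace ℝ H]
      (g : V → V → H) (s : ℝ), s * s = 1 → (∀ a b, g b a = s • g a b) →
      InvPair G g → ∀ M : ℝ, (∀ a b, G.Adj a b → ‖g a b‖ ≤ M) →
      (∀ u v, |⟪h.outSum g u, h.outSum g v⟫|
          ≤ 8 * (G.dist u v + 1) * rho d ^ G.dist u v * ((d : ℝ) * M) ^ 2) →
      ∀ y L, Geo G y (L + 1) →
        |⟪g (y 0) (y 1), g (y L) (y (L + 1))⟫| ≤ b * (L + 1) * rho d ^ L * M ^ 2 := by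
  have hn := two_le_bn hd
  have hρ := rho_pos hd
  set ν := bn d * rho d with hν
  have hν1 : 1 < ν := by nlinarith [rho_sq hd, rho_lt_one hd]
  have hν0 : 0 < ν - 1 := by linarith
  refine ⟨(bn d + 1 + 8 * (d : ℝ) ^ 2 * ν / (ν - 1)) * (1 + 1 / (ν - 1)), by positivity,
    fun V _ G _ h H _ _ g s hs hsw hi M hM hU => ?_⟩
  obtain ⟨R, hR⟩ := exists_offset_corr h hi
  intro y L hy
  rw [← hy.endPair h g, hR _ _ L hy.2]
  obtain ⟨o⟩ := h.tree.connected.nonempty
  have hRb : ∀ l, |R l| ≤ M ^ 2 := by
    intro l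
    obtain ⟨w, hw⟩ := h.exists_dist o (l + 1)
    have hne : o ≠ w := fun e => by rw [← e, SimpleGraph.dist_self] at hw; omega
    rw [← hR o w l hw, Reg.endPair]
    refine (abs_real_inner_le_norm _ _).trans ?_
    rw [sq]
    refine mul_le_mul (hM _ _ (parent_spec h.tree hne).1) (hM _ _ ?_) (norm_nonneg _) ?_
    · exact (parent_spec h.tree hne.symm).1.symm
    · exact (norm_nonneg _).trans (hM _ _ (parent_spec h.tree hne).1)
  have hsa : |s| = 1 := by
    have : |s| * |s| = 1 := by rw [← abs_mul, hs, abs_one]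
    nlinarith [abs_nonneg s]
  set z : ℕ → ℝ := fun l => (-(s * bn d)) ^ l * R l with hz
  have hzabs : ∀ l, |z l| = bn d ^ l * |R l| := fun l => by
    rw [hz, abs_mul, abs_pow, abs_neg, abs_mul, hsa, one_mul, abs_of_nonneg (by linarith)]
  have h2 : ∀ l : ℕ, |z (l + 2) - 2 * z (l + 1) + z l|
      ≤ 8 * (d : ℝ) ^ 2 * M ^ 2 * (l + 2) * ν ^ (l + 1) := by
    intro l
    obtain ⟨w, hw⟩ := h.exists_dist o (l + 1)
    have e := outSum_inner h hs hsw hR hw
    have hU' := hU o w
    rw [e, hw] at hU'
    have e2 : z (l + 2) - 2 * z (l + 1) + z l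
        = s * (-(s * bn d)) ^ l
          * (s * (bn d ^ 2) * R (l + 2) + 2 * bn d * R (l + 1) + s * R l) := by
      simp only [hz, pow_succ]
      linear_combination (-(-(s * bn d)) ^ l * R l) * hs
    rw [e2, abs_mul, abs_mul, hsa, one_mul, abs_pow, abs_neg, abs_mul, hsa, one_mul,
      abs_of_nonneg (show 0 ≤ bn d by linarith)]
    refine (mul_le_mul_of_nonneg_left hU' (pow_nonneg (by linarith) l)).trans ?_
    rw [hν]
    simp only [mul_pow]
    rw [pow_succ (bn d)]
    push_cast
    have h1 : 1 ≤ bn d := by linarith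
    have : 0 ≤ 8 * ((l : ℝ) + 1 + 1) * rho d ^ (l + 1) * ((d : ℝ) * M) ^ 2 * bn d ^ l := by positivity
    nlinarith
  have hMz : |z 0| ≤ (bn d + 1) * M ^ 2 ∧ |z 1 - z 0| ≤ (bn d + 1) * M ^ 2 := by
    have h0 := hRb 0
    have h1 := mul_le_mul_of_nonneg_left (hRb 1) (show 0 ≤ bn d by linarith)
    constructor
    · rw [hzabs, pow_zero, one_mul]
      nlinarith [sq_nonneg M]
    · refine (abs_sub _ _).trans ?_
      rw [hzabs, hzabs, pow_one, pow_zero, one_mul]
      linarith
  have h3 := second_diff_bound hν1 (by positivity) h2 hMz.1 hMz.2 L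
  rw [hzabs, hν, mul_pow] at h3
  have hpow : 0 < bn d ^ L := pow_pos (by linarith) L
  refine le_of_mul_le_mul_left (h3.trans (le_of_eq ?_)) hpow
  rw [hν]
  ring

lemma sum_abs_sub_le {f : ℕ → ℝ} (hf : ∀ l, 0 ≤ f l) (hs : Summable f) (k i : ℕ) :
    ∑ j ∈ Finset.range k, f ((i - j) + (j - i)) ≤ 2 * ∑' l, f l := by
  rw [← Finset.sum_filter_add_sum_filter_not (Finset.range k) (fun j => j ≤ i), two_mul]
  refine add_le_add ?_ ?_
  · rw [← Finset.sum_image (g := fun j => (i - j) + (j - i)) (f := f) (fun a ha b hb hab => by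
      simp only [Finset.coe_filter, Set.mem_ofPred_eq] at ha hb hab
      omega)]
    exact hs.sum_le_tsum _ fun l _ => hf l
  · rw [← Finset.sum_image (g := fun j => (i - j) + (j - i)) (f := f) (fun a ha b hb hab => by
      simp only [Finset.coe_filter, Set.mem_ofPred_eq] at ha hb hab
      omega)]
    exact hs.sum_le_tsum _ fun l _ => hf l

/-- An invariant edge field which is approximated by invariant fields with correlations decaying
at the critical rate has diffusive sums along geodesics. -/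
theorem path_variance (hd : 3 ≤ d) :
    ∃ C : ℝ, 0 ≤ C ∧ ∀ (V : Type u) [DecidableEq V] (G : SimpleGraph V) [DecidableRel G.Adj]
      (_ : Reg G d) (H : Type v) [NormedAddCommGroup H] [InnerProductSpace ℝ H]
      (f : V → V → H), InvPair G f →
      (∀ ε > 0, ∃ f' : V → V → H, InvPair G f' ∧ (∀ a b, G.Adj a b → ‖f' a b - f a b‖ ≤ ε) ∧
        ∃ K : ℝ, ∀ a b x y, G.Adj a b → G.Adj x y →
          |⟪f' a b, f' x y⟫| ≤ K * rho d ^ G.dist a x) →
      ∀ M : ℝ, (∀ a b, G.Adj a b → ‖f a b‖ ≤ M) →
      ∀ y k, Geo G y k → ‖∑ i ∈ Finset.range k, f (y i) (y (i + 1))‖ ^ 2 ≤ C * k * M ^ 2 := by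
  obtain ⟨b, hb0, hb⟩ := offset_decay.{u, v} hd
  have hρ := rho_pos hd
  have hρ1 := rho_lt_one hd
  set S : ℕ → ℝ := fun l => b * (l + 1) * rho d ^ l with hS
  have hSs : Summable S := by
    have h1 := summable_pow_mul_geometric_of_norm_lt_one 1
      (r := rho d) (by rw [Real.norm_of_nonneg hρ.le]; exact hρ1)
    have h2 := summable_geometric_of_lt_one hρ.le hρ1
    exact ((h1.add h2).mul_left b).congr fun l => by simp [hS]; ring
  have hS0 : ∀ l, 0 ≤ S l := fun l => by positivity
  refine ⟨8 * ∑' l, S l, mul_nonneg (by norm_num) (tsum_nonneg hS0),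
    fun V _ G _ h H _ _ f hf happ M hM y k hy => ?_⟩
  rcases Nat.eq_zero_or_pos k with rfl | hk
  · simp
  have hM0 : 0 ≤ M := (norm_nonneg _).trans (hM _ _ (hy.1 0 hk))
  have key : ∀ s : ℝ, s * s = 1 →
      ‖∑ i ∈ Finset.range k, symPart s f (y i) (y (i + 1))‖ ^ 2
        ≤ k * (2 * ∑' l, S l) * (2 * M) ^ 2 := by
    intro s hs
    have hsa : |s| = 1 := by
      have : |s| * |s| = 1 := by rw [← abs_mul, hs, abs_one]
      nlinarith [abs_nonneg s]
    have hnorm : ∀ (f : V → V → H) (B : ℝ), (∀ a b, G.Adj a b → ‖f a b‖ ≤ B) →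
        ∀ a b, G.Adj a b → ‖symPart s f a b‖ ≤ 2 * B := by
      intro f B hB a b hab
      refine (norm_add_le _ _).trans ?_
      rw [norm_smul, Real.norm_eq_abs, hsa, one_mul]
      linarith [hB a b hab, hB b a hab.symm]
    have hout : ∀ (f : V → V → H) (B : ℝ), (∀ a b, G.Adj a b → ‖f a b‖ ≤ B) →
        ∀ u, ‖h.outSum (symPart s f) u‖ ≤ (d : ℝ) * (2 * B) := by
      intro f B hB u
      refine (norm_sum_le _ _).trans ((Finset.sum_le_card_nsmul _ _ (2 * B) fun x hx =>
        hnorm f B hB u x (h.mem_nbr.1 hx)).trans (le_of_eq ?_))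
      rw [h.card_nbr, nsmul_eq_mul]
    have hU : ∀ u v, |⟪h.outSum (symPart s f) u, h.outSum (symPart s f) v⟫|
        ≤ 8 * (G.dist u v + 1) * rho d ^ G.dist u v * ((d : ℝ) * (2 * M)) ^ 2 := by
      refine h.radial_bound_approx hd (fun ε hε => ?_) (hout f M hM)
      obtain ⟨f', hf', hclose, K, hK⟩ := happ (ε / (2 * d + 1)) (by positivity)
      obtain ⟨c, hc⟩ := h.outSum_rad (hf'.symPart s)
      refine ⟨_, c, hc, ⟨4 * (d : ℝ) ^ 2 * (|K| / rho d ^ 2), fun l => ?_⟩, fun u => ?_⟩
      · obtain ⟨o⟩ := h.tree.connected.nonempty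
        obtain ⟨w, hw⟩ := h.exists_dist o l
        rw [← hw, ← hc o w]
        have hpair : ∀ a b x z, G.Adj a b → G.Adj x z → l ≤ G.dist a x + 2 →
            |⟪f' a b, f' x z⟫| ≤ |K| / rho d ^ 2 * rho d ^ l := by
          intro a b x z hab hxz hle
          refine (hK a b x z hab hxz).trans ?_
          calc K * rho d ^ G.dist a x ≤ |K| * rho d ^ G.dist a x :=
                mul_le_mul_of_nonneg_right (le_abs_self K) (pow_nonneg hρ.le _)
            _ = |K| / rho d ^ 2 * rho d ^ (G.dist a x + 2) := by rw [pow_add]; field_simp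
            _ ≤ _ := mul_le_mul_of_nonneg_left (pow_le_pow_of_le_one hρ.le hρ1.le hle)
                (by positivity)
        simp only [Reg.outSum, sum_inner, inner_sum]
        have hsmall : ∀ a ∈ h.nbr o, ∀ x ∈ h.nbr w,
            |⟪symPart s f' o a, symPart s f' w x⟫| ≤ 4 * (|K| / rho d ^ 2) * rho d ^ l := by
          intro a ha x hx
          rw [h.mem_nbr] at ha hx
          have d1 := dist_eq_one_iff_adj.2 ha
          have d2 := dist_eq_one_iff_adj.2 hx
          have t1 := h.tree.connected.dist_triangle (u := o) (v := a) (w := w)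
          have t2 := h.tree.connected.dist_triangle (u := a) (v := x) (w := w)
          have t3 := h.tree.connected.dist_triangle (u := o) (v := x) (w := w)
          rw [G.dist_comm (u := x) (v := w)] at t2 t3
          have p1 := hpair o a w x ha hx (by omega)
          have p2 := hpair a o w x ha.symm hx (by omega)
          have p3 := hpair o a x w ha hx.symm (by omega)
          have p4 := hpair a o x w ha.symm hx.symm (by omega)
          simp only [symPart, inner_add_left, inner_add_right, inner_smul_left, inner_smul_right,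
            starRingEnd_apply, star_trivial, mul_add]
          refine (abs_add_le _ _).trans ((add_le_add (abs_add_le _ _) (abs_add_le _ _)).trans ?_)
          simp only [abs_mul, hsa, one_mul]
          linarith
        refine (Finset.abs_sum_le_sum_abs _ _).trans ?_
        refine (Finset.sum_le_sum fun x hx => (Finset.abs_sum_le_sum_abs _ _).trans
          (Finset.sum_le_sum fun a ha => hsmall a ha x hx)).trans ?_
        simp only [Finset.sum_const, h.card_nbr, nsmul_eq_mul]
        rw [hw]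
        calc (d : ℝ) * ((d : ℝ) * (4 * (|K| / rho d ^ 2) * rho d ^ l))
            = 4 * (d : ℝ) ^ 2 * (|K| / rho d ^ 2) * rho d ^ l := by ring
          _ ≤ _ := mul_le_mul_of_nonneg_left (rho_pow_le_sph hd l) (by positivity)
      · have e : h.outSum (symPart s f') u - h.outSum (symPart s f) u
            = h.outSum (symPart s fun a b => f' a b - f a b) u := by
          simp only [Reg.outSum, ← Finset.sum_sub_distrib, symPart, smul_sub]
          exact Finset.sum_congr rfl fun x _ => by abel
        rw [e]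
        refine (hout _ _ hclose u).trans ?_
        have hd' : (0 : ℝ) < 2 * d + 1 := by positivity
        calc (d : ℝ) * (2 * (ε / (2 * d + 1))) = ε * (2 * d) / (2 * d + 1) := by ring
          _ ≤ ε := by rw [div_le_iff₀ hd']; nlinarith
    have hdec := hb V G h H (symPart s f) s hs (symPart_swap hs f) (hf.symPart s) (2 * M)
      (hnorm f M hM) hU
    have hij : ∀ i < k, ∀ j < k,
        |⟪symPart s f (y i) (y (i + 1)), symPart s f (y j) (y (j + 1))⟫|
          ≤ S ((i - j) + (j - i)) * (2 * M) ^ 2 := by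
      intro i hi j hj
      rcases le_total i j with hle | hle
      · have h1 := hdec _ _ (hy.sub h.tree i (j - i + 1) (by omega))
        rw [show i - j + (j - i) = j - i by omega]
        simpa [hS, show i + (j - i) = j by omega, show i + (j - i + 1) = j + 1 by omega,
          Nat.cast_sub hle] using h1
      · have h1 := hdec _ _ (hy.sub h.tree j (i - j + 1) (by omega))
        rw [show i - j + (j - i) = i - j by omega, real_inner_comm]
        simpa [hS, show j + (i - j) = i by omega, show j + (i - j + 1) = i + 1 by omega,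
          Nat.cast_sub hle] using h1
    rw [← real_inner_self_eq_norm_sq, sum_inner]
    simp only [inner_sum]
    calc _ ≤ ∑ i ∈ Finset.range k, ∑ j ∈ Finset.range k, S ((i - j) + (j - i)) * (2 * M) ^ 2 :=
          Finset.sum_le_sum fun i hi => Finset.sum_le_sum fun j hj =>
            (le_abs_self _).trans (hij i (Finset.mem_range.1 hi) j (Finset.mem_range.1 hj))
      _ ≤ ∑ _i ∈ Finset.range k, (2 * ∑' l, S l) * (2 * M) ^ 2 :=
          Finset.sum_le_sum fun i _ => by
            rw [← Finset.sum_mul]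
            exact mul_le_mul_of_nonneg_right (sum_abs_sub_le hS0 hSs k i) (sq_nonneg _)
      _ = _ := by rw [Finset.sum_const, Finset.card_range, nsmul_eq_mul]; ring
  have e : ∑ i ∈ Finset.range k, f (y i) (y (i + 1))
      = (1 / 2 : ℝ) • (∑ i ∈ Finset.range k, symPart 1 f (y i) (y (i + 1))
        + ∑ i ∈ Finset.range k, symPart (-1) f (y i) (y (i + 1))) := by
    rw [← Finset.sum_add_distrib, Finset.smul_sum]
    refine Finset.sum_congr rfl fun i _ => ?_
    simp only [symPart]
    module
  rw [e, norm_smul, mul_pow, Real.norm_of_nonneg (by norm_num : (0 : ℝ) ≤ 1 / 2)]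
  have h1 := key 1 (by ring)
  have h2 := key (-1) (by ring)
  set A := ∑ i ∈ Finset.range k, symPart 1 f (y i) (y (i + 1))
  set B := ∑ i ∈ Finset.range k, symPart (-1) f (y i) (y (i + 1))
  have h3 := pow_le_pow_left₀ (norm_nonneg (A + B)) (norm_add_le A B) 2
  nlinarith [sq_nonneg (‖A‖ - ‖B‖)]

end Vale.Agent.P161
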