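import Vale.Agent.P161.Critical.Posterior
import Vale.Agent.P161.Law

/-!
The innovations as functions of the observations, projections on their σ-algebras and the
orthogonality of their future increments.
-/

open MeasureTheory ProbabilityTheory SimpleGraph Filter
open scoped Topology NNReal

set_option linter.unusedSectionVars false

namespace Vale.Agent.P161

universe u

variable {V : Type u} [DecidableEq V] {G : SimpleGraph V} [DecidableRel G.Adj] {θ : ℝ} {d : ℕ}
variable {ν : Measure (V → Bool)} [IsProbabilityMeasure ν]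

lemma incY_eq_smul (n : ℕ) (ω : Omega V) (u : V) (k : ℕ) :
    incY n ω u k = mesh n * spin (ω.1 u) + inc n (slice ω.2 u) k := rfl

/-- An increment of the innovations. -/
noncomputable def binc (G : SimpleGraph V) [DecidableRel G.Adj] (θ : ℝ) (ν : Measure (V → Bool))
    (p : V × ℕ × ℕ) (ω : Omega V) : ℝ :=
  inc p.2.1 (slice (innLim G θ ν ω) p.1) p.2.2

/-- The right end of a dyadic interval. -/
noncomputable def tEnd (p : V × ℕ × ℕ) : ℝ := ((p.2.2 : ℝ) + 1) * mesh p.2.1

/-- The version of an innovation increment read from the observations. -/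
noncomputable def vers (G : SimpleGraph V) [DecidableRel G.Adj] (θ : ℝ) (ν : Measure (V → Bool))
    (p : V × ℕ × ℕ) : Omega V → ℝ :=
  (probM ν)[binc G θ ν p|obsAlg (tEnd p) Set.univ]

/-- The innovations up to a time. -/
noncomputable def bObs (G : SimpleGraph V) [DecidableRel G.Adj] (θ : ℝ) (ν : Measure (V → Bool))
    (t : ℝ) (ω : Omega V) (p : V × ℕ × ℕ) : ℝ :=
  if tEnd p ≤ t then vers G θ ν p ω else 0

/-- The σ-algebra of the innovations up to a time. -/
noncomputable abbrev bAlg (G : SimpleGraph V) [DecidableRel G.Adj] (θ : ℝ)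
    (ν : Measure (V → Bool)) (t : ℝ) : MeasurableSpace (Omega V) :=
  MeasurableSpace.comap (bObs G θ ν t) inferInstance

lemma measurable_vers_obs (p : V × ℕ × ℕ) {t : ℝ} (ht : tEnd p ≤ t) :
    Measurable[obsAlg t Set.univ] (vers G θ ν p) :=
  stronglyMeasurable_condExp.measurable.mono (obsAlg_mono ht subset_rfl) le_rfl

lemma bAlg_le_obsAlg (t : ℝ) : bAlg G θ ν t ≤ obsAlg t Set.univ := by
  refine Measurable.comap_le ?_
  refine @measurable_pi_lambda _ _ _ (obsAlg t Set.univ) _ _ fun p => ?_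
  simp only [bObs]
  by_cases hp : tEnd p ≤ t
  · simp only [if_pos hp]; exact measurable_vers_obs p hp
  · simp only [if_neg hp]; exact measurable_const

lemma bAlg_le (t : ℝ) : bAlg G θ ν t ≤ (inferInstance : MeasurableSpace (Omega V)) :=
  (bAlg_le_obsAlg t).trans (obsAlg_le t _)

lemma bAlg_mono {s t : ℝ} (h : s ≤ t) : bAlg G θ ν s ≤ bAlg G θ ν t := by
  classical
  set c : (V × ℕ × ℕ → ℝ) → V × ℕ × ℕ → ℝ := fun z p => if tEnd p ≤ s then z p else 0
  have hc : Measurable c := measurable_pi_lambda _ fun p => by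
    by_cases hp : tEnd p ≤ s
    · simp only [c, if_pos hp]; exact measurable_pi_apply p
    · simp only [c, if_neg hp]; exact measurable_const
  have e : bObs G θ ν s = c ∘ bObs G θ ν t := by
    funext ω p
    simp only [bObs, c, Function.comp_apply]
    by_cases hp : tEnd p ≤ s
    · simp only [if_pos hp, if_pos (hp.trans h)]
    · simp only [if_neg hp]
  rw [bAlg, e, ← MeasurableSpace.comap_comp]
  exact MeasurableSpace.comap_mono hc.comap_le

lemma measurable_vers_bAlg (p : V × ℕ × ℕ) {t : ℝ} (ht : tEnd p ≤ t) :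
    Measurable[bAlg G θ ν t] (vers G θ ν p) := by
  have e : vers G θ ν p = fun ω => bObs G θ ν t ω p := by funext ω; simp [bObs, ht]
  rw [e]
  exact (measurable_pi_apply p).comp (comap_measurable (bObs G θ ν t))

lemma tendsto_inc_L1 {α : Type*} [MeasurableSpace α] {μ : Measure α} [IsFiniteMeasure μ]
    {X : ℕ → α → ℕ × ℕ → ℝ} {Y : α → ℕ × ℕ → ℝ} (hX : ∀ R i, Integrable (fun a => X R a i) μ)
    (hY : ∀ i, Integrable (fun a => Y a i) μ)
    (h : ∀ i, Tendsto (fun R => ∫ a, |X R a i - Y a i| ∂μ) atTop (𝓝 0)) (n : ℕ) :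
    ∀ k, (∀ R, Integrable (fun a => inc n (X R a) k) μ) ∧ Integrable (fun a => inc n (Y a) k) μ ∧
      Tendsto (fun R => ∫ a, |inc n (X R a) k - inc n (Y a) k| ∂μ) atTop (𝓝 0) := by
  induction n with
  | zero => exact fun k => ⟨fun R => hX R _, hY _, h _⟩
  | succ n ih =>
    intro k
    obtain ⟨i1, i2, i3⟩ := ih (k / 2)
    simp only [inc]
    refine ⟨fun R => (i1 R).div_const 2 |>.add ((hX R _).const_mul _),
      (i2.div_const 2).add ((hY _).const_mul _), ?_⟩
    set c := sgn k * amp n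
    have hb : Tendsto (fun R => (∫ a, |inc n (X R a) (k / 2) - inc n (Y a) (k / 2)| ∂μ) / 2
        + |c| * ∫ a, |X R a (n + 1, k / 2) - Y a (n + 1, k / 2)| ∂μ) atTop (𝓝 0) := by
      simpa using (i3.div_const 2).add ((h (n + 1, k / 2)).const_mul |c|)
    refine squeeze_zero (fun R => integral_nonneg fun _ => abs_nonneg _) (fun R => ?_) hb
    have ha := (((i1 R).sub i2).abs).div_const (2 : ℝ)
    have hbb := (((hX R (n + 1, k / 2)).sub (hY (n + 1, k / 2))).abs).const_mul |c|
    refine (integral_mono_of_nonneg (Eventually.of_forall fun _ => abs_nonneg _) (ha.add hbb)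
      (Eventually.of_forall fun a => ?_)).trans (le_of_eq ?_)
    · show |inc n (X R a) (k / 2) / 2 + c * X R a (n + 1, k / 2)
          - (inc n (Y a) (k / 2) / 2 + c * Y a (n + 1, k / 2))|
        ≤ |inc n (X R a) (k / 2) - inc n (Y a) (k / 2)| / 2
          + |c| * |X R a (n + 1, k / 2) - Y a (n + 1, k / 2)|
      rw [show inc n (X R a) (k / 2) / 2 + c * X R a (n + 1, k / 2)
          - (inc n (Y a) (k / 2) / 2 + c * Y a (n + 1, k / 2))
        = (inc n (X R a) (k / 2) - inc n (Y a) (k / 2)) / 2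
          + c * (X R a (n + 1, k / 2) - Y a (n + 1, k / 2)) by ring]
      refine (abs_add_le _ _).trans (le_of_eq ?_)
      rw [abs_mul, abs_div, abs_two]
    · simp only [Pi.add_apply, Pi.sub_apply] at ha hbb ⊢
      rw [integral_add (f := fun a => |inc n (X R a) (k / 2) - inc n (Y a) (k / 2)| / 2)
        (g := fun a => |c| * |X R a (n + 1, k / 2) - Y a (n + 1, k / 2)|) ha hbb, integral_div,
        integral_const_mul]

/-- The finite volume approximations of an innovation increment converge in mean. -/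
lemma tendsto_binc (h : Reg G d) (hν : HasMarginals G θ ν) (hθ : |θ| < 1) (o : V)
    (p : V × ℕ × ℕ) :
    (∀ R, Integrable (fun ω => inc p.2.1
      (slice (innX G θ (h.ball o R) (p.2.1 + R) ω) p.1) p.2.2) (probM ν)) ∧
    Integrable (binc G θ ν p) (probM ν) ∧
    Tendsto (fun R => ∫ ω, |inc p.2.1 (slice (innX G θ (h.ball o R) (p.2.1 + R) ω) p.1) p.2.2
        - binc G θ ν p ω| ∂probM ν) atTop (𝓝 0) := by
  obtain ⟨u, m, j⟩ := p
  refine tendsto_inc_L1 (X := fun R ω => slice (innX G θ (h.ball o R) (m + R) ω) u)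
    (Y := fun ω => slice (innLim G θ ν ω) u) (fun R i => integrable_innX hθ _ _ (u, i))
    (fun i => (innLim_spec h hν hθ (u, i)).2.1) (fun i => ?_) m j
  refine Metric.tendsto_atTop.2 fun ε hε => ?_
  obtain ⟨F, N, hF⟩ := (innLim_spec h hν hθ (u, i)).2.2 (ε / 2) (half_pos hε)
  obtain ⟨R0, hR0⟩ := h.exists_ball_subset o F
  refine ⟨max R0 N, fun R hR => ?_⟩
  rw [Real.dist_eq, sub_zero, abs_of_nonneg (integral_nonneg fun _ => abs_nonneg _)]
  refine lt_of_le_of_lt (hF (h.ball o R) (m + R) (h.conn_ball o R) (fun x hx => ?_) ?_)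
    (half_lt_self hε)
  · exact h.mem_ball.2 ((h.mem_ball.1 (hR0 hx)).trans ((le_max_left _ _).trans hR))
  · have := (le_max_right R0 N).trans hR; omega

lemma binc_approx_eq (D : Finset V) (ω : Omega V) {u : V} (hu : u ∈ D) (m j R : ℕ) :
    inc m (slice (innX G θ D (m + R) ω) u) j
      = incY m ω u j
        - mesh (m + R) * ∑ i ∈ Finset.range (2 ^ R), mag G θ D (pos (m + R) ω (2 ^ R * j + i)) u := by
  rw [inc_block m R]
  simp only [inc_innX, incY_block m R ω u j, Finset.mul_sum, ← Finset.sum_sub_distrib]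
  refine Finset.sum_congr rfl fun i _ => ?_
  simp only [incB, drift, if_pos hu, incY]
  ring

lemma measurable_pos_obs (n k : ℕ) {t : ℝ} (ht : (k : ℝ) * mesh n ≤ t) :
    Measurable[obsAlg t Set.univ] fun ω : Omega V => pos n ω k := by
  refine @measurable_pi_lambda _ _ _ (obsAlg t Set.univ) _ _ fun w => ?_
  have e : (fun ω : Omega V => pos n ω k w)
      = fun ω => ∑ i ∈ Finset.range k, obs t Set.univ ω (w, n, i) := by
    funext ω
    refine Finset.sum_congr rfl fun i hi => ?_
    have h1 : ((i : ℝ) + 1) * mesh n ≤ t := by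
      refine le_trans ?_ ht
      gcongr
      · exact (mesh_pos n).le
      · exact_mod_cast Finset.mem_range.1 hi
    simp [obs, h1]
  rw [e]
  exact Finset.measurable_sum _ fun i _ =>
    (measurable_pi_apply ((w, n, i) : V × ℕ × ℕ)).comp (comap_measurable (obs t Set.univ))

lemma measurable_incY_obs (n k : ℕ) (u : V) {t : ℝ} (ht : ((k : ℝ) + 1) * mesh n ≤ t) :
    Measurable[obsAlg t Set.univ] fun ω : Omega V => incY n ω u k := by
  have e : (fun ω : Omega V => incY n ω u k) = fun ω => obs t Set.univ ω (u, n, k) := by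
    funext ω; simp [obs, ht]
  rw [e]
  exact (measurable_pi_apply ((u, n, k) : V × ℕ × ℕ)).comp (comap_measurable (obs t Set.univ))

lemma fine_time_le (m j R i : ℕ) (hi : i ≤ 2 ^ R) :
    ((2 ^ R * j + i : ℕ) : ℝ) * mesh (m + R) ≤ ((j : ℝ) + 1) * mesh m := by
  rw [← mesh_add m R]
  have h1 : (i : ℝ) ≤ (2 : ℝ) ^ R := by exact_mod_cast hi
  have := mesh_pos (m + R)
  push_cast
  nlinarith

lemma le_fine_time (m j R i : ℕ) :
    (j : ℝ) * mesh m ≤ ((2 ^ R * j + i : ℕ) : ℝ) * mesh (m + R) := by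
  rw [← mesh_add m R]
  have := mesh_pos (m + R)
  have : 0 ≤ (i : ℝ) * mesh (m + R) := mul_nonneg (Nat.cast_nonneg _) this.le
  push_cast
  nlinarith

/-- The innovation increments are functions of the observations up to their right end. -/
lemma vers_ae (h : Reg G d) (hν : HasMarginals G θ ν) (hθ : |θ| < 1) (p : V × ℕ × ℕ) :
    vers G θ ν p =ᵐ[probM ν] binc G θ ν p := by
  obtain ⟨hXi, hBi, hlim⟩ := tendsto_binc h hν hθ p.1 p
  set t := tEnd p
  set X : ℕ → Omega V → ℝ := fun R ω =>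
    inc p.2.1 (slice (innX G θ (h.ball p.1 R) (p.2.1 + R) ω) p.1) p.2.2 with hX
  have hXm : ∀ R, Measurable[obsAlg t Set.univ] (X R) := by
    intro R
    have hu : p.1 ∈ h.ball p.1 R := h.mem_ball.2 (by simp)
    simp only [hX, binc_approx_eq _ _ hu]
    refine (measurable_incY_obs _ _ _ le_rfl).sub (Measurable.const_mul ?_ _)
    refine Finset.measurable_sum _ fun i hi => (measurable_mag _ _).comp (measurable_pos_obs _ _ ?_)
    exact fine_time_le _ _ _ _ (Finset.mem_range.1 hi).le
  have hm := obsAlg_le (V := V) t Set.univ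
  have hvi : Integrable (vers G θ ν p) (probM ν) := integrable_condExp
  have hzero : ∫ ω, |vers G θ ν p ω - binc G θ ν p ω| ∂probM ν = 0 := by
    refine le_antisymm ?_ (integral_nonneg fun _ => abs_nonneg _)
    refine ge_of_tendsto (x := atTop) (f := fun R => 2 * ∫ ω, |X R ω - binc G θ ν p ω| ∂probM ν)
      (by simpa using hlim.const_mul 2) (Eventually.of_forall fun R => ?_)
    have e : (probM ν)[X R|obsAlg t Set.univ] = X R :=
      condExp_of_stronglyMeasurable hm (hXm R).stronglyMeasurable (hXi R)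
    have e2 : (fun ω => vers G θ ν p ω - X R ω) =ᵐ[probM ν]
        (probM ν)[binc G θ ν p - X R|obsAlg t Set.univ] := by
      filter_upwards [condExp_sub hBi (hXi R) (obsAlg t Set.univ)] with ω hω
      rw [hω, Pi.sub_apply, e]
      rfl
    have h1 : ∫ ω, |vers G θ ν p ω - X R ω| ∂probM ν ≤ ∫ ω, |X R ω - binc G θ ν p ω| ∂probM ν := by
      calc ∫ ω, |vers G θ ν p ω - X R ω| ∂probM ν
          = ∫ ω, |(probM ν)[binc G θ ν p - X R|obsAlg t Set.univ] ω| ∂probM ν :=
            integral_congr_ae (e2.mono fun ω hω => by simp only [hω])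
        _ ≤ ∫ ω, |(binc G θ ν p - X R) ω| ∂probM ν := integral_abs_condExp_le _
        _ = _ := by simp only [Pi.sub_apply, abs_sub_comm]
    calc ∫ ω, |vers G θ ν p ω - binc G θ ν p ω| ∂probM ν
        ≤ ∫ ω, (|vers G θ ν p ω - X R ω| + |X R ω - binc G θ ν p ω|) ∂probM ν :=
          integral_mono (hvi.sub hBi).abs ((hvi.sub (hXi R)).abs.add ((hXi R).sub hBi).abs)
            fun ω => abs_sub_le _ _ _
      _ ≤ _ := by
          rw [integral_add (f := fun ω => |vers G θ ν p ω - X R ω|)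
            (g := fun ω => |X R ω - binc G θ ν p ω|) (hvi.sub (hXi R)).abs ((hXi R).sub hBi).abs]
          linarith
  have := (integral_eq_zero_iff_of_nonneg (fun _ => abs_nonneg _) (hvi.sub hBi).abs).1 hzero
  filter_upwards [this] with ω hω
  simpa [sub_eq_zero] using hω

/-- Projection on the innovations, for functions bounded by one. -/
noncomputable def bE (G : SimpleGraph V) [DecidableRel G.Adj] (θ : ℝ) (ν : Measure (V → Bool))
    (t : ℝ) (f : Omega V → ℝ) : Omega V → ℝ :=
  fun ω => clip ((probM ν)[f|bAlg G θ ν t] ω)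

lemma abs_bE_le (t : ℝ) (f : Omega V → ℝ) (ω : Omega V) : |bE G θ ν t f ω| ≤ 1 := abs_clip_le _

lemma measurable_bE_b (t : ℝ) (f : Omega V → ℝ) :
    Measurable[bAlg G θ ν t] (bE G θ ν t f) :=
  measurable_clip.comp stronglyMeasurable_condExp.measurable

@[fun_prop]
lemma measurable_bE (t : ℝ) (f : Omega V → ℝ) : Measurable (bE G θ ν t f) :=
  (measurable_bE_b t f).mono (bAlg_le t) le_rfl

lemma bE_ae {t : ℝ} {f : Omega V → ℝ} (hf : ∀ᵐ ω ∂probM ν, |f ω| ≤ 1) :
    bE G θ ν t f =ᵐ[probM ν] (probM ν)[f|bAlg G θ ν t] := by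
  filter_upwards [ae_bdd_abs_condExp_of_ae_bdd_abs (m := bAlg G θ ν t) hf] with ω hω
  obtain ⟨h1, h2⟩ := abs_le.1 hω
  rw [bE, clip, min_eq_right h2, max_eq_right h1]

/-- Pulling out an integrable function of the innovations. -/
lemma integral_mul_bE {t : ℝ} {f F : Omega V → ℝ} (hfm : Measurable f) (hf : ∀ ω, |f ω| ≤ 1)
    (hFm : Measurable[bAlg G θ ν t] F) (hFi : Integrable F (probM ν)) :
    ∫ ω, F ω * bE G θ ν t f ω ∂probM ν = ∫ ω, F ω * f ω ∂probM ν := by
  have hfi := integrable_bdd (μ := probM ν) hfm hf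
  have hFf : Integrable (F * f) (probM ν) :=
    hFi.mul_bdd hfm.aestronglyMeasurable (c := 1)
      (Eventually.of_forall fun ω => (Real.norm_eq_abs _).trans_le (hf ω))
  have e := condExp_mul_of_stronglyMeasurable_left (m := bAlg G θ ν t) (μ := probM ν)
    hFm.stronglyMeasurable hFf hfi
  calc ∫ ω, F ω * bE G θ ν t f ω ∂probM ν
      = ∫ ω, ((probM ν)[F * f|bAlg G θ ν t]) ω ∂probM ν := integral_congr_ae (by
        filter_upwards [e, bE_ae (G := G) (θ := θ) (t := t) (Eventually.of_forall hf)] with ω e1 e2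
        rw [e1, e2, Pi.mul_apply])
    _ = _ := integral_condExp (bAlg_le t)

lemma integral_bE_mul_self {t : ℝ} {f : Omega V → ℝ} (hfm : Measurable f) (hf : ∀ ω, |f ω| ≤ 1) :
    ∫ ω, bE G θ ν t f ω * f ω ∂probM ν = ∫ ω, bE G θ ν t f ω ^ 2 ∂probM ν := by
  rw [← integral_mul_bE hfm hf (measurable_bE_b t f)
    (integrable_bdd (measurable_bE t f) (abs_bE_le t f))]
  simp only [sq]

/-- The innovations up to time `s` are a function of the limit coordinates. -/
lemma bObs_ae [Countable V] (h : Reg G d) (hν : HasMarginals G θ ν) (hθ : |θ| < 1) (s : ℝ) :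
    ∀ᵐ ω ∂probM ν, bObs G θ ν s ω = pinc s (innLim G θ ν ω) := by
  filter_upwards [ae_all_iff.2 fun p => vers_ae h hν hθ p] with ω hω
  funext p
  simp only [bObs, pinc]
  by_cases hp : tEnd p ≤ s
  · have hp' : ((p.2.2 : ℝ) + 1) * mesh p.2.1 ≤ s := hp
    rw [if_pos hp, if_pos hp', hω p]; rfl
  · have hp' : ¬ ((p.2.2 : ℝ) + 1) * mesh p.2.1 ≤ s := hp
    rw [if_neg hp, if_neg hp']

/-- Future innovation increments are centred and orthonormal given the innovations so far. -/
lemma innov_moments [Countable V] (h : Reg G d) (hν : HasMarginals G θ ν) (hθ : |θ| < 1)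
    (n k : ℕ) {s : ℝ} (hs : s = k * mesh n) (u u' : V) {f : Omega V → ℝ}
    (hfm : Measurable[bAlg G θ ν s] f) {C : ℝ} (hC : ∀ ω, |f ω| ≤ C) :
    (∫ ω, f ω * vers G θ ν (u, n, k) ω ∂probM ν = 0) ∧
    (∫ ω, f ω * (vers G θ ν (u, n, k) ω * vers G θ ν (u', n, k) ω) ∂probM ν
      = (if u = u' then mesh n else 0) * ∫ ω, f ω ∂probM ν) := by
  have hC0 : 0 ≤ C := (abs_nonneg _).trans (hC (fun _ => false, 0))
  obtain ⟨φ0, hφ0, hfe⟩ := hfm.exists_eq_measurable_comp
  set φ : (V × ℕ × ℕ → ℝ) → ℝ := fun z => max (-C) (min C (φ0 z)) with hφdef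
  have hφ : Measurable φ := measurable_const.max (measurable_const.min hφ0)
  have hφb : ∀ z, |φ z| ≤ C := fun z =>
    abs_le.2 ⟨le_max_left _ _, max_le (by linarith) (min_le_left _ _)⟩
  have hfe' : ∀ ω, f ω = φ (bObs G θ ν s ω) := fun ω => by
    have := abs_le.1 (hC ω)
    have e : φ0 (bObs G θ ν s ω) = f ω := by rw [hfe]; rfl
    rw [hφdef]; dsimp only
    rw [e, min_eq_right this.2, max_eq_right this.1]
  have hX := measurable_innLim h hν hθ
  have hlaw := map_innLim h hν hθ
  obtain ⟨m1, m2⟩ := future_moments n k hs u u' hφ hφb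
  have tr : ∀ F : (V × ℕ × ℕ → ℝ) → ℝ, Measurable F →
      ∫ Z, F Z ∂gam (V × ℕ × ℕ) = ∫ ω, F (innLim G θ ν ω) ∂probM ν := fun F hF => by
    rw [← hlaw, integral_map hX.aemeasurable hF.aestronglyMeasurable]
  have hb := bObs_ae h hν hθ s
  have hpm : Measurable fun Z : V × ℕ × ℕ → ℝ => φ (pinc s Z) := hφ.comp (measurable_pinc s)
  refine ⟨?_, ?_⟩
  · rw [tr (fun Z => φ (pinc s Z) * inc n (slice Z u) k) (hpm.mul (measurable_incZ n u k))] at m1
    rw [← m1]
    refine integral_congr_ae ?_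
    filter_upwards [hb, vers_ae h hν hθ (u, n, k)] with ω e1 e2
    rw [hfe', e1, e2]; rfl
  · rw [tr (fun Z => φ (pinc s Z) * (inc n (slice Z u) k * inc n (slice Z u') k))
      (hpm.mul ((measurable_incZ n u k).mul (measurable_incZ n u' k))),
      tr (fun Z => φ (pinc s Z)) hpm] at m2
    have e : ∫ ω, f ω ∂probM ν = ∫ ω, φ (pinc s (innLim G θ ν ω)) ∂probM ν :=
      integral_congr_ae (hb.mono fun ω e => by simp only [hfe', e])
    rw [e, ← m2]
    refine integral_congr_ae ?_
    filter_upwards [hb, vers_ae h hν hθ (u, n, k), vers_ae h hν hθ (u', n, k)] with ω e1 e2 e3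
    rw [hfe', e1, e2, e3]; rfl

lemma memLp_vers [Countable V] (h : Reg G d) (hν : HasMarginals G θ ν) (hθ : |θ| < 1)
    (p : V × ℕ × ℕ) : MemLp (vers G θ ν p) 2 (probM ν) := by
  have e := memLp_inc p.2.1 p.1 p.2.2
  rw [← map_innLim h hν hθ] at e
  exact (e.comp_of_map (measurable_innLim h hν hθ).aemeasurable).ae_eq
    (vers_ae h hν hθ p).symm

/-- The first moment identity for an integrable function of the past. -/
lemma innov_mean [Countable V] (h : Reg G d) (hν : HasMarginals G θ ν) (hθ : |θ| < 1)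
    (n k : ℕ) {s : ℝ} (hs : s = k * mesh n) (u : V) {f : Omega V → ℝ}
    (hfm : Measurable[bAlg G θ ν s] f)
    (hfi : Integrable (fun ω => f ω * vers G θ ν (u, n, k) ω) (probM ν)) :
    ∫ ω, f ω * vers G θ ν (u, n, k) ω ∂probM ν = 0 := by
  set fc : ℕ → Omega V → ℝ := fun c ω => max (-(c : ℝ)) (min (c : ℝ) (f ω))
  have hb : ∀ c ω, |fc c ω| ≤ c := fun c ω =>
    abs_le.2 ⟨le_max_left _ _, max_le (by linarith [Nat.cast_nonneg (α := ℝ) c]) (min_le_left _ _)⟩
  have hle : ∀ c ω, |fc c ω| ≤ |f ω| := by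
    intro c ω
    simp only [fc]
    have := Nat.cast_nonneg (α := ℝ) c
    rcases le_total (f ω) 0 with h0 | h0
    · rw [min_eq_right (h0.trans this), abs_of_nonpos (max_le (by linarith) h0), abs_of_nonpos h0]
      linarith [le_max_right (-(c : ℝ)) (f ω)]
    · rw [max_eq_right (le_trans (by linarith) (le_min this h0)), abs_of_nonneg (le_min this h0),
        abs_of_nonneg h0]
      exact min_le_right _ _
  have hmc : ∀ c, Measurable[bAlg G θ ν s] (fc c) := fun c =>
    measurable_const.max (measurable_const.min hfm)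
  have hlim : Tendsto (fun c => ∫ ω, fc c ω * vers G θ ν (u, n, k) ω ∂probM ν) atTop
      (𝓝 (∫ ω, f ω * vers G θ ν (u, n, k) ω ∂probM ν)) := by
    refine tendsto_integral_of_dominated_convergence
      (fun ω => |f ω * vers G θ ν (u, n, k) ω|) (fun c => ?_) hfi.abs
      (fun c => Eventually.of_forall fun ω => ?_) (Eventually.of_forall fun ω => ?_)
    · exact (((hmc c).mono (bAlg_le s) le_rfl).aestronglyMeasurable).mul
        (memLp_vers h hν hθ _).aestronglyMeasurable
    · rw [Real.norm_eq_abs, abs_mul, abs_mul]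
      exact mul_le_mul_of_nonneg_right (hle c ω) (abs_nonneg _)
    · refine Tendsto.mul_const _ (tendsto_const_nhds.congr' ?_)
      filter_upwards [eventually_ge_atTop ⌈|f ω|⌉₊] with c hc
      have h1 : |f ω| ≤ (c : ℝ) := (Nat.le_ceil _).trans (by exact_mod_cast hc)
      obtain ⟨h2, h3⟩ := abs_le.1 h1
      simp only [fc]
      rw [min_eq_right h3, max_eq_right h2]
  refine tendsto_nhds_unique hlim ?_
  simp only [fun c => (innov_moments h hν hθ n k hs u u (hmc c) (hb c)).1]
  exact tendsto_const_nhds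

/-- Future noise is centred given the spins and the observations so far. -/
lemma noise_mean [Countable V] (n k : ℕ) {s : ℝ} (hs : s = k * mesh n) (u : V)
    {φ : (V → Bool) × (V × ℕ × ℕ → ℝ) → ℝ} (hφ : Measurable φ) {C : ℝ} (hC : ∀ z, |φ z| ≤ C) :
    ∫ ω, φ (ω.1, obs s Set.univ ω) * inc n (slice ω.2 u) k ∂probM ν = 0 := by
  have hmo : Measurable fun ω : Omega V => φ (ω.1, obs s Set.univ ω) :=
    hφ.comp (measurable_fst.prodMk (measurable_obs s _))
  have hi : Integrable (fun ω : Omega V => φ (ω.1, obs s Set.univ ω) * inc n (slice ω.2 u) k)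
      (probM ν) :=
    (Integrable.comp_snd (f := fun Z => inc n (slice Z u) k)
      ((memLp_inc n u k).integrable (by norm_num)) ν).bdd_mul hmo.aestronglyMeasurable
      (Eventually.of_forall fun ω => (Real.norm_eq_abs _).trans_le (hC _))
  rw [probM, integral_prod _ hi]
  refine integral_eq_zero_of_ae (Eventually.of_forall fun σ => ?_)
  classical
  set J : (V × ℕ × ℕ → ℝ) → V × ℕ × ℕ → ℝ := fun z p =>
    if ((p.2.2 : ℝ) + 1) * mesh p.2.1 ≤ s then mesh p.2.1 * spin (σ p.1) + z p else 0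
  have hJ : Measurable J := measurable_pi_lambda _ fun p => by
    by_cases hp : ((p.2.2 : ℝ) + 1) * mesh p.2.1 ≤ s
    · simp only [J, if_pos hp]; fun_prop
    · simp only [J, if_neg hp]; exact measurable_const
  have e : ∀ Z : V × ℕ × ℕ → ℝ, obs s Set.univ (σ, Z) = J (pinc s Z) := fun Z => by
    funext p
    simp only [obs, J, pinc, Set.mem_univ, true_and, incY]
    split_ifs <;> rfl
  simp only [e]
  exact (future_moments n k hs u u (φ := fun z => φ (σ, J z))
    (hφ.comp (measurable_const.prodMk hJ)) (fun z => hC _)).1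

lemma integral_abs_le_amgm {α : Type*} [MeasurableSpace α] {μ : Measure α} [IsProbabilityMeasure μ]
    {X : α → ℝ} (hX : Integrable X μ) (hX2 : Integrable (fun a => X a ^ 2) μ) {l : ℝ} (hl : 0 < l) :
    ∫ a, |X a| ∂μ ≤ l / 2 + (∫ a, X a ^ 2 ∂μ) / (2 * l) := by
  have h1 : ∫ a, |X a| ∂μ ≤ ∫ a, (l / 2 + X a ^ 2 / (2 * l)) ∂μ := by
    refine integral_mono hX.abs ((integrable_const _).add (hX2.div_const _)) fun a => ?_
    have h2 : l / 2 + X a ^ 2 / (2 * l) - |X a| = (|X a| - l) ^ 2 / (2 * l) := by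
      rw [← sq_abs (X a)]; field_simp; ring
    have h3 : 0 ≤ (|X a| - l) ^ 2 / (2 * l) := by positivity
    linarith
  rwa [integral_add (integrable_const _) (hX2.div_const _), integral_const, probReal_univ, one_smul,
    integral_div] at h1

lemma cE_abs_diff {t t' : ℝ} {S S' : Set V} (ht : t ≤ t') (hS : S ⊆ S') {g : Omega V → ℝ}
    (hgm : Measurable g) (hg : ∀ ω, |g ω| ≤ 1) {l : ℝ} (hl : 0 < l) :
    ∫ ω, |cE ν t' S' g ω - cE ν t S g ω| ∂probM ν
      ≤ l / 2 + (∫ ω, cE ν t' S' g ω ^ 2 ∂probM ν - ∫ ω, cE ν t S g ω ^ 2 ∂probM ν) / (2 * l) := by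
  have hb : ∀ ω, |cE ν t' S' g ω - cE ν t S g ω| ≤ 2 := fun ω =>
    (abs_sub _ _).trans (by linarith [abs_cE_le (ν := ν) t' S' g ω, abs_cE_le (ν := ν) t S g ω])
  refine (integral_abs_le_amgm (integrable_bdd (by fun_prop) hb)
    (integrable_bdd (by fun_prop) (C := 4) fun ω => ?_) hl).trans (le_of_eq ?_)
  · rw [abs_pow]; exact (pow_le_pow_left₀ (abs_nonneg _) (hb ω) 2).trans (by norm_num)
  · rw [integral_cE_sub_sq ht hS hgm hg]

end Vale.Agent.P161
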