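import Vale.Agent.P161.Main
import Vale.Agent.P161.Critical.Innov

/-!
A factor of IID from spins which are functions of the innovations, and functions of the
innovations up to a time as functions of the limit coordinates.
-/

open MeasureTheory ProbabilityTheory SimpleGraph Filter
open scoped Topology

set_option linter.unusedSectionVars false

namespace Vale.Agent.P161

universe u

variable {V : Type u} [DecidableEq V] {G : SimpleGraph V} [DecidableRel G.Adj] {θ : ℝ} {d : ℕ}
variable {ν : Measure (V → Bool)} [IsProbabilityMeasure ν]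

/-- A function of the innovations up to a time is a function of the limit coordinates. -/
lemma exists_innLim_of_bAlg (h : Reg G d) (hν : HasMarginals G θ ν) (hθ : |θ| < 1) (t : ℝ)
    {F : Omega V → ℝ} (hF : Measurable[bAlg G θ ν t] F) :
    ∃ φ : (V × ℕ × ℕ → ℝ) → ℝ, Measurable φ ∧
      ∀ᵐ ω ∂probM ν, F ω = φ (innLim G θ ν ω) := by
  have := h.countable
  obtain ⟨φ, hφ, e⟩ := hF.exists_eq_measurable_comp
  refine ⟨φ ∘ pinc t, hφ.comp (measurable_pinc t), ?_⟩
  filter_upwards [bObs_ae h hν hθ t] with ω hω
  rw [e, Function.comp_apply, Function.comp_apply, hω]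

/-- If every spin is a function of the innovations, then the free Ising measure is a factor of
IID. -/
theorem factor_of_innLim (h : Reg G d) (hν : HasMarginals G θ ν) (hθ : |θ| < 1)
    (hsp : ∀ v, ∃ f : (V × ℕ × ℕ → ℝ) → ℝ, Measurable f ∧
      ∀ᵐ ω ∂probM ν, sp v ω = f (innLim G θ ν ω)) :
    IsFactorOfIID G ν := by
  have := h.countable
  choose f hfm hfe using hsp
  set Φ : (V × ℕ × ℕ → ℝ) → V → Bool := fun z v => decide (0 < f v z) with hΦdef
  have hΦm : Measurable Φ := measurable_pi_lambda _ fun v => measurable_to_bool (by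
    have : (fun z => decide (0 < f v z)) ⁻¹' {true} = f v ⁻¹' Set.Ioi 0 := by ext z; simp
    rw [this]
    exact hfm v measurableSet_Ioi)
  have hΦ : ∀ᵐ ω ∂probM ν, Φ (innLim G θ ν ω) = ω.1 := by
    filter_upwards [ae_all_iff.2 hfe] with ω hω
    funext v
    simp only [hΦdef, ← hω v, sp]
    cases ω.1 v <;> simp [spin]
  obtain ⟨φ, hφm, hφ⟩ := Measure.exists_measurable_map_eq
    (Measure.infinitePi fun _ : ℕ × ℕ => gaussianReal 0 1)
  set U := Measure.infinitePi fun _ : V => (volume : Measure unitInterval)
  set lift : (V → unitInterval) → (V × ℕ × ℕ → ℝ) := fun x p => φ (x p.1) p.2 with hlift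
  have hliftm : Measurable lift := measurable_pi_lambda _ fun p =>
    ((measurable_pi_apply p.2).comp hφm).comp (measurable_pi_apply p.1)
  have hmap : U.map lift = gam (V × ℕ × ℕ) := by
    have e1 : U.map (fun x v => φ (x v))
        = Measure.infinitePi fun _ : V => Measure.infinitePi fun _ : ℕ × ℕ => gaussianReal 0 1 := by
      rw [Measure.infinitePi_map_pi (μ := fun _ : V => (volume : Measure unitInterval))
        (f := fun _ => φ) fun _ => hφm]
      simp only [hφ]
    rw [show lift = (MeasurableEquiv.curry V (ℕ × ℕ) ℝ).symm ∘ fun x v => φ (x v) from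
        funext fun x => rfl]
    have hm : Measurable fun (x : V → unitInterval) (v : V) => φ (x v) :=
      measurable_pi_lambda _ fun v => hφm.comp (measurable_pi_apply v)
    refine (Measure.map_map (μ := U) (MeasurableEquiv.measurable _) hm).symm.trans ?_
    rw [e1]
    exact Measure.infinitePi_map_curry_symm (fun (_ : V) (_ : ℕ × ℕ) => gaussianReal 0 1)
  have hX := measurable_innLim h hν hθ
  have hlaw := map_innLim h hν hθ
  refine ⟨fun x => Φ (lift x), hΦm.comp hliftm, fun g => ?_, ?_⟩
  · have h1 := innLim_gact h hν hθ g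
    have h2 := (measurePreserving_gact h hν g).quasiMeasurePreserving.ae hΦ
    have h3 : ∀ᵐ ω ∂probM ν, Φ (gnoise g (innLim G θ ν ω))
        = fun v => Φ (innLim G θ ν ω) (g.symm v) := by
      filter_upwards [h1, h2, hΦ] with ω e1 e2 e3
      rw [← funext e1, e2, e3]
      rfl
    have hms : MeasurableSet {z : V × ℕ × ℕ → ℝ | Φ (gnoise g z) = fun v => Φ z (g.symm v)} :=
      measurableSet_eq_fun (hΦm.comp (measurable_gnoise g))
        (measurable_pi_lambda _ fun v => (measurable_pi_apply _).comp hΦm)
    have h4 : ∀ᵐ z ∂(gam (V × ℕ × ℕ)), Φ (gnoise g z) = fun v => Φ z (g.symm v) := by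
      rw [← hlaw]
      exact (ae_map_iff hX.aemeasurable hms).2 h3
    rw [← hmap] at h4
    exact ae_of_ae_map hliftm.aemeasurable h4
  · calc ν = (probM ν).map Prod.fst := by rw [probM, Measure.map_fst_prod, measure_univ, one_smul]
      _ = (probM ν).map (fun ω => Φ (innLim G θ ν ω)) :=
          Measure.map_congr (hΦ.mono fun ω e => e.symm)
      _ = ((probM ν).map (innLim G θ ν)).map Φ := (Measure.map_map hΦm hX).symm
      _ = _ := by rw [hlaw, ← hmap, Measure.map_map hΦm hliftm]; rfl

end Vale.Agent.P161
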