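import Vale.Agent.P161.Critical.Decay

/-!
The refined bound on the conditional variance of the posterior covariances: the first order part
of the change of a product of edge weights is diffusive, the rest is of smaller order.
-/

open MeasureTheory ProbabilityTheory SimpleGraph Filter
open scoped Topology

set_option linter.unusedSectionVars false

namespace Vale.Agent.P161

universe u

variable {V : Type u} [DecidableEq V] {G : SimpleGraph V} [DecidableRel G.Adj] {θ : ℝ} {d : ℕ}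
variable {ν : Measure (V → Bool)} [IsProbabilityMeasure ν]

lemma abs_exp_neg_sub_le {A B : ℝ} (hA : 0 ≤ A) (hB : 0 ≤ B) :
    |Real.exp (-A) - Real.exp (-B)| ≤ |A - B| := by
  wlog h : A ≤ B generalizing A B with H
  · rw [abs_sub_comm, abs_sub_comm A]
    exact H hB hA (le_of_not_ge h)
  have h1 : Real.exp (-B) ≤ Real.exp (-A) := Real.exp_le_exp.2 (by linarith)
  rw [abs_of_nonneg (by linarith), abs_of_nonpos (by linarith)]
  have h2 : Real.exp (-B) = Real.exp (-A) * Real.exp (-(B - A)) := by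
    rw [← Real.exp_add]; congr 1; ring
  have h3 := Real.add_one_le_exp (-(B - A))
  have h4 : Real.exp (-A) ≤ 1 := Real.exp_le_one_iff.2 (by linarith)
  rw [h2]
  nlinarith [mul_le_mul_of_nonneg_left h3 (Real.exp_pos (-A)).le,
    mul_le_mul_of_nonneg_right h4 (sub_nonneg.2 h)]

lemma prod_one_sub_exp {ι : Type*} (s : Finset ι) (x : ι → ℝ) (h0 : ∀ j, 0 ≤ x j)
    (h1 : ∀ j, x j ≤ 1) :
    |∏ j ∈ s, (1 - x j) - Real.exp (-∑ j ∈ s, x j)| ≤ ∑ j ∈ s, x j ^ 2 := by
  classical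
  induction s using Finset.induction with
  | empty => simp
  | insert a s ha ih =>
    rw [Finset.prod_insert ha, Finset.sum_insert ha, Finset.sum_insert ha, neg_add, Real.exp_add]
    set P := ∏ j ∈ s, (1 - x j)
    set E := Real.exp (-∑ j ∈ s, x j)
    have hE0 : 0 ≤ E := (Real.exp_pos _).le
    have hE1 : E ≤ 1 := Real.exp_le_one_iff.2 (neg_nonpos.2 (Finset.sum_nonneg fun j _ => h0 j))
    have hb := Real.abs_exp_sub_one_sub_id_le (x := -x a) (by
      rw [abs_neg, abs_of_nonneg (h0 a)]; exact h1 a)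
    rw [neg_sq] at hb
    rw [show (1 - x a) * P - Real.exp (-x a) * E
      = (1 - x a) * (P - E) + E * -(Real.exp (-x a) - 1 - -x a) by ring]
    refine (abs_add_le _ _).trans ?_
    rw [abs_mul, abs_mul, abs_neg, abs_of_nonneg (sub_nonneg.2 (h1 a)), abs_of_nonneg hE0,
      add_comm (x a ^ 2)]
    exact add_le_add ((mul_le_of_le_one_left (abs_nonneg _) (by linarith [h0 a])).trans ih)
      ((mul_le_of_le_one_left (abs_nonneg _) hE1).trans hb)

/-- A product of two runs of weights, against its typical value. -/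
lemma weight_close (hθ : |θ| < 1) (α β : ℕ → ℝ) (hα : ∀ j, |α j| ≤ 1) (hβ : ∀ j, |β j| ≤ 1)
    {b : ℝ} (hb : 0 ≤ b) {i k : ℕ} (hi : i < k) :
    |(∏ j ∈ Finset.range i, edgeWt θ (α j)) * (∏ j ∈ Finset.Ico (i + 1) k, edgeWt θ (β j))
        - Real.exp (-((k : ℝ) * b))|
      ≤ |∑ j ∈ Finset.Ico 0 i, (psiW θ (α j) - b)|
        + |∑ j ∈ Finset.Ico (i + 1) k, (psiW θ (β j) - b)|
        + (b + ((∑ j ∈ Finset.range k, α j ^ 4) + ∑ j ∈ Finset.range k, β j ^ 4)) := by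
  have ea : ∀ a : ℝ, edgeWt θ a = 1 - psiW θ a := fun a => by rw [psiW]; ring
  have sq4 : ∀ a : ℝ, |a| ≤ 1 → psiW θ a ^ 2 ≤ a ^ 4 := fun a ha => by
    calc psiW θ a ^ 2 ≤ (a ^ 2) ^ 2 := pow_le_pow_left₀ (psiW_nonneg hθ ha) (psiW_le_sq hθ ha) 2
      _ = a ^ 4 := by ring
  simp only [ea]
  set S1 := ∑ j ∈ Finset.range i, psiW θ (α j) with hS1
  set S2 := ∑ j ∈ Finset.Ico (i + 1) k, psiW θ (β j) with hS2
  set A1 := ∏ j ∈ Finset.range i, (1 - psiW θ (α j)) with hA1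
  set A2 := ∏ j ∈ Finset.Ico (i + 1) k, (1 - psiW θ (β j)) with hA2
  have hS10 : 0 ≤ S1 := Finset.sum_nonneg fun j _ => psiW_nonneg hθ (hα j)
  have hS20 : 0 ≤ S2 := Finset.sum_nonneg fun j _ => psiW_nonneg hθ (hβ j)
  have hA20 : 0 ≤ A2 := Finset.prod_nonneg fun j _ => sub_nonneg.2 (psiW_le_one hθ (hβ j))
  have hA21 : A2 ≤ 1 := Finset.prod_le_one (fun j _ => sub_nonneg.2 (psiW_le_one hθ (hβ j)))
    fun j _ => by linarith [psiW_nonneg hθ (hβ j)]
  have q1 : |A1 - Real.exp (-S1)| ≤ ∑ j ∈ Finset.range k, α j ^ 4 :=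
    (prod_one_sub_exp _ _ (fun j => psiW_nonneg hθ (hα j)) fun j => psiW_le_one hθ (hα j)).trans
      ((Finset.sum_le_sum fun j _ => sq4 _ (hα j)).trans
        (Finset.sum_le_sum_of_subset_of_nonneg (Finset.range_mono hi.le) fun j _ _ => by positivity))
  have q2 : |A2 - Real.exp (-S2)| ≤ ∑ j ∈ Finset.range k, β j ^ 4 :=
    (prod_one_sub_exp _ _ (fun j => psiW_nonneg hθ (hβ j)) fun j => psiW_le_one hθ (hβ j)).trans
      ((Finset.sum_le_sum fun j _ => sq4 _ (hβ j)).trans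
        (Finset.sum_le_sum_of_subset_of_nonneg (fun j hj => Finset.mem_range.2 (Finset.mem_Ico.1 hj).2)
          fun j _ _ => by positivity))
  have hkb : 0 ≤ (k : ℝ) * b := by positivity
  have q3 := abs_exp_neg_sub_le (add_nonneg hS10 hS20) hkb
  rw [neg_add, Real.exp_add] at q3
  have e : S1 + S2 - (k : ℝ) * b
      = (∑ j ∈ Finset.Ico 0 i, (psiW θ (α j) - b))
        + (∑ j ∈ Finset.Ico (i + 1) k, (psiW θ (β j) - b)) + -b := by
    simp only [Nat.Ico_zero_eq_range, Finset.sum_sub_distrib, Finset.sum_const, Finset.card_range,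
      Nat.card_Ico, nsmul_eq_mul, Nat.cast_sub (show i + 1 ≤ k by omega), Nat.cast_add,
      Nat.cast_one, hS1, hS2]
    ring
  rw [e] at q3
  have q3' := q3.trans ((abs_add_le _ _).trans (add_le_add (abs_add_le _ _) (abs_neg b).le))
  rw [abs_of_nonneg hb] at q3'
  have q4 : |A1 * A2 - Real.exp (-S1) * Real.exp (-S2)|
      ≤ (∑ j ∈ Finset.range k, α j ^ 4) + ∑ j ∈ Finset.range k, β j ^ 4 := by
    rw [show A1 * A2 - Real.exp (-S1) * Real.exp (-S2)
      = (A1 - Real.exp (-S1)) * A2 + Real.exp (-S1) * (A2 - Real.exp (-S2)) by ring]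
    refine (abs_add_le _ _).trans ?_
    rw [abs_mul, abs_mul, abs_of_nonneg hA20, abs_of_nonneg (Real.exp_pos _).le]
    exact add_le_add ((mul_le_of_le_one_right (abs_nonneg _) hA21).trans q1)
      ((mul_le_of_le_one_left (abs_nonneg _) (Real.exp_le_one_iff.2 (by linarith))).trans q2)
  have q5 := abs_sub_le (A1 * A2) (Real.exp (-S1) * Real.exp (-S2)) (Real.exp (-((k : ℝ) * b)))
  linarith

/-- The error scale in the expansion of a product of edge weights. -/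
noncomputable def refErr (θ : ℝ) (L K : ℕ) (q : ℝ) : ℝ :=
  ((L : ℝ) + 1) ^ 2 * ((K : ℝ) + 1) * q ^ 2 + (((K : ℝ) + 1) * forgetRate θ ^ L) ^ 2
    + (((K : ℝ) + 1) * q ^ 2) ^ 2

lemma refErr_nonneg (θ : ℝ) (L K : ℕ) (q : ℝ) : 0 ≤ refErr θ L K q := by
  unfold refErr; positivity

lemma refErr_ge (θ : ℝ) (L K : ℕ) (q : ℝ) :
    ((L : ℝ) + 1) ^ 2 * ((K : ℝ) + 1) * q ^ 2 ≤ refErr θ L K q ∧
      (((K : ℝ) + 1) * forgetRate θ ^ L) ^ 2 ≤ refErr θ L K q ∧
      (((K : ℝ) + 1) * q ^ 2) ^ 2 ≤ refErr θ L K q ∧ q ^ 2 ≤ refErr θ L K q := by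
  have h1 : 0 ≤ ((L : ℝ) + 1) ^ 2 * ((K : ℝ) + 1) * q ^ 2 := by positivity
  have h2 : 0 ≤ (((K : ℝ) + 1) * forgetRate θ ^ L) ^ 2 := sq_nonneg _
  have h3 : 0 ≤ (((K : ℝ) + 1) * q ^ 2) ^ 2 := sq_nonneg _
  have h4 : q ^ 2 ≤ ((L : ℝ) + 1) ^ 2 * ((K : ℝ) + 1) * q ^ 2 :=
    le_mul_of_one_le_left (sq_nonneg q) (one_le_mul_of_one_le_of_one_le
      (one_le_pow₀ (by linarith [Nat.cast_nonneg (α := ℝ) L]))
      (by linarith [Nat.cast_nonneg (α := ℝ) K]))
  unfold refErr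
  exact ⟨by linarith, by linarith, by linarith, by linarith⟩

/-- High moments of the deviation of a product of two runs of weights from its typical value. -/
theorem weight_moment [Countable V] (h : Reg G d) (hd : 3 ≤ d) (hν : HasMarginals G θ ν)
    (hθ : |θ| < 1) (hc : bn d * θ ^ 2 = 1) (p : ℕ) (hp : 1 ≤ p) :
    ∃ C, 0 ≤ C ∧ ∀ x0 p0, G.Adj x0 p0 → ∀ t, 0 < t → ∀ L : ℕ, 1 ≤ L → ∀ y k, Geo G y k →
      ∀ K : ℕ, k ≤ K → ∀ i < k,
      ∫ z, ((∏ j ∈ Finset.range i, edgeWt θ (msg ν G t Set.univ (y j) (y (j + 1)) z.1))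
          * (∏ j ∈ Finset.Ico (i + 1) k, edgeWt θ (msg ν G t Set.univ (y j) (y (j + 1)) z.2))
          - Real.exp (-((k : ℝ) * psiBar ν G θ t x0 p0))) ^ (4 * p) ∂rep G θ ν t
        ≤ C * refErr θ L K (qe ν G t x0 p0) ^ (2 * p) := by
  obtain ⟨Cw, hCw, hwin⟩ := window_moment h hd hν hθ hc (2 * p)
  obtain ⟨Cm, hCm, hmom⟩ := mom_le_pow h hd hν hθ hc (8 * p)
  refine ⟨(4 : ℝ) ^ (2 * p) * ((4 : ℝ) ^ (2 * p) * (4 * Cw)
    + (4 : ℝ) ^ (2 * p) * (1 + (4 : ℝ) ^ (2 * p) * (2 * Cm))), by positivity,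
    fun x0 p0 hx0 t ht L hL y k hy K hkK i hi => ?_⟩
  set q := qe ν G t x0 p0 with hq
  set e := refErr θ L K q with he
  have he0 : 0 ≤ e := refErr_nonneg θ L K q
  obtain ⟨he1, he2, he3, he4⟩ := refErr_ge θ L K q
  have hq0 : 0 ≤ q := mom_nonneg _ _ _ _
  set b := psiBar ν G θ t x0 p0 with hb
  have hb0 : 0 ≤ b := integral_nonneg fun ω => psiW_nonneg hθ (abs_msg_le _ _ _ _ _)
  have hbq : b ≤ q := by
    rw [hb, psiBar, hq, qe, mom]
    refine integral_mono (integrable_bdd (measurable_psiW.comp (measurable_msg t _ x0 p0))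
      fun ω => abs_psiW_le hθ (abs_msg_le _ _ _ _ _)) (integrable_mu_pow t _ _ _) fun ω => ?_
    rw [← msg_univ]
    simpa using psiW_le_sq hθ (abs_msg_le (ν := ν) (G := G) t Set.univ x0 p0 ω)
  set α : ℕ → Omega V → ℝ := fun j ω => msg ν G t Set.univ (y j) (y (j + 1)) ω with hα
  have hαb : ∀ j ω, |α j ω| ≤ 1 := fun j ω => abs_msg_le _ _ _ _ _
  set T : ℕ → ℕ → Omega V → ℝ := fun a c ω => ∑ j ∈ Finset.Ico a c, (psiW θ (α j ω) - b) with hT
  set Q : Omega V → ℝ := fun ω => ∑ j ∈ Finset.range k, α j ω ^ 4 with hQ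
  have hTm : ∀ a c, Measurable (T a c) := fun a c => by simp only [hT, hα]; fun_prop
  have hQm : Measurable Q := by simp only [hQ, hα]; fun_prop
  have hTb : ∀ a c ω, |T a c ω| ≤ ((Finset.Ico a c).card : ℝ) * (1 + b) := fun a c ω =>
    (Finset.abs_sum_le_sum_abs _ _).trans ((Finset.sum_le_card_nsmul _ _ (1 + b) fun j _ =>
      (abs_sub _ _).trans (add_le_add (abs_psiW_le hθ (hαb j ω)) (abs_of_nonneg hb0).le)).trans
        (le_of_eq (nsmul_eq_mul _ _)))
  have hQ0 : ∀ ω, 0 ≤ Q ω := fun ω => Finset.sum_nonneg fun j _ => by positivity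
  have hQb : ∀ ω, Q ω ≤ k := fun ω => by
    refine (Finset.sum_le_sum (g := fun _ => (1 : ℝ)) fun j _ => ?_).trans (by simp)
    calc α j ω ^ 4 = |α j ω| ^ 4 := ((show Even 4 by decide).pow_abs _).symm
      _ ≤ 1 := pow_le_one₀ (abs_nonneg _) (hαb j ω)
  have hTi : ∀ a c n, Integrable (fun ω => T a c ω ^ n) (probM ν) := fun a c n =>
    integrable_bdd ((hTm a c).pow_const n) (C := (((Finset.Ico a c).card : ℝ) * (1 + b)) ^ n)
      fun ω => by rw [abs_pow]; exact pow_le_pow_left₀ (abs_nonneg _) (hTb a c ω) n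
  have hQi : ∀ n, Integrable (fun ω => Q ω ^ n) (probM ν) := fun n =>
    integrable_bdd (hQm.pow_const n) (C := (k : ℝ) ^ n) fun ω => by
      rw [abs_pow, abs_of_nonneg (hQ0 ω)]; exact pow_le_pow_left₀ (hQ0 ω) (hQb ω) n
  have hkK' : (k : ℝ) + 1 ≤ (K : ℝ) + 1 := by simpa using hkK
  have mT : ∀ a c, a ≤ c → c ≤ k → ∫ ω, T a c ω ^ (4 * p) ∂probM ν ≤ 2 * Cw * e ^ (2 * p) := by
    intro a c hac hck
    have := hwin t ht x0 p0 hx0 L hL y k hy a c hac hck
    rw [show 2 * (2 * p) = 4 * p by ring] at this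
    refine this.trans ?_
    rw [mul_comm 2 Cw, mul_assoc Cw 2, two_mul (e ^ (2 * p))]
    refine mul_le_mul_of_nonneg_left (add_le_add ?_ ?_) hCw
    · calc ((L : ℝ) + 1) ^ (4 * p) * ((k : ℝ) + 1) ^ (2 * p) * q ^ (4 * p)
          = (((L : ℝ) + 1) ^ 2 * ((k : ℝ) + 1) * q ^ 2) ^ (2 * p) := by
            rw [mul_pow, mul_pow, ← pow_mul, ← pow_mul]; ring_nf
        _ ≤ e ^ (2 * p) := pow_le_pow_left₀ (by positivity) (le_trans (mul_le_mul_of_nonneg_right
            (mul_le_mul_of_nonneg_left hkK' (by positivity)) (sq_nonneg q)) he1) _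
    · calc ((k : ℝ) + 1) ^ (4 * p) * (forgetRate θ ^ L) ^ (4 * p)
          = ((((k : ℝ) + 1) * forgetRate θ ^ L) ^ 2) ^ (2 * p) := by
            simp only [mul_pow, ← pow_mul]; ring_nf
        _ ≤ e ^ (2 * p) := pow_le_pow_left₀ (sq_nonneg _) (le_trans (pow_le_pow_left₀
            (mul_nonneg (by positivity) (pow_nonneg (forgetRate_nonneg θ) L))
            (mul_le_mul_of_nonneg_right hkK' (pow_nonneg (forgetRate_nonneg θ) L)) 2) he2) _
  have mQ : ∫ ω, Q ω ^ (4 * p) ∂probM ν ≤ Cm * e ^ (2 * p) := by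
    obtain ⟨n, hn⟩ : ∃ n, 4 * p = n + 1 := ⟨4 * p - 1, by omega⟩
    have hpt : ∀ ω, Q ω ^ (4 * p) ≤ (k : ℝ) ^ n * ∑ j ∈ Finset.range k, α j ω ^ (2 * (8 * p)) :=
      fun ω => by
      have := pow_sum_le_card_mul_sum_pow (s := Finset.range k) (f := fun j => α j ω ^ 4)
        (fun j _ => by positivity) n
      rw [Finset.card_range, ← hn] at this
      refine this.trans (le_of_eq ?_)
      congr 1
      refine Finset.sum_congr rfl fun j _ => ?_
      rw [← pow_mul]; ring_nf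
    have hi' : ∀ j, Integrable (fun ω => α j ω ^ (2 * (8 * p))) (probM ν) := fun j =>
      integrable_mu_pow t _ _ _
    refine (integral_mono (hQi _) ((integrable_finsetSum _ fun j _ => hi' j).const_mul _) hpt).trans ?_
    rw [integral_const_mul, integral_finsetSum _ fun j _ => hi' j]
    refine (mul_le_mul_of_nonneg_left (Finset.sum_le_sum (g := fun _ => Cm * q ^ (8 * p))
      fun j hj => ?_) (by positivity)).trans ?_
    · have hadj := hy.1 j (Finset.mem_range.1 hj)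
      have h1 := hmom _ _ hadj t ht
      rw [qe_eq h hν hadj hx0 t, mom] at h1
      simpa only [hα, msg_univ] using h1
    · rw [Finset.sum_const, Finset.card_range, nsmul_eq_mul, ← mul_assoc, ← pow_succ, ← hn]
      calc (k : ℝ) ^ (4 * p) * (Cm * q ^ (8 * p))
          = Cm * ((k : ℝ) * q ^ 2) ^ (4 * p) := by rw [mul_pow, ← pow_mul]; ring_nf
        _ ≤ Cm * (((K : ℝ) + 1) * q ^ 2) ^ (4 * p) := by gcongr; linarith
        _ = Cm * ((((K : ℝ) + 1) * q ^ 2) ^ 2) ^ (2 * p) := by rw [← pow_mul]; ring_nf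
        _ ≤ Cm * e ^ (2 * p) := by gcongr
  have mb : b ^ (4 * p) ≤ e ^ (2 * p) := by
    rw [show 4 * p = 2 * (2 * p) by ring, pow_mul]
    exact pow_le_pow_left₀ (sq_nonneg b) ((pow_le_pow_left₀ hb0 hbq 2).trans he4) _
  -- the pointwise bound
  have hpt : ∀ z : Omega V × Omega V,
      ((∏ j ∈ Finset.range i, edgeWt θ (α j z.1)) * (∏ j ∈ Finset.Ico (i + 1) k, edgeWt θ (α j z.2))
          - Real.exp (-((k : ℝ) * b))) ^ (4 * p)
        ≤ (4 : ℝ) ^ (2 * p) * ((4 : ℝ) ^ (2 * p) * (T 0 i z.1 ^ (4 * p) + T (i + 1) k z.2 ^ (4 * p))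
          + (4 : ℝ) ^ (2 * p) * (b ^ (4 * p)
            + (4 : ℝ) ^ (2 * p) * (Q z.1 ^ (4 * p) + Q z.2 ^ (4 * p)))) := by
    intro z
    have hw := weight_close hθ (fun j => α j z.1) (fun j => α j z.2) (fun j => hαb j _)
      (fun j => hαb j _) hb0 hi
    have h1 := pow_le_pow_left₀ (abs_nonneg _) hw (4 * p)
    rw [Even.pow_abs ⟨2 * p, by ring⟩] at h1
    refine h1.trans ?_
    simp only [show 4 * p = 2 * (2 * p) by ring]
    refine (add_pow_even_le _ _ (2 * p)).trans (mul_le_mul_of_nonneg_left (add_le_add ?_ ?_)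
      (by positivity))
    · refine (add_pow_even_le _ _ (2 * p)).trans (le_of_eq ?_)
      simp only [(even_two_mul (2 * p)).pow_abs, hT]
    · exact (add_pow_even_le _ _ (2 * p)).trans (mul_le_mul_of_nonneg_left
        (add_le_add le_rfl (add_pow_even_le _ _ (2 * p))) (by positivity))
  have hf : ∀ (f : Omega V → ℝ), Integrable f (probM ν) →
      Integrable (fun z : Omega V × Omega V => f z.1) (rep G θ ν t) := fun f hf =>
    (MeasurePreserving.mk measurable_fst (rep_fst t)).integrable_comp_of_integrable hf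
  have hs : ∀ (f : Omega V → ℝ), Integrable f (probM ν) →
      Integrable (fun z : Omega V × Omega V => f z.2) (rep G θ ν t) := fun f hf =>
    (MeasurePreserving.mk measurable_snd (rep_snd t)).integrable_comp_of_integrable hf
  have iT := (hf _ (hTi 0 i (4 * p))).add (hs _ (hTi (i + 1) k (4 * p)))
  have iQ := (hf _ (hQi (4 * p))).add (hs _ (hQi (4 * p)))
  refine (integral_mono_of_nonneg (Eventually.of_forall fun z => by
      rw [show 4 * p = 2 * (2 * p) by ring, pow_mul]; positivity)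
    (((iT.const_mul _).add (((integrable_const (b ^ (4 * p))).add (iQ.const_mul _)).const_mul
      _)).const_mul _) (Eventually.of_forall hpt)).trans ?_
  rw [integral_const_mul, integral_add' (iT.const_mul _)
      (((integrable_const (b ^ (4 * p))).add (iQ.const_mul _)).const_mul _),
    integral_const_mul, integral_const_mul]
  simp only [Pi.add_apply]
  rw [integral_add (hf _ (hTi 0 i _)) (hs _ (hTi (i + 1) k _)),
    integral_add (g := fun z : Omega V × Omega V =>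
      (4 : ℝ) ^ (2 * p) * (Q z.1 ^ (4 * p) + Q z.2 ^ (4 * p)))
      (integrable_const _) (iQ.const_mul _), integral_const_mul]
  rw [integral_add (hf _ (hQi _)) (hs _ (hQi _)),
    integral_rep_fst t (f := fun ω => T 0 i ω ^ (4 * p)) ((hTm _ _).pow_const _),
    integral_rep_snd t (f := fun ω => T (i + 1) k ω ^ (4 * p)) ((hTm _ _).pow_const _),
    integral_rep_fst t (f := fun ω => Q ω ^ (4 * p)) (hQm.pow_const _),
    integral_rep_snd t (f := fun ω => Q ω ^ (4 * p)) (hQm.pow_const _), integral_const,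
    probReal_univ, one_smul]
  refine (mul_le_mul_of_nonneg_left (add_le_add
    (mul_le_mul_of_nonneg_left (add_le_add (mT 0 i (Nat.zero_le _) hi.le) (mT (i + 1) k hi le_rfl))
      (by positivity))
    (mul_le_mul_of_nonneg_left (add_le_add mb (mul_le_mul_of_nonneg_left (add_le_add mQ mQ)
      (by positivity))) (by positivity))) (by positivity)).trans (le_of_eq ?_)
  ring

lemma psiW_sub_sq_le (hθ : |θ| < 1) {a b : ℝ} (ha : |a| ≤ 1) (hb : |b| ≤ 1) :
    (psiW θ a - psiW θ b) ^ 2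
      ≤ 16 / (1 - θ ^ 2) ^ 2 * ((a ^ 2 + b ^ 2) / 2) * ((a - b) ^ 2 / 4) := by
  have h1 := pow_le_pow_left₀ (abs_nonneg _) (sub_edgeWt_le hθ ha hb) 2
  rw [sq_abs, div_pow, mul_pow, sq_abs] at h1
  have e : (psiW θ a - psiW θ b) ^ 2 = (edgeWt θ a - edgeWt θ b) ^ 2 := by
    simp only [psiW]; ring
  rw [e]
  refine h1.trans (le_trans (div_le_div_of_nonneg_right (mul_le_mul_of_nonneg_left
    (show (|a| + |b|) ^ 2 ≤ 2 * (a ^ 2 + b ^ 2) by
      have := add_sq_le (a := |a|) (b := |b|)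
      rwa [sq_abs, sq_abs] at this) (sq_nonneg _)) (sq_nonneg _)) (le_of_eq ?_))
  ring

/-- The change of one loss between the copies, damped by a further weight. -/
theorem weighted_diff [Countable V] (h : Reg G d) (hd : 3 ≤ d) (hν : HasMarginals G θ ν)
    (hθ : |θ| < 1) (hc : bn d * θ ^ 2 = 1) (p : ℕ) (hp : 1 ≤ p) :
    ∃ C, 0 ≤ C ∧ ∀ x0 p0, G.Adj x0 p0 → ∀ t, 0 < t → ∀ x y, G.Adj x y → ∀ v, ∀ κ : ℝ, 0 < κ →
      ∀ (W : Omega V × Omega V → ℝ) (e Cw : ℝ), Measurable W → (∀ z, 0 ≤ W z ∧ W z ≤ 1) →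
        0 < e → 0 ≤ Cw → (∫ z, W z ^ (2 * p) ∂rep G θ ν t ≤ Cw * e ^ (2 * p)) →
        ∫ z, (psiE ν G θ t x y z.1 - psiE ν G θ t x y z.2) ^ 2 * W z ∂rep G θ ν t
          ≤ C * (Cw + 1) * (qe ν G t x0 p0 * e) * (κ * amb G θ ν t v + (κ ^ (p - 1))⁻¹) := by
  obtain ⟨Cm, hCm, hmom⟩ := mom_le_pow h hd hν hθ hc (2 * p)
  obtain ⟨C1, hC1, hrep⟩ := replica_msg h hν hθ
  obtain ⟨c0, C0, hc0, -, hqb⟩ := qe_bounds h hd hν hθ hc
  have h2 : (0 : ℝ) < 1 - θ ^ 2 := by linarith [(sq_lt_one_iff_abs_lt_one θ).2 hθ]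
  refine ⟨16 / (1 - θ ^ 2) ^ 2 * (2 * Cm + 1) * (C1 / 4 + 1), by positivity,
    fun x0 p0 hx0 t ht x y hxy v κ hκ W e Cw hWm hW he hCw hWp => ?_⟩
  set q := qe ν G t x0 p0 with hq
  have hq0 : 0 < q := lt_of_lt_of_le (mul_pos hc0 (Real.sqrt_pos.2 (lt_min ht one_pos)))
    (hqb x0 p0 hx0 t ht).1
  set a : Omega V → ℝ := msg ν G t Set.univ x y with ha
  have hab : ∀ ω, |a ω| ≤ 1 := abs_msg_le t _ x y
  have ha2 : ∀ ω, a ω ^ 2 ≤ 1 := fun ω => (sq_le_one_iff_abs_le_one _).2 (hab ω)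
  set A : Omega V × Omega V → ℝ := fun z => (a z.1 ^ 2 + a z.2 ^ 2) / 2 with hA
  set X : Omega V × Omega V → ℝ := fun z => A z * W z with hX
  set Z : Omega V × Omega V → ℝ := fun z => (a z.1 - a z.2) ^ 2 / 4 with hZ
  have hA0 : ∀ z, 0 ≤ A z := fun z => by simp only [hA]; positivity
  have hA1 : ∀ z, A z ≤ 1 := fun z => by simp only [hA]; linarith [ha2 z.1, ha2 z.2]
  have hX0 : ∀ z, 0 ≤ X z := fun z => mul_nonneg (hA0 z) (hW z).1
  have hX1 : ∀ z, X z ≤ 1 := fun z => mul_le_one₀ (hA1 z) (hW z).1 (hW z).2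
  have hXm : Measurable X := by simp only [hX, hA, ha]; fun_prop
  have hZm : Measurable Z := by simp only [hZ, ha]; fun_prop
  have hZ0 : ∀ z, 0 ≤ Z z := fun z => div_nonneg (sq_nonneg _) (by norm_num)
  have hZ1 : ∀ z, Z z ≤ 1 := fun z => by
    simp only [hZ]
    rw [div_le_one (by norm_num)]
    exact (le_abs_self _).trans (abs_sq_sub_le (hab _) (hab _))
  set M := (2 * Cm + Cw + 1) * (q * e) with hM
  have hM0 : 0 < M := by positivity
  have hma : ∀ i, Integrable (fun ω => a ω ^ (2 * i)) (probM ν) := fun i => integrable_mu_pow t _ _ _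
  have hmom' : ∫ ω, a ω ^ (2 * (2 * p)) ∂probM ν ≤ Cm * q ^ (2 * p) := by
    have h1 := hmom x y hxy t ht
    rw [qe_eq h hν hxy hx0 t, mom] at h1
    simpa only [ha, msg_univ] using h1
  have hmomX : ∫ z, X z ^ p ∂rep G θ ν t ≤ M ^ p := by
    set l := e ^ p / q ^ p with hl
    have hl0 : 0 < l := by positivity
    have hpt : ∀ z, X z ^ p ≤ (l * (a z.1 ^ (2 * (2 * p)) + a z.2 ^ (2 * (2 * p)))
        + W z ^ (2 * p) / l) / 2 := by
      intro z
      have k1 : A z ^ (2 * p) ≤ a z.1 ^ (2 * (2 * p)) + a z.2 ^ (2 * (2 * p)) := by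
        rw [pow_mul (a z.1) 2 (2 * p), pow_mul (a z.2) 2 (2 * p)]
        have u0 : ∀ ω, 0 ≤ (a ω ^ 2) ^ (2 * p) := fun ω => by positivity
        rcases le_total (a z.1 ^ 2) (a z.2 ^ 2) with h3 | h3
        · exact (pow_le_pow_left₀ (hA0 z) (show (a z.1 ^ 2 + a z.2 ^ 2) / 2 ≤ a z.2 ^ 2 by linarith)
            _).trans (le_add_of_nonneg_left (u0 _))
        · exact (pow_le_pow_left₀ (hA0 z) (show (a z.1 ^ 2 + a z.2 ^ 2) / 2 ≤ a z.1 ^ 2 by linarith)
            _).trans (le_add_of_nonneg_right (u0 _))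
      have k2 : X z ^ p ≤ (l * A z ^ (2 * p) + W z ^ (2 * p) / l) / 2 := by
        simp only [hX, mul_pow, two_mul p, pow_add]
        rw [le_div_iff₀ two_pos, ← sub_nonneg]
        have : 0 ≤ (l * A z ^ p - W z ^ p) ^ 2 / l := by positivity
        refine this.trans (le_of_eq ?_)
        field_simp
        ring
      exact k2.trans (by linarith [mul_le_mul_of_nonneg_left k1 hl0.le])
    have i1 : Integrable (fun z : Omega V × Omega V => a z.1 ^ (2 * (2 * p))) (rep G θ ν t) :=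
      (MeasurePreserving.mk measurable_fst (rep_fst t)).integrable_comp_of_integrable (hma _)
    have i2 : Integrable (fun z : Omega V × Omega V => a z.2 ^ (2 * (2 * p))) (rep G θ ν t) :=
      (MeasurePreserving.mk measurable_snd (rep_snd t)).integrable_comp_of_integrable (hma _)
    have i3 : Integrable (fun z => W z ^ (2 * p)) (rep G θ ν t) :=
      integrable_bdd (hWm.pow_const _) (C := 1) fun z => by
        rw [abs_pow, abs_of_nonneg (hW z).1]; exact pow_le_one₀ (hW z).1 (hW z).2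
    refine (integral_mono_of_nonneg (Eventually.of_forall fun z => pow_nonneg (hX0 z) p)
      ((((i1.add i2).const_mul l).add (i3.div_const l)).div_const 2)
      (Eventually.of_forall hpt)).trans ?_
    rw [integral_div, integral_add' ((i1.add i2).const_mul l) (i3.div_const l), integral_const_mul,
      integral_div]
    simp only [Pi.add_apply]
    rw [integral_add i1 i2, integral_rep_fst t (f := fun ω => a ω ^ (2 * (2 * p)))
        ((measurable_msg t _ x y).pow_const _),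
      integral_rep_snd t (f := fun ω => a ω ^ (2 * (2 * p))) ((measurable_msg t _ x y).pow_const _)]
    have e1 : l * q ^ (2 * p) = (q * e) ^ p := by
      rw [hl, two_mul p, pow_add, mul_pow]; field_simp
    have e2 : e ^ (2 * p) / l = (q * e) ^ p := by
      rw [hl, two_mul p, pow_add, mul_pow]; field_simp
    have k3 := mul_le_mul_of_nonneg_left hmom' hl0.le
    have k4 := div_le_div_of_nonneg_right hWp hl0.le
    rw [mul_left_comm l Cm, e1] at k3
    rw [mul_div_assoc, e2] at k4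
    have hqe : 0 ≤ (q * e) ^ p := by positivity
    have k5 : (2 * Cm + Cw + 1) * (q * e) ^ p ≤ M ^ p := by
      rw [hM, mul_pow (2 * Cm + Cw + 1)]
      exact mul_le_mul_of_nonneg_right (le_self_pow₀ (show (1 : ℝ) ≤ 2 * Cm + Cw + 1 by linarith)
        (show p ≠ 0 by omega)) hqe
    nlinarith [mul_nonneg hCw hqe]
  have main := split_scaled (μ := rep G θ ν t) (X := X) (Z := Z)
    (integrable_bdd hXm (C := 1) fun z => by rw [abs_of_nonneg (hX0 z)]; exact hX1 z)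
    (integrable_bdd (hXm.pow_const _) (C := 1) fun z => by
      rw [abs_pow, abs_of_nonneg (hX0 z)]; exact pow_le_one₀ (hX0 z) (hX1 z))
    (integrable_bdd hZm (C := 1) fun z => by rw [abs_of_nonneg (hZ0 z)]; exact hZ1 z)
    (integrable_bdd (hXm.mul hZm) (C := 1) fun z => by
      rw [abs_mul, abs_of_nonneg (hX0 z), abs_of_nonneg (hZ0 z)]
      exact mul_le_one₀ (hX1 z) (hZ0 z) (hZ1 z))
    hX0 hZ0 hZ1 hp hM0 hκ hmomX
  have hZle : ∫ z, Z z ∂rep G θ ν t ≤ (C1 / 4) * amb G θ ν t v := by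
    simp only [hZ, ha]
    rw [integral_div, amb_eq h hν hθ t v x]
    linarith [hrep t x y hxy]
  have hκ' : 0 ≤ (κ ^ (p - 1))⁻¹ := by positivity
  have hamb := amb_nonneg (G := G) (θ := θ) (ν := ν) t v
  have hin : κ * ∫ z, Z z ∂rep G θ ν t + (κ ^ (p - 1))⁻¹
      ≤ (C1 / 4 + 1) * (κ * amb G θ ν t v + (κ ^ (p - 1))⁻¹) := by
    linarith [mul_le_mul_of_nonneg_left hZle hκ.le, mul_nonneg hκ.le hamb,
      mul_nonneg hC1 hκ']
  have hpt : ∀ z, (psiE ν G θ t x y z.1 - psiE ν G θ t x y z.2) ^ 2 * W z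
      ≤ 16 / (1 - θ ^ 2) ^ 2 * (X z * Z z) := fun z => by
    refine (mul_le_mul_of_nonneg_right (psiW_sub_sq_le hθ (hab z.1) (hab z.2)) (hW z).1).trans
      (le_of_eq ?_)
    simp only [hX, hA, hZ]; ring
  refine (integral_mono_of_nonneg (Eventually.of_forall fun z => mul_nonneg (sq_nonneg _) (hW z).1)
    ((integrable_bdd (hXm.mul hZm) (C := 1) fun z => by
      rw [Pi.mul_apply, abs_mul, abs_of_nonneg (hX0 z), abs_of_nonneg (hZ0 z)]
      exact mul_le_one₀ (hX1 z) (hZ0 z) (hZ1 z)).const_mul _) (Eventually.of_forall hpt)).trans ?_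
  rw [integral_const_mul]
  refine (mul_le_mul_of_nonneg_left (main.trans (mul_le_mul_of_nonneg_left hin hM0.le))
    (by positivity)).trans ?_
  have hM2 : M ≤ (2 * Cm + 1) * (Cw + 1) * (q * e) := by
    rw [hM]
    exact mul_le_mul_of_nonneg_right (by nlinarith [mul_nonneg hCm hCw]) (by positivity)
  calc 16 / (1 - θ ^ 2) ^ 2 * (M * ((C1 / 4 + 1) * (κ * amb G θ ν t v + (κ ^ (p - 1))⁻¹)))
      ≤ 16 / (1 - θ ^ 2) ^ 2 * ((2 * Cm + 1) * (Cw + 1) * (q * e)
          * ((C1 / 4 + 1) * (κ * amb G θ ν t v + (κ ^ (p - 1))⁻¹))) := by gcongr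
    _ = _ := by ring

/-- The change of a product of weights between the copies. -/
theorem prod_diff_le [Countable V] (h : Reg G d) (hd : 3 ≤ d) (hν : HasMarginals G θ ν)
    (hθ : |θ| < 1) (hc : bn d * θ ^ 2 = 1) (p : ℕ) (hp : 1 ≤ p) :
    ∃ C, 0 ≤ C ∧ ∀ x0 p0, G.Adj x0 p0 → ∀ t, 0 < t → ∀ κ : ℝ, 0 < κ → ∀ L : ℕ, 1 ≤ L →
      ∀ y k, Geo G y k → ∀ K : ℕ, k ≤ K → ∀ v,
      ∫ z, ((∏ i ∈ Finset.range k, edgeWt θ (msg ν G t Set.univ (y i) (y (i + 1)) z.1))
          - ∏ i ∈ Finset.range k, edgeWt θ (msg ν G t Set.univ (y i) (y (i + 1)) z.2)) ^ 2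
          ∂rep G θ ν t
        ≤ C * (((K : ℝ) + 1) * qe ν G t x0 p0
            + ((K : ℝ) + 1) ^ 2 * qe ν G t x0 p0 * refErr θ L K (qe ν G t x0 p0))
          * (κ * amb G θ ν t v + (κ ^ (p - 1))⁻¹) := by
  obtain ⟨Cv, hCv, hvar⟩ := psi_rep_variance h hd hν hθ hc
  obtain ⟨Cd, hCd, hdiff⟩ := weighted_diff h hd hν hθ hc p hp
  obtain ⟨Cu, hCu, hU⟩ := weight_moment h hd hν hθ hc p hp
  obtain ⟨c0, C0, hc0, -, hqb⟩ := qe_bounds h hd hν hθ hc
  refine ⟨2 * (Cv * (Cd * 2)) + 2 * (Cd * (Cu + 1)), by positivity,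
    fun x0 p0 hx0 t ht κ hκ L hL y k hy K hkK v => ?_⟩
  set q := qe ν G t x0 p0 with hq
  have hq0 : 0 < q := lt_of_lt_of_le (mul_pos hc0 (Real.sqrt_pos.2 (lt_min ht one_pos)))
    (hqb x0 p0 hx0 t ht).1
  set e := refErr θ L K q with he
  have he0 : 0 < e := lt_of_lt_of_le (pow_pos hq0 2) (refErr_ge θ L K q).2.2.2
  set E := κ * amb G θ ν t v + (κ ^ (p - 1))⁻¹ with hE
  have hE0 : 0 ≤ E := by
    have := amb_nonneg (G := G) (θ := θ) (ν := ν) t v
    positivity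
  set c := Real.exp (-((k : ℝ) * psiBar ν G θ t x0 p0)) with hc'
  have hc00 : 0 ≤ c := (Real.exp_pos _).le
  have hc1 : c ≤ 1 := Real.exp_le_one_iff.2 (neg_nonpos.2 (mul_nonneg (Nat.cast_nonneg k)
    (integral_nonneg fun ω => psiW_nonneg hθ (abs_msg_le _ _ _ _ _))))
  set w : ℕ → Omega V → ℝ := fun i ω => edgeWt θ (msg ν G t Set.univ (y i) (y (i + 1)) ω) with hw
  have hw0 : ∀ i ω, 0 ≤ w i ω := fun i ω => edgeWt_nonneg hθ (abs_msg_le _ _ _ _ _)
  have hw1 : ∀ i ω, w i ω ≤ 1 := fun i ω => edgeWt_le_one hθ (abs_msg_le _ _ _ _ _)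
  set a : ℕ → Omega V × Omega V → ℝ := fun i z =>
    (∏ j ∈ Finset.range i, w j z.1) * ∏ j ∈ Finset.Ico (i + 1) k, w j z.2 with ha
  have ham : ∀ i, Measurable (a i) := fun i => by
    simp only [ha, hw]
    exact ((Finset.measurable_prod _ fun j _ => (measurable_edgeWt θ).comp
      (measurable_msg t _ _ _)).comp measurable_fst).mul
      ((Finset.measurable_prod _ fun j _ => (measurable_edgeWt θ).comp
        (measurable_msg t _ _ _)).comp measurable_snd)
  have ha01 : ∀ i z, 0 ≤ a i z ∧ a i z ≤ 1 := fun i z =>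
    ⟨mul_nonneg (Finset.prod_nonneg fun j _ => hw0 j _) (Finset.prod_nonneg fun j _ => hw0 j _),
      mul_le_one₀ (Finset.prod_le_one (fun j _ => hw0 j _) fun j _ => hw1 j _)
        (Finset.prod_nonneg fun j _ => hw0 j _)
        (Finset.prod_le_one (fun j _ => hw0 j _) fun j _ => hw1 j _)⟩
  set δ : ℕ → Omega V × Omega V → ℝ := fun i z =>
    psiE ν G θ t (y i) (y (i + 1)) z.1 - psiE ν G θ t (y i) (y (i + 1)) z.2 with hδ
  have hδm : ∀ i, Measurable (δ i) := fun i => by simp only [hδ]; fun_prop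
  have hδb : ∀ i z, |δ i z| ≤ 2 := fun i z => (abs_sub _ _).trans
    ((add_le_add (abs_psiE_le hθ _ _ _ _) (abs_psiE_le hθ _ _ _ _)).trans (by norm_num))
  have hpt : ∀ z : Omega V × Omega V,
      ((∏ i ∈ Finset.range k, w i z.1) - ∏ i ∈ Finset.range k, w i z.2) ^ 2
      ≤ 2 * (∑ i ∈ Finset.range k, δ i z) ^ 2
        + 2 * ((k : ℝ) * ∑ i ∈ Finset.range k, δ i z ^ 2 * (a i z - c) ^ 2) := by
    intro z
    have e1 : ((∏ i ∈ Finset.range k, w i z.1) - ∏ i ∈ Finset.range k, w i z.2)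
        = -(c * (∑ i ∈ Finset.range k, δ i z) + ∑ i ∈ Finset.range k, δ i z * (a i z - c)) := by
      rw [prod_range_sub, Finset.mul_sum, ← Finset.sum_add_distrib, ← Finset.sum_neg_distrib]
      refine Finset.sum_congr rfl fun i _ => ?_
      simp only [hδ, ha, hw, psiE, psiW]
      ring
    rw [e1, neg_sq]
    refine (add_sq_le).trans ?_
    rw [mul_add]
    refine add_le_add (mul_le_mul_of_nonneg_left ?_ zero_le_two)
      (mul_le_mul_of_nonneg_left ?_ zero_le_two)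
    · rw [mul_pow]
      exact mul_le_of_le_one_left (sq_nonneg _) (pow_le_one₀ hc00 hc1)
    · refine sq_sum_le_card_mul_sum_sq.trans (le_of_eq ?_)
      rw [Finset.card_range]
      simp only [mul_pow]
  have hW01 : ∀ i z, 0 ≤ (a i z - c) ^ 2 ∧ (a i z - c) ^ 2 ≤ 1 := fun i z =>
    ⟨sq_nonneg _, by
      rw [sq_le_one_iff_abs_le_one, abs_le]
      obtain ⟨u, v⟩ := ha01 i z
      constructor <;> linarith⟩
  have i1 : Integrable (fun z => (∑ i ∈ Finset.range k, δ i z) ^ 2) (rep G θ ν t) :=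
    integrable_bdd ((Finset.measurable_sum _ fun i _ => hδm i).pow_const 2) (C := ((k : ℝ) * 2) ^ 2)
      fun z => by
      rw [abs_pow]
      refine pow_le_pow_left₀ (abs_nonneg _) ((Finset.abs_sum_le_sum_abs _ _).trans
        ((Finset.sum_le_card_nsmul _ _ 2 fun i _ => hδb i z).trans (le_of_eq ?_))) 2
      rw [Finset.card_range, nsmul_eq_mul]
  have i2 : ∀ i, Integrable (fun z => δ i z ^ 2 * (a i z - c) ^ 2) (rep G θ ν t) := fun i =>
    integrable_bdd (((hδm i).pow_const 2).mul (((ham i).sub_const c).pow_const 2)) (C := 2 ^ 2 * 1)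
      fun z => by
      rw [abs_mul, abs_pow, abs_of_nonneg (hW01 i z).1]
      exact mul_le_mul (pow_le_pow_left₀ (abs_nonneg _) (hδb i z) 2) (hW01 i z).2 (hW01 i z).1
        (by norm_num)
  refine (integral_mono_of_nonneg (Eventually.of_forall fun z => sq_nonneg _)
    ((i1.const_mul 2).add (((integrable_finsetSum _ fun i _ => i2 i).const_mul _).const_mul 2))
    (Eventually.of_forall hpt)).trans ?_
  rw [integral_add' (i1.const_mul 2) (((integrable_finsetSum _ fun i _ => i2 i).const_mul _).const_mul 2),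
    integral_const_mul, integral_const_mul, integral_const_mul,
    integral_finsetSum _ fun i _ => i2 i]
  have h1 : ∫ z, (∑ i ∈ Finset.range k, δ i z) ^ 2 ∂rep G θ ν t
      ≤ Cv * (k : ℝ) * (Cd * 2 * q * E) := by
    refine (hvar t x0 p0 hx0 y k hy).trans (mul_le_mul_of_nonneg_left ?_ (by positivity))
    have := hdiff x0 p0 hx0 t ht x0 p0 hx0 v κ hκ (fun _ => 1) 1 1 measurable_const
      (fun _ => ⟨zero_le_one, le_rfl⟩) one_pos zero_le_one (by simp)
    simp only [mul_one] at this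
    exact this.trans (le_of_eq (by rw [hE]; ring))
  have h2 : ∀ i ∈ Finset.range k, ∫ z, δ i z ^ 2 * (a i z - c) ^ 2 ∂rep G θ ν t
      ≤ Cd * (Cu + 1) * (q * e) * E := by
    intro i hi
    rw [Finset.mem_range] at hi
    refine hdiff x0 p0 hx0 t ht _ _ (hy.1 i hi) v κ hκ (fun z => (a i z - c) ^ 2) e Cu
      (((ham i).sub_const c).pow_const 2) (hW01 i) he0 hCu ?_
    simp only [← pow_mul, show 2 * (2 * p) = 4 * p by ring]
    exact hU x0 p0 hx0 t ht L hL y k hy K hkK i hi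
  have h3 : ∑ i ∈ Finset.range k, ∫ z, δ i z ^ 2 * (a i z - c) ^ 2 ∂rep G θ ν t
      ≤ (k : ℝ) * (Cd * (Cu + 1) * (q * e) * E) := by
    refine (Finset.sum_le_card_nsmul _ _ _ h2).trans (le_of_eq ?_)
    rw [Finset.card_range, nsmul_eq_mul]
  have hk1 : (k : ℝ) ≤ (K : ℝ) + 1 := by
    have : (k : ℝ) ≤ K := by exact_mod_cast hkK
    linarith
  have hk2 : (k : ℝ) * k ≤ ((K : ℝ) + 1) ^ 2 := by rw [sq]; gcongr
  calc 2 * ∫ z, (∑ i ∈ Finset.range k, δ i z) ^ 2 ∂rep G θ ν t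
        + 2 * ((k : ℝ) * ∑ i ∈ Finset.range k, ∫ z, δ i z ^ 2 * (a i z - c) ^ 2 ∂rep G θ ν t)
      ≤ 2 * (Cv * (k : ℝ) * (Cd * 2 * q * E))
        + 2 * ((k : ℝ) * ((k : ℝ) * (Cd * (Cu + 1) * (q * e) * E))) := by gcongr
    _ = 2 * (Cv * (Cd * 2)) * ((k : ℝ) * q * E) + 2 * (Cd * (Cu + 1)) * ((k : ℝ) * k * q * e * E) := by
        ring
    _ ≤ 2 * (Cv * (Cd * 2)) * (((K : ℝ) + 1) * q * E)
        + 2 * (Cd * (Cu + 1)) * (((K : ℝ) + 1) ^ 2 * q * e * E) := by gcongr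
    _ ≤ (2 * (Cv * (Cd * 2)) + 2 * (Cd * (Cu + 1))) * (((K : ℝ) + 1) * q * E)
        + (2 * (Cv * (Cd * 2)) + 2 * (Cd * (Cu + 1))) * (((K : ℝ) + 1) ^ 2 * q * e * E) := by
        gcongr
        · exact le_add_of_nonneg_right (by positivity)
        · exact le_add_of_nonneg_left (by positivity)
    _ = _ := by ring

/-- One covariance, split into the change of the product and of the end factor. -/
lemma halfJ_le_split [Countable V] (h : Reg G d) (hν : HasMarginals G θ ν) (hθ : |θ| < 1)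
    (t : ℝ) {y : ℕ → V} {k : ℕ} (hy : Geo G y k) :
    4 * ∫ ω, (halfJ ν t (y k) (y 0) ω - bE G θ ν t (halfJ ν t (y k) (y 0)) ω) ^ 2 ∂probM ν
      ≤ (θ ^ 2) ^ k * (∫ z, ((∏ i ∈ Finset.range k, edgeWt θ (msg ν G t Set.univ (y i) (y (i + 1)) z.1))
            - ∏ i ∈ Finset.range k, edgeWt θ (msg ν G t Set.univ (y i) (y (i + 1)) z.2)) ^ 2
            ∂rep G θ ν t
          + 4 * ∫ z, upW h θ ν t (y k) (y 0) z.1
              * (mu ν t Set.univ (y k) z.1 - mu ν t Set.univ (y k) z.2) ^ 2 ∂rep G θ ν t) := by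
  rw [halfJ_eq_rep]
  set P : Omega V → ℝ := fun ω =>
    ∏ i ∈ Finset.range k, edgeWt θ (msg ν G t Set.univ (y i) (y (i + 1)) ω) with hP
  have hP0 : ∀ ω, 0 ≤ P ω := fun ω =>
    Finset.prod_nonneg fun i _ => edgeWt_nonneg hθ (abs_msg_le _ _ _ _ _)
  have hP1 : ∀ ω, P ω ≤ 1 := fun ω =>
    Finset.prod_le_one (fun i _ => edgeWt_nonneg hθ (abs_msg_le _ _ _ _ _))
      fun i _ => edgeWt_le_one hθ (abs_msg_le _ _ _ _ _)
  have hPm : Measurable P :=
    Finset.measurable_prod _ fun i _ => (measurable_edgeWt θ).comp (measurable_msg t _ _ _)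
  set U : Omega V × Omega V → ℝ := fun z => (P z.1 - P z.2) ^ 2
  set D : Omega V × Omega V → ℝ := fun z => upW h θ ν t (y k) (y 0) z.1
    * (mu ν t Set.univ (y k) z.1 - mu ν t Set.univ (y k) z.2) ^ 2
  have iU : Integrable U (rep G θ ν t) :=
    integrable_bdd (((hPm.comp measurable_fst).sub (hPm.comp measurable_snd)).pow_const 2) (C := 1)
      fun z => by
      rw [abs_pow]
      refine pow_le_one₀ (abs_nonneg _) (abs_le.2 ⟨?_, ?_⟩) <;>
        linarith [hP0 z.1, hP1 z.1, hP0 z.2, hP1 z.2]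
  have iD : Integrable D (rep G θ ν t) :=
    integrable_bdd (by fun_prop) (C := 1 * 4) fun z => by
      rw [abs_mul, abs_of_nonneg (upW_nonneg h hθ _ _ _ _)]
      exact mul_le_mul (upW_le_one h hθ _ _ _ _) (abs_sq_sub_le (abs_mu_le _ _ _ _)
        (abs_mu_le _ _ _ _)) (abs_nonneg _) zero_le_one
  have hpt : ∀ᵐ z ∂rep G θ ν t,
      (covJ ν t Set.univ (y k) (y 0) z.1 - covJ ν t Set.univ (y k) (y 0) z.2) ^ 2
        ≤ 2 * (θ ^ 2) ^ k * (U z + 4 * D z) := by
    filter_upwards [rep_both (G := G) (θ := θ) t (covJ_path h hν hθ t Set.univ k y hy)] with z q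
    rw [covJ_comm t _ (y k), covJ_comm t _ (y k), q.1, q.2]
    simp only [U, D, upW_eq h hy t z.1]
    set A := P z.1
    set B := P z.2
    set m := mu ν t Set.univ (y k) z.1
    set m' := mu ν t Set.univ (y k) z.2
    have hg : (1 - m' ^ 2) ^ 2 ≤ 1 := pow_le_one₀ (hfac_nonneg t _ _)
      (by linarith [sq_nonneg m'])
    have hm : (m + m') ^ 2 ≤ 4 := by
      obtain ⟨u1, u2⟩ := abs_le.1 (abs_mu_le (ν := ν) t Set.univ (y k) z.1)
      obtain ⟨u3, u4⟩ := abs_le.1 (abs_mu_le (ν := ν) t Set.univ (y k) z.2)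
      nlinarith
    have k1 : ((A - B) * (1 - m' ^ 2)) ^ 2 ≤ (A - B) ^ 2 := by
      rw [mul_pow]; exact mul_le_of_le_one_right (sq_nonneg _) hg
    have k2 : (A * ((1 - m ^ 2) - (1 - m' ^ 2))) ^ 2 ≤ A * (4 * (m - m') ^ 2) := by
      rw [show ((1 - m ^ 2) - (1 - m' ^ 2)) = -((m - m') * (m + m')) by ring, mul_pow, neg_sq,
        mul_pow, mul_comm ((m - m') ^ 2)]
      exact mul_le_mul ((sq A).trans_le (mul_le_of_le_one_left (hP0 _) (hP1 _)))
        (mul_le_mul_of_nonneg_right hm (sq_nonneg _)) (by positivity) (hP0 _)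
    calc _ = (θ ^ 2) ^ k * ((A - B) * (1 - m' ^ 2) + A * ((1 - m ^ 2) - (1 - m' ^ 2))) ^ 2 := by
          rw [← pow_mul, mul_comm 2, pow_mul]; ring
      _ ≤ (θ ^ 2) ^ k * (2 * (((A - B) * (1 - m' ^ 2)) ^ 2
            + (A * ((1 - m ^ 2) - (1 - m' ^ 2))) ^ 2)) :=
          mul_le_mul_of_nonneg_left add_sq_le (pow_nonneg (sq_nonneg θ) k)
      _ ≤ (θ ^ 2) ^ k * (2 * ((A - B) ^ 2 + A * (4 * (m - m') ^ 2))) := by gcongr
      _ = _ := by ring
  refine (div_le_div_of_nonneg_right (integral_mono_of_nonneg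
    (Eventually.of_forall fun _ => sq_nonneg _) ((iU.add (iD.const_mul 4)).const_mul _) hpt)
    zero_le_two).trans (le_of_eq ?_)
  simp only [Pi.add_apply]
  rw [integral_const_mul, integral_add iU (iD.const_mul 4), integral_const_mul]
  ring

/-- The refined bound on the conditional variance of the posterior covariances. -/
theorem refined_bound [Countable V] (h : Reg G d) (hd : 3 ≤ d) (hν : HasMarginals G θ ν)
    (hθ : |θ| < 1) (hc : bn d * θ ^ 2 = 1) (p : ℕ) (hp : 1 ≤ p) :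
    ∃ C, 0 ≤ C ∧ ∀ x0 p0, G.Adj x0 p0 → ∀ t, 0 < t → ∀ κ : ℝ, 0 < κ → ∀ L : ℕ, 1 ≤ L →
      ∀ (K : ℕ) (v : V),
      ∑ u ∈ h.ball v K, 4 * ∫ ω, (halfJ ν t v u ω - bE G θ ν t (halfJ ν t v u) ω) ^ 2 ∂probM ν
        ≤ C * (1 / qe ν G t x0 p0 + ((K : ℝ) + 1) ^ 2 * qe ν G t x0 p0
            + ((K : ℝ) + 1) ^ 3 * qe ν G t x0 p0
              * (((L : ℝ) + 1) ^ 2 * ((K : ℝ) + 1) * qe ν G t x0 p0 ^ 2
                + (((K : ℝ) + 1) * forgetRate θ ^ L) ^ 2
                + (((K : ℝ) + 1) * qe ν G t x0 p0 ^ 2) ^ 2))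
          * (κ * amb G θ ν t v + (κ ^ (p - 1))⁻¹) := by
  obtain ⟨CP, hCP, hprod⟩ := prod_diff_le h hd hν hθ hc p hp
  obtain ⟨CA, hCA, hmom⟩ := Asum_moment h hd hν hθ hc
  obtain ⟨c0, C0, hc0, -, hqb⟩ := qe_bounds h hd hν hθ hc
  have hlp : 0 ≤ Real.log p := Real.log_nonneg (by exact_mod_cast hp)
  refine ⟨2 * CP + 4 * (24 * ((CA + 1) * (2 + Real.log p))), by positivity,
    fun x0 p0 hx0 t ht κ hκ L hL K v => ?_⟩
  set q := qe ν G t x0 p0 with hq
  have hq0 : 0 < q := lt_of_lt_of_le (mul_pos hc0 (Real.sqrt_pos.2 (lt_min ht one_pos)))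
    (hqb x0 p0 hx0 t ht).1
  have hq1 : 1 ≤ 1 / q := by rw [le_div_iff₀ hq0, one_mul]; exact mom_le_one _ _ _ _
  rw [show ((L : ℝ) + 1) ^ 2 * ((K : ℝ) + 1) * q ^ 2 + (((K : ℝ) + 1) * forgetRate θ ^ L) ^ 2
    + (((K : ℝ) + 1) * q ^ 2) ^ 2 = refErr θ L K q from rfl]
  set e := refErr θ L K q
  have he0 : 0 ≤ e := refErr_nonneg θ L K q
  set E := κ * amb G θ ν t v + (κ ^ (p - 1))⁻¹ with hE
  have hE0 : 0 ≤ E := by
    have := amb_nonneg (G := G) (θ := θ) (ν := ν) t v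
    positivity
  set B := CP * (((K : ℝ) + 1) * q + ((K : ℝ) + 1) ^ 2 * q * e) * E with hB
  have hB0 : 0 ≤ B := by positivity
  set D : Omega V × Omega V → ℝ := fun z =>
    (mu ν t Set.univ v z.1 - mu ν t Set.univ v z.2) ^ 2 with hD
  have hterm : ∀ u ∈ h.ball v K,
      4 * ∫ ω, (halfJ ν t v u ω - bE G θ ν t (halfJ ν t v u) ω) ^ 2 ∂probM ν
        ≤ (θ ^ 2) ^ G.dist v u * B
          + 4 * ∫ z, (θ ^ 2) ^ G.dist v u * upW h θ ν t v u z.1 * D z ∂rep G θ ν t := by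
    intro u hu
    have h1 := halfJ_le_split (θ := θ) (ν := ν) h hν hθ t (ray_geo h v u)
    simp only [ray_last, ray_zero] at h1
    refine h1.trans ?_
    rw [mul_add]
    refine add_le_add (mul_le_mul_of_nonneg_left (hprod x0 p0 hx0 t ht κ hκ L hL _ _ (ray_geo h v u)
      K (h.mem_ball.1 hu) v) (pow_nonneg (sq_nonneg θ) _)) (le_of_eq ?_)
    rw [mul_left_comm, ← integral_const_mul]
    refine congrArg _ (integral_congr_ae (Eventually.of_forall fun z => ?_))
    simp only [hD]; ring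
  refine (Finset.sum_le_sum hterm).trans ?_
  rw [Finset.sum_add_distrib, ← Finset.sum_mul, ← Finset.mul_sum]
  have hs : ∑ u ∈ h.ball v K, (θ ^ 2) ^ G.dist v u ≤ 2 * ((K : ℝ) + 1) := by
    rw [← Finset.sum_fiberwise_of_maps_to (t := Finset.range (K + 1)) (g := G.dist v)
      fun u hu => Finset.mem_range.2 (Nat.lt_succ_of_le (h.mem_ball.1 hu))]
    refine (Finset.sum_le_sum (g := fun _ => (2 : ℝ)) fun k _ => ?_).trans (le_of_eq ?_)
    · rw [Finset.sum_congr rfl (g := fun _ => (θ ^ 2) ^ k) fun u hu => by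
        rw [(Finset.mem_filter.1 hu).2], Finset.sum_const, nsmul_eq_mul]
      refine (mul_le_mul_of_nonneg_right (card_filter_sphere h v K k) (by positivity)).trans
        (le_of_eq ?_)
      rw [mul_assoc, ← mul_pow, hc, one_pow, mul_one]
    · rw [Finset.sum_const, Finset.card_range, nsmul_eq_mul]; push_cast; ring
  set N := (CA + 1) * (2 + Real.log p) with hN
  have hN1 : 1 ≤ N := one_le_mul_of_one_le_of_one_le (by linarith) (by linarith)
  have hM : CA * (1 / q + Real.log p + 1) ≤ N * (1 / q) :=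
    (mul_le_mul_of_nonneg_left (show 1 / q + Real.log p + 1 ≤ (2 + Real.log p) * (1 / q) by
      nlinarith [mul_le_mul_of_nonneg_left hq1 hlp]) hCA).trans (by
      rw [hN, ← mul_assoc]
      exact mul_le_mul_of_nonneg_right (mul_le_mul_of_nonneg_right (by linarith) (by linarith))
        (by positivity))
  have hend : ∑ u ∈ h.ball v K, ∫ z, (θ ^ 2) ^ G.dist v u * upW h θ ν t v u z.1 * D z ∂rep G θ ν t
      ≤ 24 * (N * (1 / q)) * E := by
    have iu : ∀ u, Integrable (fun z : Omega V × Omega V =>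
        (θ ^ 2) ^ G.dist v u * upW h θ ν t v u z.1 * D z) (rep G θ ν t) := fun u =>
      integrable_bdd (by fun_prop) (C := (θ ^ 2) ^ G.dist v u * 1 * 4) fun z => by
        have h0 : (0 : ℝ) ≤ (θ ^ 2) ^ G.dist v u := pow_nonneg (sq_nonneg θ) _
        rw [abs_mul, abs_mul, abs_of_nonneg h0, abs_of_nonneg (upW_nonneg h hθ _ _ _ _)]
        exact mul_le_mul (mul_le_mul_of_nonneg_left (upW_le_one h hθ _ _ _ _) h0)
          (abs_sq_sub_le (abs_mu_le _ _ _ _) (abs_mu_le _ _ _ _)) (abs_nonneg _) (by positivity)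
    rw [← integral_finsetSum _ fun u _ => iu u]
    refine le_trans (integral_mono (integrable_finsetSum _ fun u _ => iu u)
      (g := fun z => Vsum h θ ν t K v z.1 * D z)
      (integrable_bdd (by fun_prop) (C := (1 + 2 * (K : ℝ)) * 4) fun z => ?_) fun z => ?_) ?_
    · obtain ⟨a, b⟩ := Vsum_bounds (ν := ν) h hd hθ t K v z.1
      rw [abs_mul, abs_of_nonneg (by linarith : 0 ≤ Vsum h θ ν t K v z.1)]
      exact mul_le_mul b (abs_sq_sub_le (abs_mu_le _ _ _ _) (abs_mu_le _ _ _ _))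
        (abs_nonneg _) (by positivity)
    · simp only [← Finset.sum_mul]
      exact mul_le_mul_of_nonneg_right (ball_sum_le h hd hθ hc t K v z.1) (sq_nonneg _)
    · exact end_le h hd hν hθ t K p hp v (one_le_mul_of_one_le_of_one_le hN1 hq1) hκ
        fun a b hab => (hmom x0 p0 hx0 t hq0 p hp K a b hab).trans
          (pow_le_pow_left₀ (by positivity) hM _)
  refine (add_le_add (mul_le_mul_of_nonneg_right hs hB0)
    (mul_le_mul_of_nonneg_left hend zero_le_four)).trans ?_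
  rw [hB]
  set X := ((K : ℝ) + 1) ^ 2 * q with hX
  set Y := ((K : ℝ) + 1) ^ 3 * q * e with hY
  have hX0 : 0 ≤ X := by positivity
  have hY0 : 0 ≤ Y := by positivity
  have hlast : 2 * CP * (X + Y) + 4 * (24 * N) * (1 / q)
      ≤ (2 * CP + 4 * (24 * N)) * (1 / q + X + Y) := by
    have : 0 ≤ 1 / q := by positivity
    nlinarith
  refine le_trans (le_of_eq ?_) (mul_le_mul_of_nonneg_right hlast hE0)
  rw [hX, hY]; ring

end Vale.Agent.P161
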