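import Vale.Agent.P161.Critical.Tail
import Vale.Agent.P161.Critical.Crude
import Vale.Agent.P161.Critical.Lift
import Vale.Agent.P161.Critical.Refined

/-!
The ambiguity left by the innovations vanishes at every time: a Grönwall inequality on dyadic
time grids, rapid decay at small times and polynomially growing losses afterwards. Hence every
spin is a function of the innovations.
-/

open MeasureTheory ProbabilityTheory SimpleGraph Filter
open scoped Topology NNReal

set_option linter.unusedSectionVars false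

namespace Vale.Agent.P161

universe u

variable {V : Type u} [DecidableEq V] {G : SimpleGraph V} [DecidableRel G.Adj] {θ : ℝ} {d : ℕ}
variable {ν : Measure (V → Bool)} [IsProbabilityMeasure ν]

/-- The conditional variance of the covariances inside a ball. -/
noncomputable def ballVar (h : Reg G d) (θ : ℝ) (ν : Measure (V → Bool)) [IsProbabilityMeasure ν]
    (t : ℝ) (K : ℕ) (v : V) : ℝ :=
  ∑ u ∈ h.ball v K, 4 * ∫ ω, (halfJ ν t v u ω - bE G θ ν t (halfJ ν t v u) ω) ^ 2 ∂probM ν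

/-- Grönwall's inequality for the ambiguity. -/
theorem amb_gronwall [Countable V] (h : Reg G d) (hν : HasMarginals G θ ν) (hθ : |θ| < 1) (v : V)
    (K n i0 N : ℕ) {c e : ℝ} (hc : 0 ≤ c) (he : 0 ≤ e)
    (hrate : ∀ r, gt n i0 ≤ r → r ≤ gt n (i0 + N) →
      ballVar h θ ν r K v ≤ c * (amb G θ ν r v + e))
    (htail : ∀ᶠ R in atTop, ∀ r, gt n i0 ≤ r → r ≤ gt n (i0 + N) →
      ∑ u ∈ h.ball v R \ h.ball v K, ∫ ω, covJ ν r (h.ball v R : Set V) v u ω ^ 2 ∂probM ν
        ≤ c * e) :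
    amb G θ ν (gt n (i0 + N)) v + e
      ≤ Real.exp (2 * c * gt n N) * (amb G θ ν (gt n i0) v + e) := by
  set a := amb G θ ν (gt n i0) v + e with ha
  set err : ℕ → ℝ := fun m =>
    10 * (h.ball v K).card * Real.sqrt (mesh (n + m)) * (gt n N + 1) with herr
  have hgN : 0 ≤ gt n N := mul_nonneg (Nat.cast_nonneg _) (mesh_pos n).le
  have hm : ∀ m, amb G θ ν (gt n (i0 + N)) v + e ≤ Real.exp (2 * c * gt n N) * (a + err m) := by
    intro m
    set n' := n + m
    have hΔ : (2 : ℝ) ^ m * mesh n' = mesh n := by rw [mul_comm]; exact mesh_add n m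
    have hgt : ∀ i, gt n' (2 ^ m * i) = gt n i := fun i => by
      simp only [gt, ← hΔ]; push_cast; ring
    set f : ℕ → ℝ := fun j => amb G θ ν (gt n' (2 ^ m * i0 + j)) v + e with hf
    have hΔ0 : 0 < mesh n' := mesh_pos n'
    set S : ℕ → ℝ := fun j => a + err m + 2 * c * mesh n' * ∑ i ∈ Finset.range j, f i with hS
    have hmem : ∀ j ≤ 2 ^ m * N, gt n i0 ≤ gt n' (2 ^ m * i0 + j) ∧
        gt n' (2 ^ m * i0 + j) ≤ gt n (i0 + N) := fun j hj => by
      rw [← hgt, ← hgt]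
      exact ⟨gt_mono n' (Nat.le_add_right _ _), gt_mono n' (by rw [mul_add]; omega)⟩
    have hstep : ∀ j ≤ 2 ^ m * N, f j ≤ S j := by
      intro j hj
      have hτ : ∀ᶠ R in atTop, ∀ r, gt n' (2 ^ m * i0) ≤ r → r ≤ gt n' (2 ^ m * i0 + j) →
          ∑ u ∈ h.ball v R \ h.ball v K, ∫ ω, covJ ν r (h.ball v R : Set V) v u ω ^ 2 ∂probM ν
            ≤ c * e := by
        filter_upwards [htail] with R hR r hr hr'
        exact hR r (by rwa [← hgt i0]) (hr'.trans (hmem j hj).2)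
      have hs := amb_step h hν hθ v (h.ball v K) n' (2 ^ m * i0) j hτ
      have h1 : ∑ i ∈ Finset.range j, mesh n' * ∑ u ∈ h.ball v K,
            4 * ∫ ω, (halfJ ν (gt n' (2 ^ m * i0 + i)) v u ω
              - bE G θ ν (gt n' (2 ^ m * i0 + i)) (halfJ ν (gt n' (2 ^ m * i0 + i)) v u) ω) ^ 2
              ∂probM ν
          ≤ c * mesh n' * ∑ i ∈ Finset.range j, f i := by
        rw [Finset.mul_sum]
        refine Finset.sum_le_sum fun i hi => ?_
        have hi' : i ≤ 2 ^ m * N := (Finset.mem_range.1 hi).le.trans hj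
        have := mul_le_mul_of_nonneg_left (hrate _ (hmem i hi').1 (hmem i hi').2) hΔ0.le
        simp only [ballVar] at this
        simp only [hf]
        linarith
      have h2 : gt n' j * (c * e) ≤ c * mesh n' * ∑ i ∈ Finset.range j, f i := by
        have : (j : ℝ) * e ≤ ∑ i ∈ Finset.range j, f i := by
          have := Finset.card_nsmul_le_sum (Finset.range j) f e fun i _ =>
            le_add_of_nonneg_left (amb_nonneg _ v)
          simpa [nsmul_eq_mul] using this
        refine le_of_eq_of_le ?_ (mul_le_mul_of_nonneg_left this (mul_nonneg hc hΔ0.le))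
        simp only [gt]; ring
      have h3 : 10 * ((h.ball v K).card : ℝ) * Real.sqrt (mesh n') * (gt n' j + 1) ≤ err m := by
        refine mul_le_mul_of_nonneg_left (add_le_add ?_ le_rfl) (by positivity)
        rw [← hgt N]
        exact gt_mono n' hj
      rw [hgt i0] at hs
      simp only [hS, hf, ha] at *
      linarith
    have hexp : ∀ j ≤ 2 ^ m * N, S j ≤ Real.exp (2 * c * mesh n' * j) * (a + err m) := by
      intro j
      induction j with
      | zero => intro _; simp [hS]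
      | succ j ih =>
        intro hj
        have hj' : j ≤ 2 ^ m * N := (Nat.le_succ j).trans hj
        have e1 : S (j + 1) = S j + 2 * c * mesh n' * f j := by
          simp only [hS, Finset.sum_range_succ]; ring
        have hx : 0 ≤ 2 * c * mesh n' := by positivity
        have hf0 : 0 ≤ f j := add_nonneg (amb_nonneg _ v) he
        calc S (j + 1) = S j + 2 * c * mesh n' * f j := e1
          _ ≤ (2 * c * mesh n' + 1) * S j := by
              linarith [mul_le_mul_of_nonneg_left (hstep j hj') hx]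
          _ ≤ Real.exp (2 * c * mesh n') * S j :=
              mul_le_mul_of_nonneg_right (Real.add_one_le_exp _) (hf0.trans (hstep j hj'))
          _ ≤ Real.exp (2 * c * mesh n') * (Real.exp (2 * c * mesh n' * j) * (a + err m)) :=
              mul_le_mul_of_nonneg_left (ih hj') (Real.exp_pos _).le
          _ = _ := by rw [← mul_assoc, ← Real.exp_add]; congr 2; push_cast; ring
    refine le_trans (le_of_eq ?_) ((hstep _ le_rfl).trans ((hexp _ le_rfl).trans (le_of_eq ?_)))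
    · simp only [hf]; rw [← mul_add, hgt]
    · congr 2
      simp only [gt, ← hΔ]
      push_cast
      ring
  have herr0 : Tendsto err atTop (𝓝 0) := by
    have h1 : Tendsto (fun m => mesh (n + m)) atTop (𝓝 0) :=
      (tendsto_pow_atTop_nhds_zero_of_lt_one (by norm_num) (by norm_num)).comp
        (tendsto_atTop_mono (fun m => Nat.le_add_left m n) tendsto_id)
    simpa [herr] using ((((Real.continuous_sqrt.tendsto 0).comp h1).const_mul
      (10 * ((h.ball v K).card : ℝ))).mul_const (gt n N + 1))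
  refine ge_of_tendsto (x := atTop) (f := fun m => Real.exp (2 * c * gt n N) * (a + err m)) ?_
    (Eventually.of_forall hm)
  simpa using (herr0.const_add a).const_mul (Real.exp (2 * c * gt n N))

/-- A power times a geometric sequence is bounded. -/
lemma exists_pow_mul_le (n : ℕ) {r : ℝ} (h0 : 0 ≤ r) (h1 : r < 1) :
    ∃ D, 0 ≤ D ∧ ∀ X : ℕ, (X : ℝ) ^ n * r ^ X ≤ D := by
  obtain ⟨D, hD⟩ := (tendsto_pow_const_mul_const_pow_of_abs_lt_one n
    (by rwa [abs_of_nonneg h0])).bddAbove_range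
  exact ⟨D, le_trans (by positivity) (hD ⟨0, rfl⟩), fun X => hD ⟨X, rfl⟩⟩

/-- The size of the bracket in the refined bound on the time scale `X⁻¹⁶`. -/
lemma bracket_le {c C D X q ρ : ℝ} (hc : 0 < c) (hX : 1 ≤ X) (hq1 : c / X ^ 8 ≤ q)
    (hq2 : q ≤ C / X ^ 8) (hρ0 : 0 ≤ ρ) (hρ : X ^ 12 * ρ ≤ D) :
    1 / q + (X ^ 9 + 1) ^ 2 * q + (X ^ 9 + 1) ^ 3 * q * ((X + 1) ^ 2 * (X ^ 9 + 1) * q ^ 2
        + ((X ^ 9 + 1) * ρ) ^ 2 + ((X ^ 9 + 1) * q ^ 2) ^ 2)
      ≤ (1 / c + 4 * C + 8 * C * (8 * C ^ 2 + 4 * D ^ 2 + 4 * C ^ 4)) * X ^ 14 := by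
  have hX0 : 0 < X := by linarith
  have hq : 0 < q := lt_of_lt_of_le (by positivity) hq1
  have hC : 0 ≤ C := by
    have h1 := hq.le.trans hq2
    rwa [le_div_iff₀ (by positivity), zero_mul] at h1
  have hD : 0 ≤ D := le_trans (by positivity) hρ
  have hK : X ^ 9 + 1 ≤ 2 * X ^ 9 := by linarith [one_le_pow₀ hX (n := 9)]
  have hρ' : ρ ≤ D / X ^ 12 := by rw [le_div_iff₀ (by positivity)]; linarith
  have t1 : 1 / q ≤ 1 / c * X ^ 14 := by
    calc 1 / q ≤ 1 / (c / X ^ 8) := one_div_le_one_div_of_le (by positivity) hq1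
      _ = 1 / c * X ^ 8 := by field_simp
      _ ≤ _ := mul_le_mul_of_nonneg_left (pow_le_pow_right₀ hX (by norm_num)) (by positivity)
  have t2 : (X ^ 9 + 1) ^ 2 * q ≤ 4 * C * X ^ 14 := by
    calc (X ^ 9 + 1) ^ 2 * q ≤ (2 * X ^ 9) ^ 2 * (C / X ^ 8) := by gcongr
      _ = 4 * C * X ^ 10 := by field_simp; ring
      _ ≤ _ := mul_le_mul_of_nonneg_left (pow_le_pow_right₀ hX (by norm_num)) (by positivity)
  have t3 : (X ^ 9 + 1) ^ 3 * q ≤ 8 * C * X ^ 19 := by
    calc (X ^ 9 + 1) ^ 3 * q ≤ (2 * X ^ 9) ^ 3 * (C / X ^ 8) := by gcongr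
      _ = _ := by field_simp; ring
  have s1 : (X + 1) ^ 2 * (X ^ 9 + 1) * q ^ 2 ≤ 8 * C ^ 2 / X ^ 5 := by
    calc (X + 1) ^ 2 * (X ^ 9 + 1) * q ^ 2
        ≤ (2 * X) ^ 2 * (2 * X ^ 9) * (C / X ^ 8) ^ 2 := by gcongr; linarith
      _ = _ := by field_simp; ring
  have s2 : ((X ^ 9 + 1) * ρ) ^ 2 ≤ 4 * D ^ 2 / X ^ 5 := by
    calc ((X ^ 9 + 1) * ρ) ^ 2 ≤ (2 * X ^ 9 * (D / X ^ 12)) ^ 2 := by gcongr
      _ = 4 * D ^ 2 / X ^ 6 := by field_simp; ring
      _ ≤ _ := div_le_div_of_nonneg_left (by positivity) (by positivity)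
          (pow_le_pow_right₀ hX (by norm_num))
  have s3 : ((X ^ 9 + 1) * q ^ 2) ^ 2 ≤ 4 * C ^ 4 / X ^ 5 := by
    calc ((X ^ 9 + 1) * q ^ 2) ^ 2 ≤ (2 * X ^ 9 * (C / X ^ 8) ^ 2) ^ 2 := by gcongr
      _ = 4 * C ^ 4 / X ^ 14 := by field_simp; ring
      _ ≤ _ := div_le_div_of_nonneg_left (by positivity) (by positivity)
          (pow_le_pow_right₀ hX (by norm_num))
  have t4 := mul_le_mul t3 (add_le_add (add_le_add s1 s2) s3) (by positivity) (by positivity)
  refine (add_le_add (add_le_add t1 t2) t4).trans (le_of_eq ?_)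
  field_simp

/-- Rapid decay at small times. -/
theorem amb_small [Countable V] (h : Reg G d) (hd : 3 ≤ d) (hν : HasMarginals G θ ν) (hθ : |θ| < 1)
    (hc : bn d * θ ^ 2 = 1) {x0 p0 : V} (hx0 : G.Adj x0 p0) (v : V) {p : ℕ} (hp : 2 ≤ p)
    {Cr : ℝ} (hCr : 0 ≤ Cr)
    (hR : ∀ t, 0 < t → ∀ κ : ℝ, 0 < κ → ∀ L : ℕ, 1 ≤ L → ∀ K : ℕ,
      ∑ u ∈ h.ball v K, 4 * ∫ ω, (halfJ ν t v u ω - bE G θ ν t (halfJ ν t v u) ω) ^ 2 ∂probM ν
        ≤ Cr * (1 / qe ν G t x0 p0 + ((K : ℝ) + 1) ^ 2 * qe ν G t x0 p0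
          + ((K : ℝ) + 1) ^ 3 * qe ν G t x0 p0
            * (((L : ℝ) + 1) ^ 2 * ((K : ℝ) + 1) * qe ν G t x0 p0 ^ 2
              + (((K : ℝ) + 1) * forgetRate θ ^ L) ^ 2
              + (((K : ℝ) + 1) * qe ν G t x0 p0 ^ 2) ^ 2))
          * (κ * amb G θ ν t v + (κ ^ (p - 1))⁻¹)) :
    ∀ᶠ j in atTop, amb G θ ν (mesh (16 * j)) v ≤ (1 / 2 : ℝ) ^ (j * p) := by
  obtain ⟨c, C, hc0, hC0, hqb⟩ := qe_bounds h hd hν hθ hc
  have hk := kap_pos hθ hc
  set c1 := kap θ * c / 2 with hc1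
  have hc10 : 0 < c1 := by positivity
  obtain ⟨Dρ, hDρ, hρ⟩ := exists_pow_mul_le 12 (forgetRate_nonneg θ) (forgetRate_lt_one hθ)
  obtain ⟨Dp, hDp, hexp⟩ := exists_pow_mul_le p (Real.exp_pos (-c1)).le
    (Real.exp_lt_one_iff.2 (by linarith))
  set C' := C * 2 ^ 8 with hC'
  set B := Cr * (1 / c + 4 * C' + 8 * C' * (8 * C' ^ 2 + 4 * Dρ ^ 2 + 4 * C' ^ 4))
    + 3 * Dp / c1 with hB
  have hB0 : 0 ≤ B := by positivity
  have hsqrt : ∀ i, Real.sqrt (mesh (16 * i)) = mesh (8 * i) := fun i => by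
    rw [show mesh (16 * i) = mesh (8 * i) ^ 2 by
      unfold mesh; rw [← pow_mul]; congr 1; ring, Real.sqrt_sq (mesh_pos _).le]
  -- one block
  have hblock : ∀ᶠ j in atTop, amb G θ ν (mesh (16 * j)) v
      ≤ 2 * amb G θ ν (mesh (16 * (j + 1))) v + (1 / 2 : ℝ) ^ ((j + 1) * p) := by
    obtain ⟨j0, hj0⟩ := pow_unbounded_of_one_lt (2 ^ 17 * B / Real.log 2) (one_lt_two (α := ℝ))
    filter_upwards [eventually_ge_atTop j0] with j hj
    set n := 16 * (j + 1) with hn
    set Xn : ℕ := 2 ^ (j + 1) with hXn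
    set X : ℝ := (Xn : ℝ) with hX
    have hX1 : 1 ≤ X := by rw [hX, hXn]; push_cast; exact one_le_pow₀ one_le_two
    have hX0 : 0 < X := by linarith
    have hmesh : ∀ k, mesh (k * (j + 1)) = 1 / X ^ k := fun k => by
      rw [hX, hXn, mesh, one_div_pow]; push_cast; rw [← pow_mul, mul_comm k]
    have hb : gt n (1 + (2 ^ 16 - 1)) = mesh (16 * j) := by
      rw [show 1 + (2 ^ 16 - 1) = 2 ^ 16 by norm_num, gt, hn, mul_add, mul_one,
        ← mesh_add (16 * j) 16]
      push_cast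
      ring
    have ha : gt n 1 = mesh n := by simp [gt]
    have hlen : gt n (2 ^ 16 - 1) ≤ 2 ^ 16 / X ^ 16 := by
      rw [gt, hn, hmesh 16, mul_one_div]
      exact div_le_div_of_nonneg_right (by norm_num) (by positivity)
    set e := (1 / 2 : ℝ) ^ ((j + 1) * p) with he
    have heX : e = (X ^ p)⁻¹ := by
      rw [he, hX, hXn, pow_mul, ← inv_pow, one_div_pow]
      push_cast
      rw [one_div]
    have hr2 : ∀ r, mesh n ≤ r → r ≤ mesh (16 * j) →
        c / X ^ 8 ≤ qe ν G r x0 p0 ∧ qe ν G r x0 p0 ≤ C' / X ^ 8 := by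
      intro r h1 h2
      have hr0 : 0 < r := lt_of_lt_of_le (mesh_pos n) h1
      have hm1 : mesh (16 * j) ≤ 1 := pow_le_one₀ (by norm_num) (by norm_num)
      constructor
      · refine le_trans (le_of_eq ?_) (hqb x0 p0 hx0 r hr0).1
          |>.trans' (mul_le_mul_of_nonneg_left (Real.sqrt_le_sqrt h1) hc0.le)
          |>.trans' (le_of_eq ?_)
        · rw [min_eq_left (h2.trans hm1)]
        · rw [hn, hsqrt, hmesh 8, mul_one_div]
      · refine ((qe_mono h2 x0 p0).trans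
          ((hqb x0 p0 hx0 _ (mesh_pos _)).2 hm1)).trans (le_of_eq ?_)
        rw [hsqrt, hC', mul_div_assoc, ← hmesh 8 |>.trans (one_div _) |> fun e8 =>
          show (2 : ℝ) ^ 8 / X ^ 8 = mesh (8 * j) by
            rw [div_eq_mul_inv, ← e8, mul_add, mul_one, ← mesh_add (8 * j) 8, mul_comm]]
    have hgr := amb_gronwall h hν hθ v (Xn ^ 9) n 1 (2 ^ 16 - 1) (c := B * X ^ 15) (e := e)
      (by positivity) (by positivity) ?_ ?_
    · rw [hb, ha] at hgr
      have hx2 : Real.exp (2 * (B * X ^ 15) * gt n (2 ^ 16 - 1)) ≤ 2 := by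
        rw [← Real.le_log_iff_exp_le two_pos] at *
        refine (mul_le_mul_of_nonneg_left hlen (by positivity)).trans ?_
        rw [show 2 * (B * X ^ 15) * (2 ^ 16 / X ^ 16) = 2 ^ 17 * B / X by field_simp,
          div_le_iff₀ hX0]
        rw [div_lt_iff₀ (Real.log_pos one_lt_two)] at hj0
        have : (2 : ℝ) ^ j0 ≤ X := by
          rw [hX, hXn]; push_cast; exact pow_le_pow_right₀ one_le_two (by omega)
        nlinarith [mul_le_mul_of_nonneg_left this (Real.log_pos (one_lt_two (α := ℝ))).le]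
      have h1 := hgr.trans (mul_le_mul_of_nonneg_right hx2
        (add_nonneg (amb_nonneg _ v) (by positivity)))
      linarith
    · intro r h1 h2
      rw [ha] at h1
      rw [hb] at h2
      obtain ⟨hq1, hq2⟩ := hr2 r h1 h2
      have hbr := bracket_le (D := Dρ) (ρ := forgetRate θ ^ Xn) hc0 hX1 hq1 hq2
        (pow_nonneg (forgetRate_nonneg θ) _) (hρ Xn)
      have hR' := hR r (lt_of_lt_of_le (mesh_pos n) h1) X hX0 Xn Nat.one_le_two_pow (Xn ^ 9)
      rw [Nat.cast_pow, ← hX] at hR'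
      have hcut : X * amb G θ ν r v + (X ^ (p - 1))⁻¹ = X * (amb G θ ν r v + e) := by
        rw [heX, mul_add]
        congr 1
        obtain ⟨p', rfl⟩ : ∃ p', p = p' + 1 := ⟨p - 1, by omega⟩
        rw [Nat.add_sub_cancel, pow_succ, mul_inv, mul_comm (X ^ p')⁻¹, ← mul_assoc,
          mul_inv_cancel₀ hX0.ne', one_mul]
      have hamb := amb_nonneg (G := G) (θ := θ) (ν := ν) r v
      have he0 : 0 ≤ e := by positivity
      rw [hcut] at hR'
      refine (show ballVar h θ ν r (Xn ^ 9) v ≤ _ from hR').trans ?_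
      calc _ ≤ Cr * ((1 / c + 4 * C' + 8 * C' * (8 * C' ^ 2 + 4 * Dρ ^ 2 + 4 * C' ^ 4)) * X ^ 14)
            * (X * (amb G θ ν r v + e)) :=
            mul_le_mul_of_nonneg_right (mul_le_mul_of_nonneg_left hbr hCr) (by positivity)
        _ = Cr * (1 / c + 4 * C' + 8 * C' * (8 * C' ^ 2 + 4 * Dρ ^ 2 + 4 * C' ^ 4)) * X ^ 15
            * (amb G θ ν r v + e) := by ring
        _ ≤ _ := mul_le_mul_of_nonneg_right (mul_le_mul_of_nonneg_right
            (le_add_of_nonneg_right (by positivity)) (by positivity)) (by positivity)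
    · have hr1 : c1 / X ^ 8 ≤ kap θ * qe ν G (mesh n) x0 p0 / 2 := by
        have hnj : mesh n ≤ mesh (16 * j) :=
          pow_le_pow_of_le_one (by norm_num) (by norm_num) (by omega)
        have := mul_le_mul_of_nonneg_left (hr2 (mesh n) le_rfl hnj).1 hk.le
        rw [hc1, div_right_comm, mul_div_assoc]
        linarith
      filter_upwards [tail_bound h hd hν hθ hc hx0 (mesh_pos n) (Xn ^ 9) v] with R hR r hr _
      refine (hR r (by rwa [ha] at hr)).trans ?_
      set r1 := kap θ * qe ν G (mesh n) x0 p0 / 2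
      have hr10 : 0 < r1 := lt_of_lt_of_le (by positivity) hr1
      have hr11 : r1 ≤ 1 := by
        have := mul_le_one₀ (kap_le_one hθ) (mom_nonneg (ν := ν) (mesh n) (sideOf G x0 p0) x0 1)
          (mom_le_one _ _ _ _)
        simp only [r1, qe]
        linarith
      have hpow : (1 - r1) ^ Xn ^ 9 ≤ Dp * e := by
        refine (pow_le_pow_left₀ (by linarith) (Real.one_sub_le_exp_neg r1) _).trans ?_
        rw [← Real.exp_nat_mul, heX, ← div_eq_mul_inv, le_div_iff₀ (pow_pos hX0 p)]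
        refine le_trans ?_ (hexp Xn)
        rw [← hX, mul_comm (X ^ p), ← Real.exp_nat_mul, ← hX, Nat.cast_pow, ← hX]
        refine mul_le_mul_of_nonneg_right (Real.exp_le_exp.2 ?_) (by positivity)
        have h3 := mul_le_mul_of_nonneg_left hr1 (pow_nonneg hX0.le 9)
        rw [show X ^ 9 * (c1 / X ^ 8) = X * c1 by field_simp] at h3
        linarith
      calc 3 * (1 - r1) ^ Xn ^ 9 / r1 ≤ 3 * (Dp * e) / (c1 / X ^ 8) :=
            div_le_div₀ (by positivity) (by linarith) (by positivity) hr1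
        _ = 3 * Dp / c1 * X ^ 8 * e := by field_simp
        _ ≤ _ := mul_le_mul_of_nonneg_right (mul_le_mul
            (le_add_of_nonneg_left (by positivity)) (pow_le_pow_right₀ hX1 (by norm_num))
            (by positivity) hB0) (by positivity)
  obtain ⟨j0, hj0⟩ := eventually_atTop.1 hblock
  refine eventually_atTop.2 ⟨j0, fun j hj => ?_⟩
  have hit : ∀ i, ∀ j ≥ j0, amb G θ ν (mesh (16 * j)) v
      ≤ 2 ^ i * amb G θ ν (mesh (16 * (j + i))) v
        + (1 / 2 : ℝ) ^ (j * p) * (1 - (1 / 2) ^ i) := by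
    intro i
    induction i with
    | zero => intro j _; simp
    | succ i ih =>
      intro j hj
      have h1 := hj0 j hj
      have h2 := ih (j + 1) (by omega)
      rw [show j + 1 + i = j + (i + 1) by omega] at h2
      have hq : (1 / 2 : ℝ) ^ ((j + 1) * p) ≤ (1 / 2 : ℝ) ^ (j * p) * (1 / 4) := by
        rw [show (1 / 4 : ℝ) = (1 / 2) ^ 2 by norm_num, ← pow_add]
        exact pow_le_pow_of_le_one (by norm_num) (by norm_num) (by nlinarith)
      have hi0 : 0 ≤ (1 / 2 : ℝ) ^ i := by positivity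
      have hi1 : (1 / 2 : ℝ) ^ i ≤ 1 := pow_le_one₀ (by norm_num) (by norm_num)
      have h3 := mul_le_mul_of_nonneg_right hq (show 0 ≤ 2 * (1 - (1 / 2 : ℝ) ^ i) + 1 by linarith)
      have h4 : 0 ≤ (1 / 2 : ℝ) ^ (j * p) := by positivity
      rw [pow_succ (2 : ℝ), pow_succ (1 / 2 : ℝ) i]
      nlinarith
  have hlim : Tendsto (fun i : ℕ => 2 * C * (1 / 2 : ℝ) ^ i + (1 / 2 : ℝ) ^ (j * p)) atTop
      (𝓝 ((1 / 2 : ℝ) ^ (j * p))) := by
    simpa using ((tendsto_pow_atTop_nhds_zero_of_lt_one (r := (1 / 2 : ℝ)) (by norm_num)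
      (by norm_num)).const_mul (2 * C)).add_const ((1 / 2 : ℝ) ^ (j * p))
  refine ge_of_tendsto hlim (Eventually.of_forall fun i => (hit i j hj).trans (add_le_add ?_ ?_))
  · have hq := (hqb x0 p0 hx0 _ (mesh_pos (16 * (j + i)))).2
      (pow_le_one₀ (by norm_num) (by norm_num))
    rw [hsqrt] at hq
    have hs : (2 : ℝ) ^ i * mesh (8 * (j + i)) ≤ (1 / 2 : ℝ) ^ i := by
      have h2 : mesh (8 * (j + i)) ≤ mesh (i + i) :=
        pow_le_pow_of_le_one (by norm_num) (by norm_num) (by omega)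
      refine (mul_le_mul_of_nonneg_left h2 (by positivity)).trans (le_of_eq ?_)
      rw [mul_comm, mesh_add, mesh]
    calc (2 : ℝ) ^ i * amb G θ ν (mesh (16 * (j + i))) v
        ≤ 2 ^ i * (2 * (C * mesh (8 * (j + i)))) :=
          mul_le_mul_of_nonneg_left
            ((amb_le_qe h hν hθ hx0 _ v).trans (by linarith)) (by positivity)
      _ ≤ _ := by linarith [mul_le_mul_of_nonneg_left hs (show 0 ≤ 2 * C by positivity)]
  · exact mul_le_of_le_one_right (by positivity) (sub_le_self _ (by positivity))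

/-- The ambiguity up to a positive whole time, from an early time. -/
theorem amb_propagate [Countable V] (h : Reg G d) (hd : 3 ≤ d) (hν : HasMarginals G θ ν)
    (hθ : |θ| < 1) (hc : bn d * θ ^ 2 = 1) {x0 p0 : V} (hx0 : G.Adj x0 p0) (v : V) :
    ∃ A, 0 < A ∧ ∀ w i T : ℕ, 1 ≤ T →
      amb G θ ν (T : ℝ) v + (1 / 2 : ℝ) ^ w
        ≤ Real.exp (A * i + A * (T + 1) * (Real.log (w + 2 : ℕ) ^ 2 + 2))
          * (amb G θ ν (mesh i) v + (1 / 2 : ℝ) ^ w) := by
  obtain ⟨c, C, hc0, -, hqb⟩ := qe_bounds h hd hν hθ hc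
  obtain ⟨Cc, hCc, hcrude⟩ := crude_bound h hd hν hθ hc
  have hk := kap_pos hθ hc
  set A0 := 6 * Cc * (1 / c ^ 2 + 1) + 1 with hA0
  have hA00 : 0 < A0 := by positivity
  refine ⟨2 * A0, by positivity, fun w i T hT => ?_⟩
  set e := (1 / 2 : ℝ) ^ w with he
  set Gm := Real.log (w + 2 : ℕ) ^ 2 + 1 with hGm
  have hGm0 : 0 ≤ Gm := by positivity
  have hblock : ∀ n N, 0 < mesh n →
      amb G θ ν (gt n (1 + N)) v + e ≤ Real.exp (2 * (A0 * (1 / min (mesh n) 1 + Gm)) * gt n N)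
        * (amb G θ ν (gt n 1) v + e) := by
    intro n N hn
    set m := min (mesh n) 1
    have hm : 0 < m := lt_min hn one_pos
    have ha : gt n 1 = mesh n := by simp [gt]
    have hq : ∀ r, mesh n ≤ r → c * Real.sqrt m ≤ qe ν G r x0 p0 := fun r hr =>
      (mul_le_mul_of_nonneg_left (Real.sqrt_le_sqrt (min_le_min hr le_rfl)) hc0.le).trans
        (hqb x0 p0 hx0 r (hn.trans_le hr)).1
    have hq0 : 0 < c * Real.sqrt m := mul_pos hc0 (Real.sqrt_pos.2 hm)
    have hr1 : 0 < kap θ * qe ν G (mesh n) x0 p0 / 2 := by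
      have := hq0.trans_le (hq _ le_rfl); positivity
    have hr2 : kap θ * qe ν G (mesh n) x0 p0 / 2 ≤ 1 := by
      have := mul_le_one₀ (kap_le_one hθ) (mom_nonneg (ν := ν) (mesh n) (sideOf G x0 p0) x0 1)
        (mom_le_one _ _ _ _)
      simp only [qe]
      linarith
    have hlim : Tendsto (fun K : ℕ => 3 * (1 - kap θ * qe ν G (mesh n) x0 p0 / 2) ^ K
        / (kap θ * qe ν G (mesh n) x0 p0 / 2)) atTop (𝓝 0) := by
      simpa using ((tendsto_pow_atTop_nhds_zero_of_lt_one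
        (r := 1 - kap θ * qe ν G (mesh n) x0 p0 / 2) (by linarith) (by linarith)).const_mul
        (3 : ℝ)).div_const (kap θ * qe ν G (mesh n) x0 p0 / 2)
    obtain ⟨K, hK⟩ := (hlim.eventually_le_const
      (show 0 < A0 * (1 / m + Gm) * e by positivity)).exists
    refine amb_gronwall h hν hθ v K n 1 N (by positivity) (by positivity) (fun r hr _ => ?_) ?_
    · rw [ha] at hr
      have hqr := hq r hr
      have hb := hcrude x0 p0 hx0 r (hq0.trans_le hqr) (w + 2) (by omega) 2 two_pos K v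
      refine (show ballVar h θ ν r K v ≤ _ from hb).trans ?_
      set q := qe ν G r x0 p0
      set L2 := Real.log ((w + 2 : ℕ) : ℝ)
      have hamb := amb_nonneg (G := G) (θ := θ) (ν := ν) r v
      have h2 : 2 * amb G θ ν r v + ((2 : ℝ) ^ (w + 2 - 1))⁻¹ ≤ 2 * (amb G θ ν r v + e) := by
        rw [show w + 2 - 1 = w + 1 from rfl, pow_succ, mul_inv, he, one_div_pow, one_div]
        linarith [show 0 ≤ ((2 : ℝ) ^ w)⁻¹ by positivity]
      have hM : (1 / q + L2 + 1) ^ 2 ≤ 3 * (1 / c ^ 2 + 1) * (1 / m + Gm) := by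
        have h1 : (1 / q + L2 + 1) ^ 2 ≤ 3 * ((1 / q) ^ 2 + Gm) := by
          rw [hGm]
          nlinarith [sq_nonneg (1 / q - L2), sq_nonneg (1 / q - 1), sq_nonneg (L2 - 1)]
        have h3 : (1 / q) ^ 2 ≤ 1 / c ^ 2 * (1 / m) := by
          calc (1 / q) ^ 2 ≤ (1 / (c * Real.sqrt m)) ^ 2 :=
                pow_le_pow_left₀ (by have := hq0.trans_le hqr; positivity)
                  (one_div_le_one_div_of_le hq0 hqr) 2
            _ = _ := by rw [div_pow, one_pow, mul_pow, Real.sq_sqrt hm.le, one_div_mul_one_div]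
        have h4 : 0 ≤ 1 / c ^ 2 * Gm := by positivity
        have h5 : 0 ≤ 1 / m := by positivity
        linarith
      have hA : Cc * (1 / q + L2 + 1) ^ 2 * 2 ≤ A0 * (1 / m + Gm) := by
        have h6 := mul_le_mul_of_nonneg_left hM hCc
        have h7 : 0 ≤ 1 / m + Gm := by positivity
        rw [hA0, add_mul, one_mul]
        linarith
      refine (mul_le_mul_of_nonneg_left h2 (by positivity)).trans ?_
      rw [← mul_assoc]
      exact mul_le_mul_of_nonneg_right hA (by positivity)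
    · rw [ha]
      filter_upwards [tail_bound h hd hν hθ hc hx0 hn K v] with R hR r hr _
      exact (hR r hr).trans hK
  -- the times before one
  have hsmall : ∀ i, amb G θ ν 1 v + e
      ≤ Real.exp (2 * A0 * (i + Gm * (1 - mesh i))) * (amb G θ ν (mesh i) v + e) := by
    intro i
    induction i with
    | zero => simp [mesh]
    | succ i ih =>
      have hb := hblock (i + 1) 1 (mesh_pos _)
      have hm : mesh (i + 1) ≤ 1 := pow_le_one₀ (by norm_num) (by norm_num)
      rw [show gt (i + 1) (1 + 1) = mesh i by simp [gt, mesh_succ]; ring,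
        show gt (i + 1) 1 = mesh (i + 1) by simp [gt], min_eq_left hm] at hb
      refine (ih.trans (mul_le_mul_of_nonneg_left hb (Real.exp_pos _).le)).trans (le_of_eq ?_)
      rw [← mul_assoc, ← Real.exp_add]
      congr 2
      have := (mesh_pos i).ne'
      rw [mesh_succ]
      field_simp
      push_cast
      ring
  have hlarge := hblock 0 (T - 1) (mesh_pos 0)
  rw [show 1 + (T - 1) = T by omega] at hlarge
  simp only [gt, mesh, pow_zero, mul_one, Nat.cast_one, min_self, one_div_one] at hlarge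
  refine hlarge.trans ((mul_le_mul_of_nonneg_left (hsmall i) (Real.exp_pos _).le).trans ?_)
  rw [← mul_assoc, ← Real.exp_add]
  refine mul_le_mul_of_nonneg_right (Real.exp_le_exp.2 ?_)
    (add_nonneg (amb_nonneg _ v) (by positivity))
  have hm0 := mesh_pos i
  have hT1 : ((T - 1 : ℕ) : ℝ) ≤ T := by exact_mod_cast Nat.sub_le T 1
  have k1 := mul_le_mul_of_nonneg_left hT1 (show 0 ≤ 2 * (A0 * (1 + Gm)) by positivity)
  have k2 : 0 ≤ A0 * Gm * mesh i := by positivity
  rw [show Real.log (w + 2 : ℕ) ^ 2 + 2 = Gm + 1 by rw [hGm]; ring]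
  linarith

/-- The ambiguity vanishes at every whole time. -/
theorem amb_eq_zero [Countable V] (h : Reg G d) (hd : 3 ≤ d) (hν : HasMarginals G θ ν)
    (hθ : |θ| < 1) (hc : bn d * θ ^ 2 = 1) {x0 p0 : V} (hx0 : G.Adj x0 p0) (v : V)
    (hR : ∀ p : ℕ, 1 ≤ p → ∃ C, 0 ≤ C ∧ ∀ t, 0 < t → ∀ κ : ℝ, 0 < κ → ∀ L : ℕ, 1 ≤ L → ∀ K : ℕ,
      ∑ u ∈ h.ball v K, 4 * ∫ ω, (halfJ ν t v u ω - bE G θ ν t (halfJ ν t v u) ω) ^ 2 ∂probM ν
        ≤ C * (1 / qe ν G t x0 p0 + ((K : ℝ) + 1) ^ 2 * qe ν G t x0 p0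
          + ((K : ℝ) + 1) ^ 3 * qe ν G t x0 p0
            * (((L : ℝ) + 1) ^ 2 * ((K : ℝ) + 1) * qe ν G t x0 p0 ^ 2
              + (((K : ℝ) + 1) * forgetRate θ ^ L) ^ 2
              + (((K : ℝ) + 1) * qe ν G t x0 p0 ^ 2) ^ 2))
          * (κ * amb G θ ν t v + (κ ^ (p - 1))⁻¹))
    {T : ℕ} (hT : 1 ≤ T) : amb G θ ν (T : ℝ) v = 0 := by
  obtain ⟨A, hA, hprop⟩ := amb_propagate h hd hν hθ hc hx0 v
  obtain ⟨N, hN⟩ := exists_nat_gt (17 * A / Real.log 2)
  rw [div_lt_iff₀ (Real.log_pos one_lt_two)] at hN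
  set N' := N + 2 with hN'
  obtain ⟨C, hC, hC'⟩ := hR N' (by omega)
  have hsmall := amb_small h hd hν hθ hc hx0 v (by omega : 2 ≤ N') hC hC'
  set r := Real.exp (17 * A - N' * Real.log 2) with hr
  have hr1 : r < 1 := Real.exp_lt_one_iff.2 (by
    have : (N : ℝ) ≤ N' := by exact_mod_cast (show N ≤ N' by omega)
    nlinarith [Real.log_pos (one_lt_two (α := ℝ))])
  have hlim : Tendsto (fun j : ℕ => 2 * r ^ j) atTop (𝓝 0) := by
    simpa using (tendsto_pow_atTop_nhds_zero_of_lt_one (Real.exp_pos _).le hr1).const_mul (2 : ℝ)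
  refine le_antisymm (ge_of_tendsto hlim ?_) (amb_nonneg _ v)
  set ε : ℝ := 1 / (2 * ((T : ℝ) + 1) * ((N' : ℝ) + 2)) with hε
  have hlog : ∀ᶠ j : ℕ in atTop,
      Real.log ((j * N' + 2 : ℕ) : ℝ) ^ 2 ≤ ε * ((j * N' + 2 : ℕ) : ℝ) := by
    have h1 := (Real.isLittleO_pow_log_id_atTop (n := 2)).bound (show 0 < ε by positivity)
    have h2 : Tendsto (fun j : ℕ => ((j * N' + 2 : ℕ) : ℝ)) atTop atTop :=
      tendsto_natCast_atTop_atTop.comp (tendsto_atTop_mono (fun j => by
        show j ≤ j * N' + 2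
        nlinarith) tendsto_id)
    filter_upwards [h2.eventually h1] with j hj
    rw [Real.norm_eq_abs, Real.norm_eq_abs, abs_of_nonneg (sq_nonneg _), id,
      abs_of_nonneg (Nat.cast_nonneg _)] at hj
    exact hj
  filter_upwards [hsmall, hlog, eventually_ge_atTop (4 * (T + 1)), eventually_ge_atTop 1]
    with j hj hjl hj4 hj1
  have hp := hprop (j * N') (16 * j) T hT
  set L2 := Real.log ((j * N' + 2 : ℕ) : ℝ) ^ 2
  have hexp : A * ((16 * j : ℕ) : ℝ) + A * ((T : ℝ) + 1) * (L2 + 2) ≤ 17 * A * j := by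
    have e1 : ((j * N' + 2 : ℕ) : ℝ) ≤ (j : ℝ) * ((N' : ℝ) + 2) := by
      have : (1 : ℝ) ≤ j := by exact_mod_cast hj1
      push_cast; nlinarith
    have e2 : ((T : ℝ) + 1) * L2 ≤ (j : ℝ) / 2 := by
      refine (mul_le_mul_of_nonneg_left (hjl.trans (mul_le_mul_of_nonneg_left e1
        (by positivity))) (by positivity)).trans (le_of_eq ?_)
      rw [hε]
      field_simp
    have e3 : 2 * ((T : ℝ) + 1) ≤ (j : ℝ) / 2 := by
      have : (4 : ℝ) * ((T : ℝ) + 1) ≤ j := by exact_mod_cast hj4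
      linarith
    have := mul_le_mul_of_nonneg_left (add_le_add e2 e3) hA.le
    push_cast
    linarith
  have he0 : (0 : ℝ) ≤ (1 / 2 : ℝ) ^ (j * N') := by positivity
  calc amb G θ ν (T : ℝ) v ≤ amb G θ ν (T : ℝ) v + (1 / 2 : ℝ) ^ (j * N') :=
        le_add_of_nonneg_right he0
    _ ≤ Real.exp (17 * A * j) * (2 * (1 / 2 : ℝ) ^ (j * N')) :=
        hp.trans (mul_le_mul (Real.exp_le_exp.2 hexp) (by linarith)
          (add_nonneg (amb_nonneg _ v) he0) (Real.exp_pos _).le)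
    _ = 2 * r ^ j := by
        rw [hr, ← Real.exp_nat_mul, mul_sub, Real.exp_sub,
          show (j : ℝ) * (N' * Real.log 2) = ((j * N' : ℕ) : ℝ) * Real.log 2 by push_cast; ring,
          Real.exp_nat_mul _ (j * N'), Real.exp_log two_pos, one_div_pow,
          show (j : ℝ) * (17 * A) = 17 * A * j by ring]
        ring

/-- At a large time the innovations almost determine the spin. -/
lemma integral_sp_sub_bE (t : ℝ) (v : V) :
    ∫ ω, (sp v ω - bE G θ ν t (sp v) ω) ^ 2 ∂probM ν = 1 - pB G θ ν t v := by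
  have i1 : Integrable (fun ω => bE G θ ν t (sp v) ω * sp v ω) (probM ν) :=
    integrable_bdd ((measurable_bE t _).mul (measurable_sp v)) (C := 1) fun ω => by
      rw [abs_mul]; exact mul_le_one₀ (abs_bE_le _ _ _) (abs_nonneg _) (abs_sp_le v ω)
  have i2 : Integrable (fun ω => bE G θ ν t (sp v) ω ^ 2) (probM ν) :=
    integrable_bdd ((measurable_bE t _).pow_const 2) (C := 1) fun ω => by
      rw [abs_pow]; exact pow_le_one₀ (abs_nonneg _) (abs_bE_le _ _ _)
  have e : ∀ ω, (sp v ω - bE G θ ν t (sp v) ω) ^ 2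
      = 1 + (bE G θ ν t (sp v) ω ^ 2 - 2 * (bE G θ ν t (sp v) ω * sp v ω)) := fun ω => by
    linear_combination sp_mul_self v ω
  simp only [e]
  rw [integral_add (integrable_const _)
      (g := fun ω => bE G θ ν t (sp v) ω ^ 2 - 2 * (bE G θ ν t (sp v) ω * sp v ω))
      (i2.sub (i1.const_mul 2)),
    integral_const, probReal_univ, one_smul, integral_sub i2 (i1.const_mul 2), integral_const_mul,
    integral_bE_mul_self (measurable_sp v) (abs_sp_le v), pB]
  ring

/-- If the ambiguity vanishes at large times, every spin is a function of the innovations. -/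
lemma spin_of_amb_zero (h : Reg G d) (hν : HasMarginals G θ ν) (hθ : |θ| < 1) (v : V)
    (h0 : ∀ T : ℕ, 1 ≤ T → amb G θ ν (T : ℝ) v = 0) :
    ∃ f : (V × ℕ × ℕ → ℝ) → ℝ, Measurable f ∧
      ∀ᵐ ω ∂probM ν, sp v ω = f (innLim G θ ν ω) := by
  choose φ hφm hφ using fun k : ℕ =>
    exists_innLim_of_bAlg (ν := ν) h hν hθ ((2 ^ k : ℕ) : ℝ) (measurable_bE_b _ (sp v))
  refine ⟨fun z => limsup (fun k => φ k z) atTop, Measurable.limsup hφm, ?_⟩
  set g : ℕ → Omega V → ℝ := fun k ω => (sp v ω - bE G θ ν ((2 ^ k : ℕ) : ℝ) (sp v) ω) ^ 2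
  have hgm : ∀ k, Measurable fun ω => ENNReal.ofReal (g k ω) := fun k =>
    (((measurable_sp v).sub (measurable_bE _ _)).pow_const 2).ennreal_ofReal
  have hgi : ∀ k, Integrable (g k) (probM ν) := fun k =>
    integrable_bdd (((measurable_sp v).sub (measurable_bE _ _)).pow_const 2) (C := 4) fun ω => by
      rw [abs_pow]
      refine (pow_le_pow_left₀ (abs_nonneg _) ((abs_sub _ _).trans
        (add_le_add (abs_sp_le v ω) (abs_bE_le _ _ _))) 2).trans (by norm_num)
  have hgk : ∀ k, ∫ ω, g k ω ∂probM ν ≤ (1 / 2 : ℝ) ^ k := fun k => by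
    have hz := h0 (2 ^ k) Nat.one_le_two_pow
    have h1 := one_sub_qm_le (ν := ν) (2 ^ k) v
    rw [amb] at hz
    simp only [g]
    rw [integral_sp_sub_bE, one_div_pow]
    refine le_trans (by linarith) (h1.trans (one_div_le_one_div_of_le (by positivity) ?_))
    push_cast
    linarith
  have hfin : ∫⁻ ω, ∑' k, ENNReal.ofReal (g k ω) ∂probM ν ≠ ⊤ := by
    rw [lintegral_tsum fun k => (hgm k).aemeasurable]
    refine ne_top_of_le_ne_top (Summable.tsum_ofReal_ne_top
      (summable_geometric_two)) (ENNReal.tsum_le_tsum fun k => ?_)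
    rw [← ofReal_integral_eq_lintegral_ofReal (hgi k)
      (Eventually.of_forall fun ω => sq_nonneg _)]
    exact ENNReal.ofReal_le_ofReal (hgk k)
  filter_upwards [ae_lt_top (Measurable.tsum hgm) hfin, ae_all_iff.2 hφ] with ω h1 h2
  have h3 := ENNReal.tendsto_atTop_zero_of_tsum_ne_top h1.ne
  have h4 : Tendsto (fun k => g k ω) atTop (𝓝 0) := by
    have := (ENNReal.tendsto_toReal ENNReal.zero_ne_top).comp h3
    simpa [Function.comp_def, ENNReal.toReal_ofReal, sq_nonneg, g] using this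
  have h5 : Tendsto (fun k => φ k (innLim G θ ν ω)) atTop (𝓝 (sp v ω)) := by
    simp only [← h2]
    refine tendsto_iff_norm_sub_tendsto_zero.2 ?_
    have := (Real.continuous_sqrt.tendsto 0).comp h4
    simpa [Function.comp_def, g, Real.sqrt_sq_eq_abs, abs_sub_comm, Real.norm_eq_abs] using this
  exact h5.limsup_eq.symm

/-- The free Ising measure at the threshold is a factor of IID, given the refined bound. -/
theorem factor_of_refined (h : Reg G d) (hd : 3 ≤ d) (hν : HasMarginals G θ ν) (hθ : |θ| < 1)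
    (hc : bn d * θ ^ 2 = 1)
    (hR : ∀ p : ℕ, 1 ≤ p → ∃ C, 0 ≤ C ∧ ∀ x0 p0, G.Adj x0 p0 → ∀ t, 0 < t → ∀ κ : ℝ, 0 < κ →
      ∀ L : ℕ, 1 ≤ L → ∀ (K : ℕ) (v : V),
      ∑ u ∈ h.ball v K, 4 * ∫ ω, (halfJ ν t v u ω - bE G θ ν t (halfJ ν t v u) ω) ^ 2 ∂probM ν
        ≤ C * (1 / qe ν G t x0 p0 + ((K : ℝ) + 1) ^ 2 * qe ν G t x0 p0
          + ((K : ℝ) + 1) ^ 3 * qe ν G t x0 p0
            * (((L : ℝ) + 1) ^ 2 * ((K : ℝ) + 1) * qe ν G t x0 p0 ^ 2
              + (((K : ℝ) + 1) * forgetRate θ ^ L) ^ 2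
              + (((K : ℝ) + 1) * qe ν G t x0 p0 ^ 2) ^ 2))
          * (κ * amb G θ ν t v + (κ ^ (p - 1))⁻¹)) :
    IsFactorOfIID G ν := by
  have := h.countable
  refine factor_of_innLim h hν hθ fun v => spin_of_amb_zero h hν hθ v fun T hT => ?_
  obtain ⟨w, hw⟩ := h.exists_dist v 1
  refine amb_eq_zero h hd hν hθ hc (dist_eq_one_iff_adj.1 hw) v (fun p hp => ?_) hT
  obtain ⟨C, hC, hC'⟩ := hR p hp
  exact ⟨C, hC, fun t ht κ hκ L hL K => hC' v w (dist_eq_one_iff_adj.1 hw) t ht κ hκ L hL K v⟩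

/-- At the threshold the free Ising measure is a factor of IID. -/
theorem factor_of_critical (h : Reg G d) (hd : 3 ≤ d) (hν : HasMarginals G θ ν) (hθ : |θ| < 1)
    (hc : bn d * θ ^ 2 = 1) : IsFactorOfIID G ν := by
  have := h.countable
  exact factor_of_refined h hd hν hθ hc fun p hp => refined_bound h hd hν hθ hc p hp

end Vale.Agent.P161
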