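import Vale.Agent.P161.Critical.Posterior

/-!
The growth of the squared magnetisation of a finite volume is at most the integral of the squared
covariances.
-/

open MeasureTheory ProbabilityTheory SimpleGraph Filter
open scoped Topology NNReal

set_option linter.unusedSectionVars false

namespace Vale.Agent.P161

universe u

variable {V : Type u} [DecidableEq V] {G : SimpleGraph V} [DecidableRel G.Adj] {θ : ℝ} {d : ℕ}
variable {ν : Measure (V → Bool)} [IsProbabilityMeasure ν]

lemma abs_pst_le' (hθ : |θ| < 1) (D : Finset V) {g : (V → Bool) → ℝ} {C : ℝ}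
    (hg : ∀ η, |g η| ≤ C) (y : V → ℝ) : |pst G θ D g y| ≤ C := by
  rw [pst, abs_div, abs_of_pos (Z_pos hθ D y), div_le_iff₀ (Z_pos hθ D y)]
  refine (Finset.abs_sum_le_sum_abs _ _).trans ?_
  rw [Z, S, Finset.mul_sum]
  refine Finset.sum_le_sum fun A _ => ?_
  rw [abs_mul, abs_of_pos (W_pos hθ D y _), mul_comm C]
  exact mul_le_mul_of_nonneg_left (hg _) (W_pos hθ D y _).le

lemma fieldSum_abs_le (D : Finset V) (a : V → ℝ) (η : V → Bool) :
    |fieldSum D a η| ≤ ∑ u ∈ D, |a u| := by
  refine (Finset.abs_sum_le_sum_abs _ _).trans (le_of_eq (Finset.sum_congr rfl fun u _ => ?_))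
  rw [abs_mul, abs_spin, mul_one]

lemma hasDerivAt_S_line (D : Finset V) (y a : V → ℝ) (g : (V → Bool) → ℝ) (s : ℝ) :
    HasDerivAt (fun r : ℝ => S D (fun η => W G θ D (fun u => y u + r * a u) η * g η))
      (S D (fun η => W G θ D (fun u => y u + s * a u) η * (fieldSum D a η * g η))) s := by
  unfold S
  refine HasDerivAt.fun_sum fun A _ => ?_
  have e : ∀ r : ℝ, W G θ D (fun u => y u + r * a u) (chi A) * g (chi A)
      = w G θ D (chi A) * Real.exp (fieldSum D y (chi A) + r * fieldSum D a (chi A))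
        * g (chi A) := by
    intro r
    simp only [W, fieldSum, Finset.mul_sum, ← Finset.sum_add_distrib, add_mul, mul_assoc]
  simp only [e]
  have h1 := (((((hasDerivAt_id s).mul_const (fieldSum D a (chi A))).const_add
    (fieldSum D y (chi A))).exp).const_mul (w G θ D (chi A))).mul_const (g (chi A))
  refine h1.congr_deriv ?_
  rw [← mul_assoc (W G θ D _ _), W]
  simp only [id, one_mul, fieldSum, Finset.mul_sum, ← Finset.sum_add_distrib, add_mul, mul_assoc]

lemma hasDerivAt_pst_line (hθ : |θ| < 1) (D : Finset V) (y a : V → ℝ) (g : (V → Bool) → ℝ)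
    (s : ℝ) :
    HasDerivAt (fun r : ℝ => pst G θ D g (fun u => y u + r * a u))
      (pst G θ D (fun η => fieldSum D a η * g η) (fun u => y u + s * a u)
        - pst G θ D g (fun u => y u + s * a u)
          * pst G θ D (fieldSum D a) (fun u => y u + s * a u)) s := by
  have h1 := hasDerivAt_S_line (G := G) (θ := θ) D y a g s
  have h2 := hasDerivAt_S_line (G := G) (θ := θ) D y a (fun _ => 1) s
  simp only [mul_one] at h2
  have hZ := Z_pos (G := G) hθ D (fun u => y u + s * a u)
  have h3 := h1.div h2 hZ.ne'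
  refine h3.congr_deriv ?_
  simp only [pst, Z] at hZ ⊢
  field_simp

/-- The second order expansion of a finite posterior expectation. -/
lemma pst_taylor (hθ : |θ| < 1) (D : Finset V) (y a : V → ℝ) {g : (V → Bool) → ℝ}
    (hg : ∀ η, |g η| ≤ 1) :
    |pst G θ D g (fun u => y u + a u) - pst G θ D g y
        - (pst G θ D (fun η => fieldSum D a η * g η) y - pst G θ D g y * pst G θ D (fieldSum D a) y)|
      ≤ 6 * (∑ u ∈ D, |a u|) ^ 2 := by
  set A := ∑ u ∈ D, |a u| with hA
  have hA0 : 0 ≤ A := Finset.sum_nonneg fun _ _ => abs_nonneg _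
  set P : ((V → Bool) → ℝ) → ℝ → ℝ := fun φ r => pst G θ D φ (fun u => y u + r * a u) with hP
  set L := fieldSum D a
  set f' : ℝ → ℝ := fun r => P (fun η => L η * g η) r - P g r * P L r with hf'
  have hL : ∀ η, |L η| ≤ A := fieldSum_abs_le D a
  have hd : ∀ r, HasDerivAt (P g) (f' r) r := hasDerivAt_pst_line hθ D y a g
  have hd2 : ∀ r, HasDerivAt f'
      ((P (fun η => L η * (L η * g η)) r - P (fun η => L η * g η) r * P L r)
        - (f' r * P L r + P g r * (P (fun η => L η * L η) r - P L r * P L r))) r := fun r =>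
    (hasDerivAt_pst_line hθ D y a (fun η => L η * g η) r).sub
      ((hd r).mul (hasDerivAt_pst_line hθ D y a L r))
  have b0 : ∀ r, |P g r| ≤ 1 := fun r => abs_pst_le' hθ D hg _
  have b1 : ∀ r, |P L r| ≤ A := fun r => abs_pst_le' hθ D hL _
  have b2 : ∀ r, |P (fun η => L η * g η) r| ≤ A := fun r => abs_pst_le' hθ D (fun η => by
    rw [abs_mul]; exact (mul_le_of_le_one_right (abs_nonneg _) (hg η)).trans (hL η)) _
  have b3 : ∀ r, |P (fun η => L η * L η) r| ≤ A ^ 2 := fun r => abs_pst_le' hθ D (fun η => by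
    rw [abs_mul, sq]; exact mul_le_mul (hL η) (hL η) (abs_nonneg _) hA0) _
  have b4 : ∀ r, |P (fun η => L η * (L η * g η)) r| ≤ A ^ 2 := fun r => abs_pst_le' hθ D
    (fun η => by
      rw [abs_mul, sq]
      refine mul_le_mul (hL η) ?_ (abs_nonneg _) hA0
      rw [abs_mul]
      exact (mul_le_of_le_one_right (abs_nonneg _) (hg η)).trans (hL η)) _
  have hbound : ∀ r ∈ Set.univ,
      ‖(P (fun η => L η * (L η * g η)) r - P (fun η => L η * g η) r * P L r)
        - (f' r * P L r + P g r * (P (fun η => L η * L η) r - P L r * P L r))‖ ≤ 6 * A ^ 2 := by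
    intro r _
    have c1 : |f' r| ≤ 2 * A := by
      refine (abs_sub _ _).trans ?_
      rw [abs_mul]
      nlinarith [b2 r, b0 r, b1 r, abs_nonneg (P L r)]
    rw [Real.norm_eq_abs]
    refine (abs_sub _ _).trans ((add_le_add (abs_sub _ _) (abs_add_le _ _)).trans ?_)
    simp only [abs_mul]
    have d1 : |P (fun η => L η * g η) r| * |P L r| ≤ A * A :=
      mul_le_mul (b2 r) (b1 r) (abs_nonneg _) hA0
    have d2 : |f' r| * |P L r| ≤ 2 * A * A := mul_le_mul c1 (b1 r) (abs_nonneg _) (by linarith)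
    have d3 : |P g r| * |P (fun η => L η * L η) r - P L r * P L r| ≤ 1 * (A ^ 2 + A * A) := by
      refine mul_le_mul (b0 r) ((abs_sub _ _).trans (add_le_add (b3 r) ?_)) (abs_nonneg _)
        zero_le_one
      rw [abs_mul]
      exact mul_le_mul (b1 r) (b1 r) (abs_nonneg _) hA0
    nlinarith [b4 r]
  have hlip : ∀ r ∈ Set.Icc (0 : ℝ) 1, ‖f' r - f' 0‖ ≤ 6 * A ^ 2 := by
    intro r hr
    refine (convex_univ.norm_image_sub_le_of_norm_hasDerivWithin_le
      (fun x _ => (hd2 x).hasDerivWithinAt) hbound (Set.mem_univ 0) (Set.mem_univ r)).trans ?_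
    rw [sub_zero, Real.norm_of_nonneg hr.1]
    exact mul_le_of_le_one_right (by positivity) hr.2
  have key := (convex_Icc (0 : ℝ) 1).norm_image_sub_le_of_norm_hasDerivWithin_le
    (f := fun r => P g r - r * f' 0) (f' := fun r => f' r - f' 0)
    (fun x _ => ((hd x).sub ((hasDerivAt_id x).mul_const (f' 0))).hasDerivWithinAt.congr_deriv
      (by simp)) hlip (Set.left_mem_Icc.2 zero_le_one) (Set.right_mem_Icc.2 zero_le_one)
  simp only [hf', hP, one_mul, zero_mul, add_zero, sub_zero, norm_one, mul_one,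
    Real.norm_eq_abs] at key
  rw [sub_right_comm] at key
  exact key

/-- Past and next increment with spins. -/
lemma integral_sigma_past_step (D : Finset V) (n N : ℕ)
    {Φ : (V → Bool) → (Fin N → D → ℝ) → ℝ} (hΦ : Measurable fun p : _ × _ => Φ p.1 p.2) {C : ℝ}
    (hC : ∀ σ b, |Φ σ b| ≤ C) {ψ : (D → ℝ) → ℝ} (hψ : Measurable ψ)
    (hψi : Integrable (fun Z : V × ℕ × ℕ → ℝ => ψ fun u : D => inc n (slice Z (u : V)) N)
      (gam (V × ℕ × ℕ))) :
    ∫ ω, Φ ω.1 (incMap D n N ω.2) * ψ (fun u : D => inc n (slice ω.2 (u : V)) N) ∂probM ν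
      = (∫ ω, Φ ω.1 (incMap D n N ω.2) ∂probM ν) * ∫ a, ψ a ∂stepPi D (meshNN n) := by
  have hm : Measurable fun ω : Omega V => Φ ω.1 (incMap D n N ω.2) :=
    hΦ.comp (measurable_fst.prodMk ((measurable_incMap D n N).comp measurable_snd))
  have hi : Integrable (fun ω : Omega V => Φ ω.1 (incMap D n N ω.2)
      * ψ (fun u : D => inc n (slice ω.2 (u : V)) N)) (probM ν) :=
    (Integrable.comp_snd (f := fun Z : V × ℕ × ℕ → ℝ => ψ fun u : D => inc n (slice Z (u : V)) N) hψi ν).bdd_mul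
      hm.aestronglyMeasurable (Eventually.of_forall fun ω => (Real.norm_eq_abs _).trans_le (hC _ _))
  rw [probM, integral_prod _ hi, integral_prod _ (integrable_bdd hm fun ω => hC _ _),
    ← integral_mul_const]
  refine integral_congr_ae (Eventually.of_forall fun σ => ?_)
  have hσ : Measurable (Φ σ) := hΦ.comp measurable_prodMk_left
  dsimp only
  rw [integral_past_mul_step D n N hσ hψ, ← map_incMap D n N,
    integral_map (measurable_incMap D n N).aemeasurable hσ.aestronglyMeasurable]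

lemma pos_eq_past (D : Finset V) (n k : ℕ) (ω : Omega V) {u : V} (hu : u ∈ D) :
    extD D (fun w => ∑ j : Fin k,
      (mesh n * spin (ω.1 w) + incMap D n k ω.2 j w)) u = pos n ω k u := by
  simp only [extD, dif_pos hu, pos, incMap]
  rw [Finset.sum_range]
  rfl

lemma gaussian_fourth (h : ℝ≥0) :
    ∫ x, x ^ 4 ∂gaussianReal 0 h = (h : ℝ) ^ 2 * ∫ x, x ^ 4 ∂gaussianReal 0 1 := by
  have e := gaussianReal_map_const_mul (μ := 0) (v := 1) (Real.sqrt h)
  have hv : NNReal.mk (Real.sqrt h ^ 2) (sq_nonneg _) * 1 = h := by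
    rw [mul_one]
    exact NNReal.coe_injective (Real.sq_sqrt h.2)
  rw [mul_zero, hv] at e
  rw [← e, integral_map (by fun_prop) (by fun_prop)]
  simp only [mul_pow]
  rw [integral_const_mul, show Real.sqrt h ^ 4 = (Real.sqrt h ^ 2) ^ 2 by ring, Real.sq_sqrt (NNReal.coe_nonneg h)]

lemma integrable_inc_pow (n : ℕ) (u : V) (k p : ℕ) :
    Integrable (fun Z => inc n (slice Z u) k ^ p) (gam (V × ℕ × ℕ)) := by
  have hmp : MeasurePreserving (fun Z => inc n (slice Z u) k) (gam (V × ℕ × ℕ))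
      (gaussianReal 0 (meshNN n)) := ⟨measurable_incZ n u k, map_inc n u k⟩
  refine hmp.integrable_comp_of_integrable (g := fun x : ℝ => x ^ p) ?_
  rcases Nat.eq_zero_or_pos p with rfl | hp
  · simp
  have h1 : MemLp (id : ℝ → ℝ) (p : ENNReal) (gaussianReal 0 (meshNN n)) :=
    memLp_id_gaussianReal' _ (by simp)
  exact (integrable_norm_iff (by fun_prop)).1 (by
    simpa [norm_pow] using h1.integrable_norm_pow hp.ne')

/-- The finite volume covariance at a grid time. -/
noncomputable def covD (G : SimpleGraph V) [DecidableRel G.Adj] (θ : ℝ) (D : Finset V) (y : V → ℝ)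
    (v u : V) : ℝ :=
  pst G θ D (fun η => spin (η v) * spin (η u)) y - mag G θ D y v * mag G θ D y u

lemma abs_covD_le (hθ : |θ| < 1) (D : Finset V) (y : V → ℝ) (v u : V) :
    |covD G θ D y v u| ≤ 2 := by
  refine (abs_sub _ _).trans ?_
  have h1 : |pst G θ D (fun η => spin (η v) * spin (η u)) y| ≤ 1 :=
    abs_pst_le hθ D (fun η => by rw [abs_mul, abs_spin, abs_spin, mul_one]) y
  rw [abs_mul]
  have := mul_le_one₀ (abs_mag_le hθ D y v (G := G)) (abs_nonneg _) (abs_mag_le hθ D y u (G := G))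
  linarith

lemma deriv_eq_sum_cov (D : Finset V) (y a : V → ℝ) (v : V) :
    pst G θ D (fun η => fieldSum D a η * spin (η v)) y
        - pst G θ D (fun η => spin (η v)) y * pst G θ D (fieldSum D a) y
      = ∑ u ∈ D, a u * covD G θ D y v u := by
  simp only [covD, mul_sub, Finset.sum_sub_distrib]
  congr 1
  · simp only [pst, fieldSum, Finset.mul_sum, Finset.sum_mul, ← mul_div_assoc, ← Finset.sum_div]
    congr 1
    simp only [S, Finset.mul_sum]
    rw [Finset.sum_comm]
    exact Finset.sum_congr rfl fun u _ => Finset.sum_congr rfl fun A _ => by ring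
  · simp only [pst, fieldSum, mag, M, ← mul_div_assoc, ← Finset.sum_div]
    rw [show ∀ X Y : ℝ, X * Y / Z G θ D y = X / 1 * (Y / Z G θ D y) from fun X Y => by ring]
    rw [div_one]
    simp only [S, Finset.mul_sum, Finset.sum_div]
    rw [Finset.sum_comm]
    exact Finset.sum_congr rfl fun u _ => Finset.sum_congr rfl fun A _ => by ring

/-- The mean square of the linear part of one fine step. -/
lemma linear_part (hθ : |θ| < 1) (D : Finset V) (v : V) (n k : ℕ) :
    Integrable (fun ω => (∑ u ∈ D, incY n ω u k * covD G θ D (pos n ω k) v u) ^ 2) (probM ν) ∧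
    ∫ ω, (∑ u ∈ D, incY n ω u k * covD G θ D (pos n ω k) v u) ^ 2 ∂probM ν
      ≤ mesh n * ∑ u ∈ D, ∫ ω, covD G θ D (pos n ω k) v u ^ 2 ∂probM ν
        + 4 * (D.card : ℝ) ^ 2 * mesh n ^ 2 := by
  set h := mesh n with hh
  have hh0 : 0 < h := mesh_pos n
  set J : Omega V → V → ℝ := fun ω u => covD G θ D (pos n ω k) v u with hJ
  set T1 : Omega V → ℝ := fun ω => ∑ u ∈ D, incY n ω u k * J ω u with hT1
  have hJm : ∀ u, Measurable fun ω => J ω u := fun u => by
    simp only [hJ, covD]
    exact ((measurable_pst D _).comp (measurable_pos n k)).sub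
      ((measurable_magPos D n k v).mul (measurable_magPos D n k u))
  have hξm : ∀ u : V, Measurable fun ω : Omega V => inc n (slice ω.2 u) k := fun u =>
    (measurable_incZ n u k).comp measurable_snd
  have hξ1 : ∀ u : V, Integrable (fun Z => inc n (slice Z u) k) (gam (V × ℕ × ℕ)) := fun u => by
    simpa using integrable_inc_pow n u k 1
  -- the data for factorisation
  set Jb : (V → Bool) → (Fin k → D → ℝ) → V → ℝ := fun σ b u =>
    covD G θ D (extD D fun w => ∑ j : Fin k, (h * spin (σ w) + b j w)) v u with hJb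
  have hJbe : ∀ ω u, Jb ω.1 (incMap D n k ω.2) u = J ω u := fun ω u => by
    simp only [hJb, hJ, covD]
    rw [pst_congr (fun w hw => pos_eq_past D n k ω hw) _,
      mag_congr (fun w hw => pos_eq_past D n k ω hw), mag_congr (fun w hw => pos_eq_past D n k ω hw)]
  have hJbm : ∀ u, Measurable fun p : (V → Bool) × (Fin k → D → ℝ) => Jb p.1 p.2 u := fun u => by
    have hy : Measurable fun p : (V → Bool) × (Fin k → D → ℝ) =>
        extD D fun w : D => ∑ j : Fin k, (h * spin (p.1 w) + p.2 j w) := by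
      refine (measurable_extD D).comp (measurable_pi_lambda _ fun w =>
        Finset.measurable_sum _ fun j _ => ?_)
      exact (((measurable_spin_eval (w : V)).comp measurable_fst).const_mul h).add
        ((measurable_eval2 j w).comp measurable_snd)
    simp only [hJb, covD]
    exact ((measurable_pst D _).comp hy).sub
      (((measurable_mag D v).comp hy).mul ((measurable_mag D u).comp hy))
  have hJbb : ∀ σ b u, |Jb σ b u| ≤ 2 := fun σ b u => abs_covD_le hθ D _ v u
  have hcross : ∀ u ∈ D, ∀ u' ∈ D,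
      ∫ ω, spin (ω.1 u) * J ω u * J ω u' * inc n (slice ω.2 u') k ∂probM ν = 0 := by
    intro u hu u' hu'
    have e := integral_sigma_past_step (ν := ν) D n k
      (Φ := fun σ b => spin (σ u) * Jb σ b u * Jb σ b u')
      ((((measurable_spin_eval u).comp measurable_fst).mul (hJbm u)).mul (hJbm u'))
      (C := 4) (fun σ b => by
        rw [abs_mul, abs_mul, abs_spin, one_mul]
        nlinarith [hJbb σ b u, hJbb σ b u', abs_nonneg (Jb σ b u), abs_nonneg (Jb σ b u')])
      (ψ := fun a => a ⟨u', hu'⟩) (measurable_pi_apply _) (hξ1 u')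
    rw [integral_step_id] at e
    simpa [hJbe] using e
  have hquad : ∀ u ∈ D, ∀ u' ∈ D,
      ∫ ω, J ω u * J ω u' * (inc n (slice ω.2 u) k * inc n (slice ω.2 u') k) ∂probM ν
        = (if u = u' then h else 0) * ∫ ω, J ω u * J ω u' ∂probM ν := by
    intro u hu u' hu'
    have e := integral_sigma_past_step (ν := ν) D n k
      (Φ := fun σ b => Jb σ b u * Jb σ b u') ((hJbm u).mul (hJbm u'))
      (C := 4) (fun σ b => by
        rw [abs_mul]
        nlinarith [hJbb σ b u, hJbb σ b u', abs_nonneg (Jb σ b u), abs_nonneg (Jb σ b u')])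
      (ψ := fun a => a ⟨u, hu⟩ * a ⟨u', hu'⟩)
      ((measurable_pi_apply _).mul (measurable_pi_apply _))
      ((memLp_inc n u k).integrable_mul (memLp_inc n u' k))
    rw [integral_step_mul] at e
    simp only [hJbe, coe_meshNN, Subtype.mk.injEq] at e
    rw [mul_comm (ite _ _ _)]
    exact e
  set S0 : Omega V → ℝ := fun ω => h * ∑ u ∈ D, spin (ω.1 u) * J ω u with hS0
  set S1 : Omega V → ℝ := fun ω => ∑ u ∈ D, inc n (slice ω.2 u) k * J ω u with hS1
  have hS0m : Measurable S0 := (Finset.measurable_sum _ fun u _ =>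
    ((measurable_spin_eval u).comp measurable_fst).mul (hJm u)).const_mul h
  have hS1m : Measurable S1 := Finset.measurable_sum _ fun u _ => (hξm u).mul (hJm u)
  have hS0b : ∀ ω, |S0 ω| ≤ h * (2 * D.card) := fun ω => by
    simp only [hS0, abs_mul, abs_of_pos hh0]
    refine mul_le_mul_of_nonneg_left ((Finset.abs_sum_le_sum_abs _ _).trans
      ((Finset.sum_le_card_nsmul _ _ 2 fun u _ => ?_).trans (le_of_eq (by rw [nsmul_eq_mul]; ring))))
      hh0.le
    rw [abs_mul, abs_spin, one_mul]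
    exact abs_covD_le hθ D _ v u
  have hiξ2 : ∀ u u' : V, Integrable (fun ω : Omega V => J ω u * J ω u'
      * (inc n (slice ω.2 u) k * inc n (slice ω.2 u') k)) (probM ν) := fun u u' =>
    (Integrable.comp_snd (f := fun Z => inc n (slice Z u) k * inc n (slice Z u') k)
      ((memLp_inc n u k).integrable_mul (memLp_inc n u' k)) ν).bdd_mul
      ((hJm u).mul (hJm u')).aestronglyMeasurable (c := 4)
      (Eventually.of_forall fun ω => by
        rw [Real.norm_eq_abs, abs_mul]
        nlinarith [abs_covD_le (G := G) hθ D (pos n ω k) v u, abs_covD_le (G := G) hθ D (pos n ω k) v u',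
          abs_nonneg (J ω u), abs_nonneg (J ω u')])
  have hiξ1 : ∀ u u' : V, Integrable (fun ω : Omega V => spin (ω.1 u) * J ω u * J ω u'
      * inc n (slice ω.2 u') k) (probM ν) := fun u u' =>
    (Integrable.comp_snd (f := fun Z => inc n (slice Z u') k) (hξ1 u') ν).bdd_mul
      ((((measurable_spin_eval u).comp measurable_fst).mul (hJm u)).mul (hJm u')).aestronglyMeasurable
      (c := 4) (Eventually.of_forall fun ω => by
        rw [Real.norm_eq_abs, abs_mul, abs_mul, abs_spin, one_mul]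
        nlinarith [abs_covD_le (G := G) hθ D (pos n ω k) v u, abs_covD_le (G := G) hθ D (pos n ω k) v u',
          abs_nonneg (J ω u), abs_nonneg (J ω u')])
  have hS1sq : ∫ ω, S1 ω ^ 2 ∂probM ν = h * ∑ u ∈ D, ∫ ω, J ω u ^ 2 ∂probM ν := by
    have e : ∀ ω, S1 ω ^ 2 = ∑ u ∈ D, ∑ u' ∈ D,
        J ω u * J ω u' * (inc n (slice ω.2 u) k * inc n (slice ω.2 u') k) := fun ω => by
      rw [hS1, sq, Finset.sum_mul_sum]
      exact Finset.sum_congr rfl fun u _ => Finset.sum_congr rfl fun u' _ => by ring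
    simp only [e]
    rw [integral_finsetSum _ fun u _ => integrable_finsetSum _ fun u' _ => hiξ2 u u', Finset.mul_sum]
    refine Finset.sum_congr rfl fun u hu => ?_
    rw [integral_finsetSum _ fun u' _ => hiξ2 u u', Finset.sum_congr rfl (hquad u hu),
      Finset.sum_eq_single_of_mem u hu fun b _ hb => by rw [if_neg (Ne.symm hb), zero_mul], if_pos rfl]
    simp only [sq]
  have hiS1sq : Integrable (fun ω => S1 ω ^ 2) (probM ν) := by
    have e : ∀ ω, S1 ω ^ 2 = ∑ u ∈ D, ∑ u' ∈ D,
        J ω u * J ω u' * (inc n (slice ω.2 u) k * inc n (slice ω.2 u') k) := fun ω => by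
      rw [hS1, sq, Finset.sum_mul_sum]
      exact Finset.sum_congr rfl fun u _ => Finset.sum_congr rfl fun u' _ => by ring
    simp only [e]
    exact integrable_finsetSum _ fun u _ => integrable_finsetSum _ fun u' _ => hiξ2 u u'
  have hcr : ∀ ω, S0 ω * S1 ω = ∑ u ∈ D, ∑ u' ∈ D,
      h * (spin (ω.1 u) * J ω u * J ω u' * inc n (slice ω.2 u') k) := fun ω => by
    simp only [hS0, hS1]
    rw [mul_assoc, Finset.sum_mul_sum, Finset.mul_sum]
    simp only [Finset.mul_sum]
    exact Finset.sum_congr rfl fun u _ => Finset.sum_congr rfl fun u' _ => by ring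
  have hicr : Integrable (fun ω => S0 ω * S1 ω) (probM ν) := by
    simp only [hcr]
    exact integrable_finsetSum _ fun u _ => integrable_finsetSum _ fun u' _ => (hiξ1 u u').const_mul h
  have hS01 : ∫ ω, S0 ω * S1 ω ∂probM ν = 0 := by
    simp only [hcr]
    rw [integral_finsetSum _ fun u _ => integrable_finsetSum _ fun u' _ => (hiξ1 u u').const_mul h]
    refine Finset.sum_eq_zero fun u hu => ?_
    rw [integral_finsetSum _ fun u' _ => (hiξ1 u u').const_mul h]
    exact Finset.sum_eq_zero fun u' hu' => by rw [integral_const_mul, hcross u hu u' hu', mul_zero]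
  have hT1e : ∀ ω, T1 ω = S0 ω + S1 ω := fun ω => by
    simp only [hT1, hS0, hS1, Finset.mul_sum, ← Finset.sum_add_distrib]
    exact Finset.sum_congr rfl fun u _ => by rw [incY]; ring
  have hT1sq : ∫ ω, T1 ω ^ 2 ∂probM ν
      ≤ h * ∑ u ∈ D, ∫ ω, J ω u ^ 2 ∂probM ν + 4 * (D.card : ℝ) ^ 2 * h ^ 2 := by
    have e : ∀ ω, T1 ω ^ 2 = S1 ω ^ 2 + (S0 ω ^ 2 + 2 * (S0 ω * S1 ω)) := fun ω => by
      rw [hT1e]; ring
    have hi0 : Integrable (fun ω => S0 ω ^ 2) (probM ν) :=
      integrable_bdd (hS0m.pow_const 2) (C := (h * (2 * D.card)) ^ 2) fun ω => by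
        rw [abs_pow]; exact pow_le_pow_left₀ (abs_nonneg _) (hS0b ω) 2
    simp only [e]
    rw [integral_add hiS1sq (g := fun ω => S0 ω ^ 2 + 2 * (S0 ω * S1 ω)) (hi0.add (hicr.const_mul 2)),
      integral_add hi0 (hicr.const_mul 2), integral_const_mul, hS01, hS1sq, mul_zero, add_zero]
    refine add_le_add le_rfl ((integral_mono hi0 (integrable_const ((h * (2 * D.card)) ^ 2))
      fun ω => by
        show S0 ω ^ 2 ≤ _
        rw [← sq_abs]
        exact pow_le_pow_left₀ (abs_nonneg _) (hS0b ω) 2).trans (le_of_eq ?_))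
    rw [integral_const, probReal_univ, one_smul]
    ring
  have hiT : Integrable (fun ω => T1 ω ^ 2) (probM ν) := by
    have e : ∀ ω, T1 ω ^ 2 = S1 ω ^ 2 + (S0 ω ^ 2 + 2 * (S0 ω * S1 ω)) := fun ω => by
      rw [hT1e]; ring
    simp only [e]
    exact hiS1sq.add ((integrable_bdd (hS0m.pow_const 2) (C := (h * (2 * D.card)) ^ 2) fun ω => by
      rw [abs_pow]; exact pow_le_pow_left₀ (abs_nonneg _) (hS0b ω) 2).add (hicr.const_mul 2))
  exact ⟨hiT, hT1sq⟩

/-- The fourth moment of one fine step. -/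
lemma fourth_part (D : Finset V) (n k : ℕ) :
    Integrable (fun ω => (∑ u ∈ D, |incY n ω u k|) ^ 4) (probM ν) ∧
    ∫ ω, (∑ u ∈ D, |incY n ω u k|) ^ 4 ∂probM ν
      ≤ 8 * (D.card : ℝ) ^ 4 * (1 + ∫ x, x ^ 4 ∂gaussianReal 0 1) * mesh n ^ 2 := by
  set h := mesh n with hh
  have hh0 : 0 < h := mesh_pos n
  have hh1 : h ≤ 1 := pow_le_one₀ (by norm_num) (by norm_num)
  set A : Omega V → ℝ := fun ω => ∑ u ∈ D, |incY n ω u k| with hAdef
  set M4 := ∫ x, x ^ 4 ∂gaussianReal 0 1 with hM4
  have hM40 : 0 ≤ M4 := integral_nonneg fun x => by positivity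
  have hi4 : ∀ u : V, Integrable (fun ω : Omega V => inc n (slice ω.2 u) k ^ 4) (probM ν) := fun u =>
    Integrable.comp_snd (f := fun Z => inc n (slice Z u) k ^ 4) (integrable_inc_pow n u k 4) ν
  have hA4 : ∀ ω, A ω ^ 4
      ≤ (D.card : ℝ) ^ 3 * ∑ u ∈ D, 8 * (h ^ 4 + inc n (slice ω.2 u) k ^ 4) := fun ω => by
    refine (pow_sum_le_card_mul_sum_pow (fun u _ => abs_nonneg (incY n ω u k)) 3).trans ?_
    refine mul_le_mul_of_nonneg_left (Finset.sum_le_sum fun u _ => ?_) (by positivity)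
    have hb : |incY n ω u k| ≤ h + |inc n (slice ω.2 u) k| := by
      refine (abs_add_le _ _).trans ?_
      rw [abs_mul, abs_spin, mul_one, abs_of_pos hh0]
    refine (pow_le_pow_left₀ (abs_nonneg _) hb 4).trans ?_
    have := add_pow_le hh0.le (abs_nonneg (inc n (slice ω.2 u) k)) 4
    rw [show |inc n (slice ω.2 u) k| ^ 4 = inc n (slice ω.2 u) k ^ 4 from
      (show Even 4 by decide).pow_abs _] at this
    norm_num at this
    exact this
  have hAint : ∫ ω, A ω ^ 4 ∂probM ν ≤ 8 * (D.card : ℝ) ^ 4 * (1 + M4) * h ^ 2 := by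
    refine (integral_mono_of_nonneg (Eventually.of_forall fun ω => by positivity)
      ((integrable_finsetSum _ fun u _ => ((integrable_const (h ^ 4)).add (hi4 u)).const_mul 8).const_mul _)
      (Eventually.of_forall hA4)).trans ?_
    simp only [Pi.add_apply]
    rw [integral_const_mul, integral_finsetSum D
      (f := fun (u : V) (ω : Omega V) => 8 * (h ^ 4 + inc n (slice ω.2 u) k ^ 4))
      fun u _ => ((integrable_const (h ^ 4)).add (hi4 u)).const_mul 8]
    refine (mul_le_mul_of_nonneg_left (Finset.sum_le_card_nsmul _ _ (8 * (1 + M4) * h ^ 2)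
      fun u _ => ?_) (by positivity)).trans (le_of_eq (by rw [nsmul_eq_mul]; ring))
    rw [integral_const_mul, integral_add (integrable_const _) (hi4 u), integral_const,
      probReal_univ, one_smul, probM, integral_fun_snd (μ := ν) (fun Z => inc n (slice Z u) k ^ 4),
      probReal_univ, one_smul,
      ← integral_map (f := fun x : ℝ => x ^ 4) (measurable_incZ n u k).aemeasurable (by fun_prop),
      map_inc, gaussian_fourth, coe_meshNN, ← hM4, ← hh]
    have : h ^ 4 ≤ h ^ 2 := pow_le_pow_of_le_one hh0.le hh1 (by norm_num)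
    nlinarith
  have hiA : Integrable (fun ω => A ω ^ 4) (probM ν) :=
    ((integrable_finsetSum _ fun u _ => ((integrable_const (h ^ 4)).add (hi4 u)).const_mul 8).const_mul
      ((D.card : ℝ) ^ 3)).mono' ((Finset.measurable_sum _ fun u _ =>
        (measurable_incY n u k).abs).pow_const 4).aestronglyMeasurable (Eventually.of_forall fun ω => by
          rw [Real.norm_eq_abs, abs_of_nonneg (by positivity)]; exact hA4 ω)
  exact ⟨hiA, hAint⟩

/-- One fine step of the growth of the squared magnetisation. -/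
lemma step_upper (hν : HasMarginals G θ ν) (hG : G.IsTree) (hθ : |θ| < 1) {D : Finset V}
    (hD : Conn G D) {v : V} (hv : v ∈ D) (n k : ℕ) {ε : ℝ} (hε : 0 < ε) (hε1 : ε ≤ 1) :
    ∫ ω, mu ν ((k + 1 : ℕ) * mesh n) (D : Set V) v ω ^ 2 ∂probM ν
        - ∫ ω, mu ν (k * mesh n) (D : Set V) v ω ^ 2 ∂probM ν
      ≤ (1 + ε) * (mesh n * ∑ u ∈ D, ∫ ω, covJ ν (k * mesh n) (D : Set V) v u ω ^ 2 ∂probM ν)
        + 576 * (1 + ∫ x, x ^ 4 ∂gaussianReal 0 1) * ((D.card : ℝ) ^ 4 + (D.card : ℝ) ^ 2)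
          * (mesh n ^ 2 / ε) := by
  set h := mesh n with hh
  have hh0 : 0 < h := mesh_pos n
  have hh1 : h ≤ 1 := pow_le_one₀ (by norm_num) (by norm_num)
  have ht : ((k : ℕ) : ℝ) * h ≤ ((k + 1 : ℕ) : ℝ) * h := by push_cast; linarith
  have e0 : ∫ ω, mu ν ((k + 1 : ℕ) * h) (D : Set V) v ω ^ 2 ∂probM ν
      - ∫ ω, mu ν (k * h) (D : Set V) v ω ^ 2 ∂probM ν
      = ∫ ω, (mu ν ((k + 1 : ℕ) * h) (D : Set V) v ω - mu ν (k * h) (D : Set V) v ω) ^ 2 ∂probM ν :=
    (integral_cE_sub_sq (ν := ν) ht subset_rfl (measurable_sp v) (abs_sp_le v)).symm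
  rw [e0]
  set J : Omega V → V → ℝ := fun ω u => covD G θ D (pos n ω k) v u with hJ
  set T1 : Omega V → ℝ := fun ω => ∑ u ∈ D, incY n ω u k * J ω u with hT1
  set A : Omega V → ℝ := fun ω => ∑ u ∈ D, |incY n ω u k| with hAdef
  have hJm : ∀ u, Measurable fun ω => J ω u := fun u => by
    simp only [hJ, covD]
    exact ((measurable_pst D _).comp (measurable_pos n k)).sub
      ((measurable_magPos D n k v).mul (measurable_magPos D n k u))
  have hpt : ∀ᵐ ω ∂probM ν,
      (mu ν ((k + 1 : ℕ) * h) (D : Set V) v ω - mu ν (k * h) (D : Set V) v ω) ^ 2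
        ≤ (1 + ε) * T1 ω ^ 2 + (72 / ε) * A ω ^ 4 := by
    filter_upwards [mu_finite hν hG hθ hD n (k + 1) hv, mu_finite hν hG hθ hD n k hv] with ω q1 q2
    rw [q1, q2]
    have e : pos n ω (k + 1) = fun u => pos n ω k u + incY n ω u k := by
      funext u; simp [pos, Finset.sum_range_succ]
    have hT := pst_taylor (G := G) hθ D (pos n ω k) (fun u => incY n ω u k)
      (g := fun η => spin (η v)) (fun η => (abs_spin _).le)
    rw [deriv_eq_sum_cov, ← e, pst_spin, pst_spin] at hT
    set x := mag G θ D (pos n ω (k + 1)) v - mag G θ D (pos n ω k) v - T1 ω with hx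
    have hx2 : x ^ 2 ≤ 36 * A ω ^ 4 := by
      rw [← sq_abs, show 36 * A ω ^ 4 = (6 * A ω ^ 2) ^ 2 by ring]
      exact pow_le_pow_left₀ (abs_nonneg _) hT 2
    have e2 : (mag G θ D (pos n ω (k + 1)) v - mag G θ D (pos n ω k) v) ^ 2 = (T1 ω + x) ^ 2 := by
      rw [hx]; ring
    rw [e2]
    have h1 : 2 * (T1 ω * x) ≤ ε * T1 ω ^ 2 + x ^ 2 / ε := by
      have h2 : 0 ≤ (ε * T1 ω - x) ^ 2 / ε := by positivity
      have : (ε * T1 ω - x) ^ 2 / ε = ε * T1 ω ^ 2 + x ^ 2 / ε - 2 * (T1 ω * x) := by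
        field_simp; ring
      linarith
    have h3 : x ^ 2 + x ^ 2 / ε ≤ 72 / ε * A ω ^ 4 := by
      rw [show x ^ 2 + x ^ 2 / ε = x ^ 2 * (ε + 1) / ε by field_simp, div_mul_eq_mul_div]
      refine div_le_div_of_nonneg_right ?_ hε.le
      nlinarith [sq_nonneg x]
    nlinarith
  obtain ⟨hiT, hT1sq⟩ : Integrable (fun ω => T1 ω ^ 2) (probM ν) ∧ ∫ ω, T1 ω ^ 2 ∂probM ν
      ≤ h * ∑ u ∈ D, ∫ ω, J ω u ^ 2 ∂probM ν + 4 * (D.card : ℝ) ^ 2 * h ^ 2 :=
    linear_part hθ D v n k
  obtain ⟨hiA, hAint⟩ : Integrable (fun ω => A ω ^ 4) (probM ν) ∧ ∫ ω, A ω ^ 4 ∂probM ν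
      ≤ 8 * (D.card : ℝ) ^ 4 * (1 + ∫ x, x ^ 4 ∂gaussianReal 0 1) * h ^ 2 :=
    fourth_part D n k
  refine (integral_mono_of_nonneg (Eventually.of_forall fun _ => sq_nonneg _)
    ((hiT.const_mul _).add (hiA.const_mul _)) hpt).trans ?_
  simp only [Pi.add_apply]
  rw [integral_add (hiT.const_mul _) (hiA.const_mul _), integral_const_mul, integral_const_mul]
  have hJe : ∀ u ∈ D, ∫ ω, covJ ν (k * h) (D : Set V) v u ω ^ 2 ∂probM ν
      = ∫ ω, J ω u ^ 2 ∂probM ν := by
    intro u hu
    refine integral_congr_ae ?_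
    filter_upwards [cE_finite hν hG hθ hD n k (g := fun η => spin (η v) * spin (η u))
      ((measurable_spin_eval v).mul (measurable_spin_eval u))
      (fun η η' he => by simp [he v hv, he u hu])
      (fun η => by rw [abs_mul, abs_spin, abs_spin, mul_one]),
      mu_finite hν hG hθ hD n k hv, mu_finite hν hG hθ hD n k hu] with ω q1 q2 q3
    simp only [covJ, mm2, sp]
    rw [q1, q2, q3]
    rfl
  rw [Finset.sum_congr rfl hJe]
  set M4 := ∫ x, x ^ 4 ∂gaussianReal 0 1
  have hM40 : 0 ≤ M4 := integral_nonneg fun x => by positivity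
  set c := (D.card : ℝ)
  set X := h * ∑ u ∈ D, ∫ ω, J ω u ^ 2 ∂probM ν
  have h1 : (1 + ε) * (4 * c ^ 2 * h ^ 2) ≤ 8 * c ^ 2 * (1 + M4) * (h ^ 2 / ε) := by
    rw [mul_div, le_div_iff₀ hε]
    have : 0 ≤ c ^ 2 * h ^ 2 := by positivity
    nlinarith [mul_nonneg this hM40, mul_le_mul_of_nonneg_left hε1 this]
  have h2 : 72 / ε * ∫ ω, A ω ^ 4 ∂probM ν ≤ 576 * c ^ 4 * (1 + M4) * (h ^ 2 / ε) := by
    refine (mul_le_mul_of_nonneg_left hAint (by positivity)).trans (le_of_eq ?_)
    ring
  have h3 := mul_le_mul_of_nonneg_left hT1sq (show 0 ≤ 1 + ε by linarith)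
  have h4 : 0 ≤ c ^ 2 * (1 + M4) * (h ^ 2 / ε) := by positivity
  linarith

end Vale.Agent.P161
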