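import Vale.Agent.P161.Critical.Innov
import Vale.Agent.P161.Critical.Upper

/-!
The growth of the ambiguity left by the innovations, in terms of the conditional variance of the
posterior covariances.
-/

open MeasureTheory ProbabilityTheory SimpleGraph Filter
open scoped Topology NNReal

set_option linter.unusedSectionVars false

namespace Vale.Agent.P161

universe u

variable {V : Type u} [DecidableEq V] {G : SimpleGraph V} [DecidableRel G.Adj] {θ : ℝ} {d : ℕ}
variable {ν : Measure (V → Bool)} [IsProbabilityMeasure ν]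

/-- Mean square magnetisation. -/
noncomputable def qm (ν : Measure (V → Bool)) (t : ℝ) (S : Set V) (v : V) : ℝ :=
  ∫ ω, mu ν t S v ω ^ 2 ∂probM ν

/-- Mean square of the magnetisation given the innovations. -/
noncomputable def pB (G : SimpleGraph V) [DecidableRel G.Adj] (θ : ℝ) (ν : Measure (V → Bool))
    (t : ℝ) (v : V) : ℝ :=
  ∫ ω, bE G θ ν t (sp v) ω ^ 2 ∂probM ν

/-- Half of the posterior covariance. -/
noncomputable def halfJ (ν : Measure (V → Bool)) (t : ℝ) (v u : V) (ω : Omega V) : ℝ :=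
  covJ ν t Set.univ v u ω / 2

/-- The ambiguity left by the innovations. -/
noncomputable def amb (G : SimpleGraph V) [DecidableRel G.Adj] (θ : ℝ) (ν : Measure (V → Bool))
    (t : ℝ) (v : V) : ℝ :=
  qm ν t Set.univ v - pB G θ ν t v

lemma abs_covJ_le (t : ℝ) (S : Set V) (v u : V) (ω : Omega V) : |covJ ν t S v u ω| ≤ 2 := by
  refine (abs_sub _ _).trans ?_
  rw [abs_mul]
  have h1 : |mm2 ν t S v u ω| ≤ 1 := abs_cE_le _ _ _ _
  have h2 : |mu ν t S v ω| * |mu ν t S u ω| ≤ 1 :=
    mul_le_one₀ (abs_cE_le _ _ _ _) (abs_nonneg _) (abs_cE_le _ _ _ _)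
  linarith

@[fun_prop]
lemma measurable_covJ (t : ℝ) (S : Set V) (v u : V) : Measurable (covJ ν t S v u) := by
  unfold covJ mm2 mu; fun_prop

@[fun_prop]
lemma measurable_mu (t : ℝ) (S : Set V) (v : V) : Measurable (mu ν t S v) :=
  measurable_cE t S _

lemma abs_halfJ_le (t : ℝ) (v u : V) (ω : Omega V) : |halfJ ν t v u ω| ≤ 1 := by
  rw [halfJ, abs_div, abs_two, div_le_one two_pos]; exact abs_covJ_le _ _ _ _ _

@[fun_prop]
lemma measurable_halfJ (t : ℝ) (v u : V) : Measurable (halfJ ν t v u) := by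
  unfold halfJ; fun_prop

lemma qm_mono {t t' : ℝ} {S S' : Set V} (ht : t ≤ t') (hS : S ⊆ S') (v : V) :
    qm ν t S v ≤ qm ν t' S' v :=
  integral_cE_sq_mono ht hS (measurable_sp v) (abs_sp_le v)

lemma qm_le_one (t : ℝ) (S : Set V) (v : V) : qm ν t S v ≤ 1 :=
  (integral_mono (integrable_cE_sq t S _) (integrable_const (1 : ℝ)) fun ω =>
    (sq_le_one_iff_abs_le_one _).2 (abs_cE_le t S _ ω)).trans (by simp)

lemma qm_nonneg (t : ℝ) (S : Set V) (v : V) : 0 ≤ qm ν t S v :=
  integral_nonneg fun _ => sq_nonneg _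

lemma integral_cE_sq_le_one (t : ℝ) (S : Set V) (g : Omega V → ℝ) :
    ∫ ω, cE ν t S g ω ^ 2 ∂probM ν ≤ 1 :=
  (integral_mono (integrable_cE_sq t S _) (integrable_const (1 : ℝ)) fun ω =>
    (sq_le_one_iff_abs_le_one _).2 (abs_cE_le t S _ ω)).trans (by simp)

lemma sum_range_blocks (f : ℕ → ℝ) (B : ℕ) : ∀ N : ℕ,
    ∑ k ∈ Finset.range (B * N), f k
      = ∑ i ∈ Finset.range N, ∑ j ∈ Finset.range B, f (B * i + j)
  | 0 => by simp
  | N + 1 => by rw [mul_add, mul_one, Finset.sum_range_add, sum_range_blocks f B N,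
      Finset.sum_range_succ]

/-- Time `i` on the level `n` grid. -/
noncomputable def gt (n i : ℕ) : ℝ := (i : ℝ) * mesh n

lemma gt_mono (n : ℕ) {i j : ℕ} (h : i ≤ j) : gt n i ≤ gt n j := by
  unfold gt
  exact mul_le_mul_of_nonneg_right (by exact_mod_cast h) (mesh_pos n).le

lemma gt_succ (n i : ℕ) : gt n (i + 1) = gt n i + mesh n := by unfold gt; push_cast; ring

lemma sum_abs_telescope {q : ℕ → ℝ} (hq0 : ∀ i, 0 ≤ q i) (hq1 : ∀ i, q i ≤ 1) (i0 N : ℕ) :
    ∑ i ∈ Finset.range N, (q (i0 + i + 1) - q (i0 + i)) ≤ 1 := by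
  rw [show ∑ i ∈ Finset.range N, (q (i0 + i + 1) - q (i0 + i)) = q (i0 + N) - q (i0 + 0) from
    Finset.sum_range_sub (fun i => q (i0 + i)) N]
  linarith [hq0 (i0 + 0), hq1 (i0 + N)]

/-- The upper bound in a finite volume. -/
lemma qm_upper (h : Reg G d) (hν : HasMarginals G θ ν) (hθ : |θ| < 1) {D : Finset V}
    (hD : Conn G D) {v : V} (hv : v ∈ D) {F : Finset V} (hF : F ⊆ D) (n i0 N : ℕ) {τ : ℝ}
    (hτ : ∀ r, gt n i0 ≤ r → r ≤ gt n (i0 + N) →
      ∑ u ∈ D \ F, ∫ ω, covJ ν r (D : Set V) v u ω ^ 2 ∂probM ν ≤ τ) :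
    qm ν (gt n (i0 + N)) D v - qm ν (gt n i0) D v
      ≤ (∑ i ∈ Finset.range N, mesh n *
            ∑ u ∈ F, ∫ ω, covJ ν (gt n (i0 + i)) (D : Set V) v u ω ^ 2 ∂probM ν)
        + 6 * F.card * Real.sqrt (mesh n) * (gt n N + 1) + gt n N * τ := by
  set Δ := mesh n with hΔ
  have hΔ0 : 0 < Δ := mesh_pos n
  set l := Real.sqrt Δ with hl
  have hl0 : 0 < l := Real.sqrt_pos.2 hΔ0
  set EJ : ℝ → V → ℝ := fun r u => ∫ ω, covJ ν r (D : Set V) v u ω ^ 2 ∂probM ν with hEJ
  set G2 : ℝ → V → ℝ := fun r u => ∫ ω, mm2 ν r (D : Set V) v u ω ^ 2 ∂probM ν with hG2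
  set E : ℕ → V → ℝ := fun i u =>
    3 * l / 2 + ((G2 (gt n (i + 1)) u - G2 (gt n i) u) + (qm ν (gt n (i + 1)) D v - qm ν (gt n i) D v)
      + (qm ν (gt n (i + 1)) D u - qm ν (gt n i) D u)) / (2 * l) with hE
  -- comparison inside a block
  have hblock : ∀ i r u, gt n i ≤ r → r ≤ gt n (i + 1) → EJ r u ≤ EJ (gt n i) u + 4 * E i u := by
    intro i r u h1 h2
    set X : Omega V → ℝ := fun ω =>
      |mm2 ν r (D : Set V) v u ω - mm2 ν (gt n i) (D : Set V) v u ω|
        + |mu ν r (D : Set V) v ω - mu ν (gt n i) (D : Set V) v ω|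
        + |mu ν r (D : Set V) u ω - mu ν (gt n i) (D : Set V) u ω| with hX
    have hm2 : ∀ t, Measurable (mm2 ν t (D : Set V) v u) := fun t => measurable_cE t _ _
    have hXi : Integrable X (probM ν) := integrable_bdd (by fun_prop) (C := 6) fun ω => by
      rw [abs_of_nonneg (by positivity)]
      have hb : ∀ a b : ℝ, |a| ≤ 1 → |b| ≤ 1 → |a - b| ≤ 2 := fun a b ha hb =>
        (abs_sub _ _).trans (by linarith)
      simp only [hX, mm2, mu]
      linarith [hb _ _ (abs_cE_le (ν := ν) r (D : Set V) (fun ω => sp v ω * sp u ω) ω)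
          (abs_cE_le (ν := ν) (gt n i) (D : Set V) (fun ω => sp v ω * sp u ω) ω),
        hb _ _ (abs_cE_le (ν := ν) r (D : Set V) (sp v) ω) (abs_cE_le (ν := ν) (gt n i) (D : Set V) (sp v) ω),
        hb _ _ (abs_cE_le (ν := ν) r (D : Set V) (sp u) ω) (abs_cE_le (ν := ν) (gt n i) (D : Set V) (sp u) ω)]
    have hpt : ∀ ω, covJ ν r (D : Set V) v u ω ^ 2
        ≤ covJ ν (gt n i) (D : Set V) v u ω ^ 2 + 4 * X ω := by
      intro ω
      have d1 : |covJ ν r (D : Set V) v u ω - covJ ν (gt n i) (D : Set V) v u ω| ≤ X ω := by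
        simp only [covJ, hX]
        set a := mu ν r (D : Set V) v ω
        set b := mu ν r (D : Set V) u ω
        set a' := mu ν (gt n i) (D : Set V) v ω
        set b' := mu ν (gt n i) (D : Set V) u ω
        rw [show mm2 ν r (D : Set V) v u ω - a * b - (mm2 ν (gt n i) (D : Set V) v u ω - a' * b')
          = (mm2 ν r (D : Set V) v u ω - mm2 ν (gt n i) (D : Set V) v u ω)
            + ((-(a - a') * b) + (-a' * (b - b'))) by ring]
        refine (abs_add_le _ _).trans ?_
        refine le_trans (add_le_add le_rfl (abs_add_le _ _)) ?_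
        rw [abs_mul, abs_mul, abs_neg, abs_neg]
        have hb : |b| ≤ 1 := abs_cE_le _ _ _ _
        have ha' : |a'| ≤ 1 := abs_cE_le _ _ _ _
        nlinarith [mul_le_of_le_one_right (abs_nonneg (a - a')) hb,
          mul_le_of_le_one_left (abs_nonneg (b - b')) ha']
      have d2 : |covJ ν r (D : Set V) v u ω + covJ ν (gt n i) (D : Set V) v u ω| ≤ 4 :=
        (abs_add_le _ _).trans (by
          linarith [abs_covJ_le (ν := ν) r (D : Set V) v u ω,
            abs_covJ_le (ν := ν) (gt n i) (D : Set V) v u ω])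
      have hmul := mul_le_mul d1 d2 (abs_nonneg _) ((abs_nonneg _).trans d1)
      rw [← abs_mul] at hmul
      have := le_abs_self ((covJ ν r (D : Set V) v u ω - covJ ν (gt n i) (D : Set V) v u ω)
        * (covJ ν r (D : Set V) v u ω + covJ ν (gt n i) (D : Set V) v u ω))
      nlinarith
    have hiJ : ∀ t, Integrable (fun ω => covJ ν t (D : Set V) v u ω ^ 2) (probM ν) := fun t =>
      integrable_bdd (by fun_prop) (C := 4) fun ω => by
        rw [abs_pow]
        exact (pow_le_pow_left₀ (abs_nonneg _) (abs_covJ_le _ _ _ _ _) 2).trans (by norm_num)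
    refine (integral_mono (hiJ r) ((hiJ (gt n i)).add (hXi.const_mul 4)) hpt).trans ?_
    simp only [Pi.add_apply]
    rw [integral_add (hiJ _) (hXi.const_mul 4), integral_const_mul]
    refine add_le_add le_rfl (mul_le_mul_of_nonneg_left ?_ (by norm_num))
    have a1 := cE_abs_diff (ν := ν) h1 (subset_rfl (a := (D : Set V)))
      (g := fun ω => sp v ω * sp u ω) ((measurable_sp v).mul (measurable_sp u)) (abs_sp_mul_le v u) hl0
    have a2 := cE_abs_diff (ν := ν) h1 (subset_rfl (a := (D : Set V))) (measurable_sp v) (abs_sp_le v) hl0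
    have a3 := cE_abs_diff (ν := ν) h1 (subset_rfl (a := (D : Set V))) (measurable_sp u) (abs_sp_le u) hl0
    have b1 : G2 r u ≤ G2 (gt n (i + 1)) u := integral_cE_sq_mono h2 subset_rfl
      ((measurable_sp v).mul (measurable_sp u)) (abs_sp_mul_le v u)
    have b2 : qm ν r D v ≤ qm ν (gt n (i + 1)) D v := qm_mono h2 subset_rfl v
    have b3 : qm ν r D u ≤ qm ν (gt n (i + 1)) D u := qm_mono h2 subset_rfl u
    have i1 : Integrable (fun ω => |mm2 ν r (D : Set V) v u ω - mm2 ν (gt n i) (D : Set V) v u ω|)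
        (probM ν) := ((integrable_bdd (hm2 r) fun ω => abs_cE_le _ _ _ ω).sub
          (integrable_bdd (hm2 _) fun ω => abs_cE_le _ _ _ ω)).abs
    have i2 : ∀ w, Integrable (fun ω => |mu ν r (D : Set V) w ω - mu ν (gt n i) (D : Set V) w ω|)
        (probM ν) := fun w => ((integrable_bdd (measurable_mu r _ w) fun ω => abs_cE_le _ _ _ ω).sub
          (integrable_bdd (measurable_mu _ _ w) fun ω => abs_cE_le _ _ _ ω)).abs
    simp only [hX]
    rw [integral_add (f := fun ω => |mm2 ν r (D : Set V) v u ω - mm2 ν (gt n i) (D : Set V) v u ω|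
        + |mu ν r (D : Set V) v ω - mu ν (gt n i) (D : Set V) v ω|) (i1.add (i2 v)) (i2 u),
      integral_add i1 (i2 v)]
    simp only [hE, hG2, qm, mu, mm2] at *
    have : (0 : ℝ) ≤ 1 / (2 * l) := by positivity
    have c1 := mul_le_mul_of_nonneg_right (add_le_add (add_le_add b1 b2) b3) this
    simp only [mul_one_div, add_div, sub_div] at c1 a1 a2 a3 ⊢
    linarith
  -- the fine scale
  set CD := 576 * (1 + ∫ x, x ^ 4 ∂gaussianReal 0 1) * ((D.card : ℝ) ^ 4 + (D.card : ℝ) ^ 2)
  set B := ∑ i ∈ Finset.range N, Δ * (∑ u ∈ F, EJ (gt n (i0 + i)) u + 4 * ∑ u ∈ F, E (i0 + i) u + τ)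
    with hB
  have hfine : ∀ m : ℕ, qm ν (gt n (i0 + N)) D v - qm ν (gt n i0) D v
      ≤ (1 + 1 / ((m : ℝ) + 1)) * B + CD * N * Δ ^ 2 * (((m : ℝ) + 1) * (1 / 2) ^ m) := by
    intro m
    set M := n + m
    set h' := mesh M
    have hM : h' * 2 ^ m = Δ := mesh_add n m
    have hgt : ∀ i, gt M (2 ^ m * i) = gt n i := by
      intro i; simp only [gt]; push_cast; rw [← hΔ, ← hM]; ring
    have htel : qm ν (gt n (i0 + N)) D v - qm ν (gt n i0) D v
        = ∑ k ∈ Finset.range (2 ^ m * N),
            (qm ν (gt M (2 ^ m * i0 + (k + 1))) D v - qm ν (gt M (2 ^ m * i0 + k)) D v) := by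
      rw [Finset.sum_range_sub (fun k => qm ν (gt M (2 ^ m * i0 + k)) D v), ← mul_add, add_zero,
        hgt, hgt]
    rw [htel, sum_range_blocks]
    set ε : ℝ := 1 / ((m : ℝ) + 1) with hεd
    have hε0 : 0 < ε := by positivity
    have hε1 : ε ≤ 1 := by rw [hεd, div_le_one (by positivity)]; linarith [Nat.cast_nonneg (α := ℝ) m]
    have hin : ∀ i < N, ∀ j < 2 ^ m,
        qm ν (gt M (2 ^ m * i0 + (2 ^ m * i + j + 1))) D v
          - qm ν (gt M (2 ^ m * i0 + (2 ^ m * i + j))) D v
        ≤ (1 + ε) * (h' * (∑ u ∈ F, EJ (gt n (i0 + i)) u + 4 * ∑ u ∈ F, E (i0 + i) u + τ))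
          + CD * (h' ^ 2 / ε) := by
      intro i hi j hj
      set kk := 2 ^ m * i0 + (2 ^ m * i + j) with hkk
      have hs := step_upper hν h.tree hθ hD hv M kk hε0 hε1
      rw [show 2 ^ m * i0 + (2 ^ m * i + j + 1) = kk + 1 by omega]
      refine hs.trans (add_le_add (mul_le_mul_of_nonneg_left (mul_le_mul_of_nonneg_left ?_
        (mesh_pos M).le) (by linarith)) le_rfl)
      have hlo : gt n (i0 + i) ≤ gt M kk := by
        rw [← hgt]; exact gt_mono M (by rw [hkk, mul_add]; omega)
      have hhi : gt M kk ≤ gt n (i0 + i + 1) := by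
        rw [← hgt]; exact gt_mono M (by rw [hkk, mul_add, mul_add]; omega)
      rw [← Finset.sum_sdiff hF]
      have t1 := hτ (gt M kk) ((gt_mono n (Nat.le_add_right _ _)).trans hlo)
        (hhi.trans (gt_mono n (by omega)))
      have t2 : ∑ u ∈ F, EJ (gt M kk) u ≤ ∑ u ∈ F, (EJ (gt n (i0 + i)) u + 4 * E (i0 + i) u) :=
        Finset.sum_le_sum fun u _ => hblock _ _ u hlo hhi
      rw [Finset.sum_add_distrib, ← Finset.mul_sum] at t2
      simp only [hEJ] at t2 ⊢
      exact (add_le_add t1 t2).trans (by linarith)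
    refine (Finset.sum_le_sum fun i hi => Finset.sum_le_sum fun j hj =>
      hin i (Finset.mem_range.1 hi) j (Finset.mem_range.1 hj)).trans (le_of_eq ?_)
    simp only [hB, Finset.sum_add_distrib, Finset.sum_const, Finset.card_range, nsmul_eq_mul,
      Finset.mul_sum]
    push_cast
    congr 1
    · refine Finset.sum_congr rfl fun i _ => ?_
      rw [← hM]; ring
    · rw [← hM, hεd, div_div_eq_mul_div, div_one]
      have : (1 / 2 : ℝ) ^ m * 2 ^ m = 1 := by rw [← mul_pow]; norm_num
      linear_combination (-(CD * N * h' ^ 2 * (2 : ℝ) ^ m * ((m : ℝ) + 1))) * this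
  have hlimit : qm ν (gt n (i0 + N)) D v - qm ν (gt n i0) D v ≤ B := by
    refine ge_of_tendsto (x := atTop) (f := fun m : ℕ =>
      (1 + 1 / ((m : ℝ) + 1)) * B + CD * N * Δ ^ 2 * (((m : ℝ) + 1) * (1 / 2) ^ m)) ?_
      (Eventually.of_forall hfine)
    have h1 : Tendsto (fun m : ℕ => 1 / ((m : ℝ) + 1)) atTop (𝓝 0) :=
      tendsto_one_div_add_atTop_nhds_zero_nat
    have h2 : Tendsto (fun m : ℕ => ((m : ℝ) + 1) * (1 / 2) ^ m) atTop (𝓝 0) := by
      have a := tendsto_self_mul_const_pow_of_lt_one (r := (1 / 2 : ℝ)) (by norm_num) (by norm_num)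
      have b := tendsto_pow_atTop_nhds_zero_of_lt_one (r := (1 / 2 : ℝ)) (by norm_num) (by norm_num)
      simpa [add_mul] using a.add b
    simpa using ((h1.const_add 1).mul_const B).add (h2.const_mul (CD * N * Δ ^ 2))
  refine hlimit.trans ?_
  have hEsum : ∀ u : V, ∑ i ∈ Finset.range N, E (i0 + i) u ≤ 3 * l / 2 * N + 3 / (2 * l) := by
    intro u
    simp only [hE, Finset.sum_add_distrib, Finset.sum_const, Finset.card_range, nsmul_eq_mul,
      ← Finset.sum_div]
    have a1 := sum_abs_telescope (q := fun i => G2 (gt n i) u)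
      (fun i => integral_nonneg fun _ => sq_nonneg _) (fun i => integral_cE_sq_le_one _ _ _) i0 N
    have a2 := sum_abs_telescope (q := fun i => qm ν (gt n i) D v) (fun i => qm_nonneg _ _ _)
      (fun i => qm_le_one _ _ _) i0 N
    have a3 := sum_abs_telescope (q := fun i => qm ν (gt n i) D u) (fun i => qm_nonneg _ _ _)
      (fun i => qm_le_one _ _ _) i0 N
    rw [mul_comm (N : ℝ)]
    refine add_le_add le_rfl (div_le_div_of_nonneg_right ?_ (by positivity))
    linarith
  simp only [hB, mul_add, Finset.sum_add_distrib, Finset.sum_const, Finset.card_range, nsmul_eq_mul]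
  have h4 : ∑ i ∈ Finset.range N, Δ * (4 * ∑ u ∈ F, E (i0 + i) u)
      ≤ 6 * F.card * l * (gt n N + 1) := by
    rw [← Finset.mul_sum, ← Finset.mul_sum, Finset.sum_comm]
    refine (mul_le_mul_of_nonneg_left (mul_le_mul_of_nonneg_left
      (Finset.sum_le_sum fun u _ => hEsum u) (by norm_num)) hΔ0.le).trans (le_of_eq ?_)
    rw [Finset.sum_const, nsmul_eq_mul, gt, ← hΔ]
    have hll : l * l = Δ := Real.mul_self_sqrt hΔ0.le
    field_simp
    linear_combination (-(12 : ℝ) * F.card) * hll
  have h5 : (N : ℝ) * (Δ * τ) = gt n N * τ := by rw [gt, ← hΔ]; ring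
  simp only [hEJ] at h4 ⊢
  linarith

/-- The lower bound for what the innovations reveal. -/
lemma pB_lower [Countable V] (h : Reg G d) (hν : HasMarginals G θ ν) (hθ : |θ| < 1) (v : V)
    (F : Finset V) (n i0 N : ℕ) :
    (∑ i ∈ Finset.range N, mesh n *
        ∑ u ∈ F, 4 * ∫ ω, bE G θ ν (gt n (i0 + i)) (halfJ ν (gt n (i0 + i)) v u) ω ^ 2 ∂probM ν)
      - 4 * F.card * Real.sqrt (mesh n) * (gt n N + 1)
      ≤ pB G θ ν (gt n (i0 + N)) v - pB G θ ν (gt n i0) v := by
  set Δ := mesh n with hΔ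
  have hΔ0 : 0 < Δ := mesh_pos n
  set l := Real.sqrt Δ with hl
  have hl0 : 0 < l := Real.sqrt_pos.2 hΔ0
  set s : ℕ → ℝ := fun i => gt n (i0 + i) with hsdef
  set hc : ℕ → V → Omega V → ℝ := fun i u ω => 2 * bE G θ ν (s i) (halfJ ν (s i) v u) ω with hhc
  set B : ℕ → V → Omega V → ℝ := fun i u => vers G θ ν (u, n, i0 + i) with hBd
  have hcm : ∀ i u, Measurable[bAlg G θ ν (s i)] (hc i u) := fun i u =>
    (measurable_bE_b _ _).const_mul 2
  have hcb : ∀ i u ω, |hc i u ω| ≤ 2 := fun i u ω => by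
    rw [hhc]; dsimp only; rw [abs_mul, abs_two]
    linarith [abs_bE_le (G := G) (θ := θ) (ν := ν) (s i) (halfJ ν (s i) v u) ω]
  have hB2 : ∀ i u, MemLp (B i u) 2 (probM ν) := fun i u => memLp_vers h hν hθ _
  have hBm : ∀ i u j, i < j → Measurable[bAlg G θ ν (s j)] (B i u) := fun i u j hij => by
    refine measurable_vers_bAlg _ ?_
    show (((i0 + i : ℕ) : ℝ) + 1) * mesh n ≤ gt n (i0 + j)
    simp only [gt]
    refine mul_le_mul_of_nonneg_right ?_ (mesh_pos n).le
    exact_mod_cast Nat.succ_le_of_lt (Nat.add_lt_add_left hij i0)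
  have hst : ∀ i, s i = ((i0 + i : ℕ) : ℝ) * mesh n := fun i => rfl
  set P : Omega V → ℝ := bE G θ ν (s 0) (sp v) with hP
  set H : ℕ → Omega V → ℝ := fun M ω =>
    P ω + ∑ i ∈ Finset.range M, ∑ u ∈ F, hc i u ω * B i u ω with hH
  have hPm : Measurable[bAlg G θ ν (s 0)] P := measurable_bE_b _ _
  have hterm2 : ∀ i u, MemLp (fun ω => hc i u ω * B i u ω) 2 (probM ν) := fun i u => by
    refine MemLp.of_le_mul (c := 2) (hB2 i u)
      (((hcm i u).mono (bAlg_le _) le_rfl).aestronglyMeasurable.mul (hB2 i u).aestronglyMeasurable)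
      (Eventually.of_forall fun ω => ?_)
    rw [norm_mul]
    exact mul_le_mul_of_nonneg_right ((Real.norm_eq_abs _).trans_le (hcb i u ω)) (norm_nonneg _)
  have hH2 : ∀ M, MemLp (H M) 2 (probM ν) := fun M =>
    (MemLp.of_bound (measurable_bE _ _).aestronglyMeasurable 1
      (Eventually.of_forall fun ω => (Real.norm_eq_abs _).trans_le (abs_bE_le _ _ _))).add
      (memLp_finsetSum _ fun i _ => memLp_finsetSum _ fun u _ => hterm2 i u)
  have hHm : ∀ M, Measurable[bAlg G θ ν (s M)] (H M) := fun M =>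
    (hPm.mono (bAlg_mono (gt_mono n (by omega))) le_rfl).add
      (Finset.measurable_sum _ fun i hi => Finset.measurable_sum _ fun u _ =>
        ((hcm i u).mono (bAlg_mono (gt_mono n (by have := Finset.mem_range.1 hi; omega))) le_rfl).mul
          (hBm i u M (Finset.mem_range.1 hi)))
  have hiσ : ∀ f : Omega V → ℝ, Integrable f (probM ν) →
      Integrable (fun ω => sp v ω * f ω) (probM ν) := fun f hf =>
    hf.bdd_mul (measurable_sp v).aestronglyMeasurable
      (Eventually.of_forall fun ω => (Real.norm_eq_abs _).trans_le (abs_sp_le v ω))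
  have hI1 : ∀ {f : Omega V → ℝ}, MemLp f 2 (probM ν) → Integrable f (probM ν) :=
    fun hf => hf.integrable (by norm_num)
  set Sh : ℕ → ℝ := fun i => ∑ u ∈ F, ∫ ω, hc i u ω ^ 2 ∂probM ν with hSh
  have hsqsum : ∀ M, ∫ ω, H M ω ^ 2 ∂probM ν = pB G θ ν (s 0) v + Δ * ∑ i ∈ Finset.range M, Sh i := by
    intro M
    induction M with
    | zero => simp [hH, hP, pB]
    | succ M ih =>
      set X : Omega V → ℝ := fun ω => ∑ u ∈ F, hc M u ω * B M u ω with hX
      have hX2 : MemLp X 2 (probM ν) := memLp_finsetSum _ fun u _ => hterm2 M u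
      have e : ∀ ω, H (M + 1) ω ^ 2 = H M ω ^ 2 + (2 * (H M ω * X ω) + X ω ^ 2) := fun ω => by
        simp only [hH, hX, Finset.sum_range_succ]; ring
      simp only [e]
      have hHX : Integrable (fun ω => H M ω * X ω) (probM ν) := (hH2 M).integrable_mul hX2
      rw [integral_add (hH2 M).integrable_sq (g := fun ω => 2 * (H M ω * X ω) + X ω ^ 2)
          ((hHX.const_mul 2).add hX2.integrable_sq),
        integral_add (hHX.const_mul 2) hX2.integrable_sq,
        integral_const_mul, ih, Finset.sum_range_succ, mul_add]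
      have c1 : ∫ ω, H M ω * X ω ∂probM ν = 0 := by
        simp only [hX, Finset.mul_sum]
        have hi : ∀ u, Integrable (fun ω => H M ω * (hc M u ω * B M u ω)) (probM ν) := fun u =>
          (hH2 M).integrable_mul (hterm2 M u)
        rw [integral_finsetSum _ fun u _ => hi u]
        refine Finset.sum_eq_zero fun u _ => ?_
        simp only [← mul_assoc]
        refine innov_mean h hν hθ n (i0 + M) (hst M) u ((hHm M).mul (hcm M u)) ?_
        simpa [mul_assoc] using hi u
      have c2 : ∫ ω, X ω ^ 2 ∂probM ν = Δ * Sh M := by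
        have e2 : ∀ ω, X ω ^ 2 = ∑ u ∈ F, ∑ u' ∈ F,
            (hc M u ω * B M u ω) * (hc M u' ω * B M u' ω) := fun ω => by
          rw [hX, sq, Finset.sum_mul_sum]
        simp only [e2, hSh, Finset.mul_sum]
        have hi : ∀ u u', Integrable (fun ω => (hc M u ω * B M u ω) * (hc M u' ω * B M u' ω))
            (probM ν) := fun u u' => (hterm2 M u).integrable_mul (hterm2 M u')
        rw [integral_finsetSum _ fun u _ => integrable_finsetSum _ fun u' _ => hi u u']
        refine Finset.sum_congr rfl fun u hu => ?_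
        rw [integral_finsetSum _ fun u' _ => hi u u']
        have key : ∀ u', ∫ ω, (hc M u ω * B M u ω) * (hc M u' ω * B M u' ω) ∂probM ν
            = (if u = u' then Δ else 0) * ∫ ω, hc M u ω * hc M u' ω ∂probM ν := fun u' => by
          refine Eq.trans ?_ (innov_moments h hν hθ n (i0 + M) (hst M) u u'
            ((hcm M u).mul (hcm M u')) (C := 4) fun ω => by
              simp only [Pi.mul_apply, abs_mul]
              nlinarith [hcb M u ω, hcb M u' ω, abs_nonneg (hc M u ω), abs_nonneg (hc M u' ω)]).2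
          refine integral_congr_ae (Eventually.of_forall fun ω => ?_)
          simp only [hBd, Pi.mul_apply]
          ring
        simp only [key]
        rw [Finset.sum_eq_single_of_mem u hu fun b _ hb => by rw [if_neg (Ne.symm hb), zero_mul],
          if_pos rfl]
        simp only [sq]
      rw [c1, c2]
      simp
      ring
  -- the correlation with the spin
  set Dq : ℕ → V → ℝ := fun i u =>
    l + ((qm ν (s (i + 1)) Set.univ v - qm ν (s i) Set.univ v)
      + (qm ν (s (i + 1)) Set.univ u - qm ν (s i) Set.univ u)) / (2 * l) with hDq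
  have hcorr : ∀ i u, Δ * ∫ ω, hc i u ω ^ 2 ∂probM ν - 2 * Δ * Dq i u
      ≤ ∫ ω, sp v ω * (hc i u ω * B i u ω) ∂probM ν := by
    intro i u
    obtain ⟨hXi, hBi, hlimX⟩ := tendsto_binc h hν hθ u ((u, n, i0 + i) : V × ℕ × ℕ)
    set X : ℕ → Omega V → ℝ := fun R ω =>
      inc n (slice (innX G θ (h.ball u R) (n + R) ω) u) (i0 + i) with hX
    set K : Omega V → ℝ := fun ω => sp v ω * hc i u ω with hK
    have hcm0 : Measurable (hc i u) := (hcm i u).mono (bAlg_le _) le_rfl
    have hKm : Measurable K := (measurable_sp v).mul hcm0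
    have hKb : ∀ ω, |K ω| ≤ 2 := fun ω => by
      rw [hK]; dsimp only; rw [abs_mul]
      exact (mul_le_of_le_one_left (abs_nonneg _) (abs_sp_le v ω)).trans (hcb i u ω)
    have hlim : Tendsto (fun R => ∫ ω, K ω * X R ω ∂probM ν) atTop
        (𝓝 (∫ ω, sp v ω * (hc i u ω * B i u ω) ∂probM ν)) := by
      have e : ∫ ω, sp v ω * (hc i u ω * B i u ω) ∂probM ν
          = ∫ ω, K ω * binc G θ ν (u, n, i0 + i) ω ∂probM ν := integral_congr_ae (by
        filter_upwards [vers_ae h hν hθ (u, n, i0 + i)] with ω hω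
        simp only [hK, hBd, hω]; ring)
      rw [e, tendsto_iff_dist_tendsto_zero]
      refine squeeze_zero (fun R => dist_nonneg) (fun R => ?_) (by simpa using hlimX.const_mul 2)
      rw [Real.dist_eq]
      have i1 : Integrable (fun ω => K ω * X R ω) (probM ν) := (hXi R).bdd_mul
        hKm.aestronglyMeasurable (Eventually.of_forall fun ω => (Real.norm_eq_abs _).trans_le (hKb ω))
      have i2 : Integrable (fun ω => K ω * binc G θ ν (u, n, i0 + i) ω) (probM ν) := hBi.bdd_mul
        hKm.aestronglyMeasurable (Eventually.of_forall fun ω => (Real.norm_eq_abs _).trans_le (hKb ω))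
      rw [← integral_sub i1 i2, ← integral_const_mul]
      refine abs_integral_le_integral_abs.trans (integral_mono_of_nonneg
        (Eventually.of_forall fun _ => abs_nonneg _) (((hXi R).sub hBi).abs.const_mul 2)
        (Eventually.of_forall fun ω => ?_))
      show |K ω * X R ω - K ω * binc G θ ν (u, n, i0 + i) ω|
        ≤ 2 * |X R ω - binc G θ ν (u, n, i0 + i) ω|
      rw [← mul_sub, abs_mul]
      exact mul_le_mul_of_nonneg_right (hKb ω) (abs_nonneg _)
    -- the exact value on finite volumes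
    set mD : ℕ → ℝ → Omega V → ℝ := fun R r => mu ν r (h.ball u R : Set V) u with hmD
    have hsi : ∀ R j, s i ≤ ((2 ^ R * (i0 + i) + j : ℕ) : ℝ) * mesh (n + R) := fun R j =>
      le_fine_time n (i0 + i) R j
    have hval : ∀ R, ∫ ω, K ω * X R ω ∂probM ν
        = Δ * ∫ ω, hc i u ω * mm2 ν (s i) Set.univ v u ω ∂probM ν
          - mesh (n + R) * ∑ j ∈ Finset.range (2 ^ R),
              ∫ ω, hc i u ω * (mu ν (((2 ^ R * (i0 + i) + j : ℕ) : ℝ) * mesh (n + R)) Set.univ v ω
                * mD R (((2 ^ R * (i0 + i) + j : ℕ) : ℝ) * mesh (n + R)) ω) ∂probM ν := by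
      intro R
      have hu : u ∈ h.ball u R := h.mem_ball.2 (by simp)
      have eX : ∀ ω, K ω * X R ω = K ω * (mesh n * spin (ω.1 u))
          + K ω * inc n (slice ω.2 u) (i0 + i)
          - K ω * (mesh (n + R) * ∑ j ∈ Finset.range (2 ^ R),
            mag G θ (h.ball u R) (pos (n + R) ω (2 ^ R * (i0 + i) + j)) u) := fun ω => by
        simp only [hX, binc_approx_eq _ _ hu, incY]; ring
      simp only [eX]
      have hi1 : Integrable (fun ω => K ω * (mesh n * spin (ω.1 u))) (probM ν) :=
        integrable_bdd (hKm.mul ((measurable_sp u).const_mul _)) (C := 2 * mesh n) fun ω => by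
          simp only [Pi.mul_apply, abs_mul, abs_of_pos (mesh_pos n)]
          calc |K ω| * (mesh n * |sp u ω|) ≤ 2 * (mesh n * 1) :=
                mul_le_mul (hKb ω) (mul_le_mul_of_nonneg_left (abs_sp_le u ω) (mesh_pos n).le)
                  (by positivity) two_pos.le
            _ = _ := by ring
      have hi2 : Integrable (fun ω => K ω * inc n (slice ω.2 u) (i0 + i)) (probM ν) :=
        (Integrable.comp_snd (f := fun Z => inc n (slice Z u) (i0 + i))
          ((memLp_inc n u _).integrable (by norm_num)) ν).bdd_mul hKm.aestronglyMeasurable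
          (Eventually.of_forall fun ω => (Real.norm_eq_abs _).trans_le (hKb ω))
      have hi3 : ∀ j, Integrable (fun ω => K ω * mag G θ (h.ball u R)
          (pos (n + R) ω (2 ^ R * (i0 + i) + j)) u) (probM ν) := fun j =>
        integrable_bdd (hKm.mul (measurable_magPos _ _ _ _)) (C := 2 * 1) fun ω => by
          simp only [Pi.mul_apply, abs_mul]
          exact mul_le_mul (hKb ω) (abs_mag_le hθ _ _ _) (abs_nonneg _) two_pos.le
      have hi4 : Integrable (fun ω => K ω * (mesh (n + R) * ∑ j ∈ Finset.range (2 ^ R),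
          mag G θ (h.ball u R) (pos (n + R) ω (2 ^ R * (i0 + i) + j)) u)) (probM ν) := by
        simp only [Finset.mul_sum, mul_left_comm (K _)]
        exact integrable_finsetSum _ fun j _ => (hi3 j).const_mul _
      rw [integral_sub (f := fun ω => K ω * (mesh n * spin (ω.1 u))
        + K ω * inc n (slice ω.2 u) (i0 + i)) (hi1.add hi2) hi4, integral_add hi1 hi2]
      have z1 : ∫ ω, K ω * inc n (slice ω.2 u) (i0 + i) ∂probM ν = 0 := by
        obtain ⟨φ0, hφ0, e0⟩ := ((hcm i u).mono (bAlg_le_obsAlg (s i)) le_rfl).exists_eq_measurable_comp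
        set φ : (V → Bool) × (V × ℕ × ℕ → ℝ) → ℝ := fun z =>
          spin (z.1 v) * max (-2) (min 2 (φ0 z.2))
        have hφm : Measurable φ := ((measurable_spin_eval v).comp measurable_fst).mul
          (measurable_const.max (measurable_const.min (hφ0.comp measurable_snd)))
        have hφb : ∀ z, |φ z| ≤ 2 := fun z => by
          simp only [φ]
          rw [abs_mul, abs_spin, one_mul]
          exact abs_le.2 ⟨le_max_left _ _, max_le (by norm_num) (min_le_left _ _)⟩
        rw [← noise_mean (ν := ν) n (i0 + i) (hst i) u hφm hφb]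
        refine integral_congr_ae (Eventually.of_forall fun ω => ?_)
        have := abs_le.1 (hcb i u ω)
        have e : φ0 (obs (s i) Set.univ ω) = hc i u ω := by rw [e0]; rfl
        simp only [φ, hK, sp, e, min_eq_right this.2, max_eq_right this.1]
      have z2 : ∫ ω, K ω * (mesh n * spin (ω.1 u)) ∂probM ν
          = Δ * ∫ ω, hc i u ω * mm2 ν (s i) Set.univ v u ω ∂probM ν := by
        rw [mm2, integral_mul_cE (g := fun ω => sp v ω * sp u ω)
          ((measurable_sp v).mul (measurable_sp u)) (abs_sp_mul_le v u)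
          ((hcm i u).mono (bAlg_le_obsAlg (s i)) le_rfl) (hcb i u), ← integral_const_mul]
        refine integral_congr_ae (Eventually.of_forall fun ω => ?_)
        simp only [hK, sp, hΔ]; ring
      rw [z1, z2, add_zero]
      simp only [Finset.mul_sum, mul_left_comm (K _)]
      rw [integral_finsetSum _ fun j _ => (hi3 j).const_mul _]
      congr 1
      refine Finset.sum_congr rfl fun j _ => ?_
      rw [integral_const_mul]
      congr 1
      set r := ((2 ^ R * (i0 + i) + j : ℕ) : ℝ) * mesh (n + R)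
      have hFm : Measurable[obsAlg r Set.univ] fun ω => hc i u ω * mD R r ω :=
        (((hcm i u).mono (bAlg_le_obsAlg (s i)) le_rfl).mono (obsAlg_mono (hsi R j) subset_rfl)
          le_rfl).mul ((measurable_cE_obs r _ _).mono (obsAlg_mono le_rfl (Set.subset_univ _)) le_rfl)
      have e1 := integral_mul_cE (ν := ν) (t := r) (S := Set.univ) (measurable_sp v) (abs_sp_le v)
        hFm (C := 2) fun ω => by
          rw [abs_mul]
          exact (mul_le_of_le_one_right (abs_nonneg _) (abs_cE_le _ _ _ _)).trans (hcb i u ω)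
      calc ∫ ω, K ω * mag G θ (h.ball u R) (pos (n + R) ω (2 ^ R * (i0 + i) + j)) u ∂probM ν
          = ∫ ω, hc i u ω * mD R r ω * sp v ω ∂probM ν := integral_congr_ae (by
            filter_upwards [mu_finite hν h.tree hθ (h.conn_ball u R) (n + R)
              (2 ^ R * (i0 + i) + j) hu] with ω hω
            simp only [hK, hmD, r]
            rw [hω]; ring)
        _ = ∫ ω, hc i u ω * mD R r ω * cE ν r Set.univ (sp v) ω ∂probM ν := e1.symm
        _ = _ := integral_congr_ae (Eventually.of_forall fun ω => by simp only [mu]; ring)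
    set T0 := ∫ ω, hc i u ω * (mu ν (s i) Set.univ v ω * mu ν (s i) Set.univ u ω) ∂probM ν with hT0
    have hlow : ∀ R, Δ * ∫ ω, hc i u ω * mm2 ν (s i) Set.univ v u ω ∂probM ν - Δ * T0
        - 2 * Δ * (l + ((qm ν (s (i + 1)) Set.univ v - qm ν (s i) Set.univ v)
          + (qm ν (s (i + 1)) (h.ball u R : Set V) u - qm ν (s i) (h.ball u R : Set V) u)) / (2 * l)
          + ∫ ω, |mD R (s i) ω - mu ν (s i) Set.univ u ω| ∂probM ν)
        ≤ ∫ ω, K ω * X R ω ∂probM ν := by
      intro R
      rw [hval R]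
      have hb : ∀ j < 2 ^ R,
          ∫ ω, hc i u ω * (mu ν (((2 ^ R * (i0 + i) + j : ℕ) : ℝ) * mesh (n + R)) Set.univ v ω
            * mD R (((2 ^ R * (i0 + i) + j : ℕ) : ℝ) * mesh (n + R)) ω) ∂probM ν
          ≤ T0 + 2 * (l + ((qm ν (s (i + 1)) Set.univ v - qm ν (s i) Set.univ v)
            + (qm ν (s (i + 1)) (h.ball u R : Set V) u - qm ν (s i) (h.ball u R : Set V) u)) / (2 * l)
            + ∫ ω, |mD R (s i) ω - mu ν (s i) Set.univ u ω| ∂probM ν) := by
        intro j hj
        set r := ((2 ^ R * (i0 + i) + j : ℕ) : ℝ) * mesh (n + R)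
        have hr1 : s i ≤ r := hsi R j
        have hr2 : r ≤ s (i + 1) := by
          refine (fine_time_le n (i0 + i) R j hj.le).trans (le_of_eq ?_)
          simp only [hsdef, gt]; push_cast; ring
        set A : Omega V → ℝ := fun ω => |mu ν r Set.univ v ω - mu ν (s i) Set.univ v ω|
        set A' : Omega V → ℝ := fun ω => |mD R r ω - mD R (s i) ω|
        set A'' : Omega V → ℝ := fun ω => |mD R (s i) ω - mu ν (s i) Set.univ u ω|
        have hbd : ∀ (a b : ℝ), |a| ≤ 1 → |b| ≤ 1 → |(|a - b|)| ≤ 2 := fun a b ha hb => by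
          rw [abs_abs]; exact (abs_sub _ _).trans (by linarith)
        have iA : Integrable A (probM ν) := integrable_bdd (by fun_prop) fun ω =>
          hbd _ _ (abs_cE_le _ _ _ _) (abs_cE_le _ _ _ _)
        have iA' : Integrable A' (probM ν) := integrable_bdd (by fun_prop) fun ω =>
          hbd _ _ (abs_cE_le _ _ _ _) (abs_cE_le _ _ _ _)
        have iA'' : Integrable A'' (probM ν) := integrable_bdd (by fun_prop) fun ω =>
          hbd _ _ (abs_cE_le _ _ _ _) (abs_cE_le _ _ _ _)
        have ib : ∀ (f g : Omega V → ℝ), Measurable f → Measurable g → (∀ ω, |f ω| ≤ 1) →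
            (∀ ω, |g ω| ≤ 1) → Integrable (fun ω => hc i u ω * (f ω * g ω)) (probM ν) :=
          fun f g hf hg h1 h2 => integrable_bdd (hcm0.mul (hf.mul hg)) (C := 2) fun ω => by
            simp only [Pi.mul_apply, abs_mul]
            exact (mul_le_of_le_one_right (abs_nonneg _)
              (mul_le_one₀ (h1 ω) (abs_nonneg _) (h2 ω))).trans (hcb i u ω)
        have hpt : ∀ ω, hc i u ω * (mu ν r Set.univ v ω * mD R r ω)
            ≤ hc i u ω * (mu ν (s i) Set.univ v ω * mu ν (s i) Set.univ u ω)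
              + 2 * (A ω + (A' ω + A'' ω)) := by
          intro ω
          have d1 : |mu ν r Set.univ v ω * mD R r ω - mu ν (s i) Set.univ v ω * mu ν (s i) Set.univ u ω|
              ≤ A ω + (A' ω + A'' ω) := by
            rw [show mu ν r Set.univ v ω * mD R r ω - mu ν (s i) Set.univ v ω * mu ν (s i) Set.univ u ω
              = (mu ν r Set.univ v ω - mu ν (s i) Set.univ v ω) * mD R r ω
                + mu ν (s i) Set.univ v ω * ((mD R r ω - mD R (s i) ω)
                  + (mD R (s i) ω - mu ν (s i) Set.univ u ω)) by ring]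
            refine (abs_add_le _ _).trans (add_le_add ?_ ?_)
            · rw [abs_mul]; exact mul_le_of_le_one_right (abs_nonneg _) (abs_cE_le _ _ _ _)
            · rw [abs_mul]
              exact (mul_le_of_le_one_left (abs_nonneg _) (abs_cE_le _ _ _ _)).trans (abs_add_le _ _)
          have d2 : hc i u ω * (mu ν r Set.univ v ω * mD R r ω
              - mu ν (s i) Set.univ v ω * mu ν (s i) Set.univ u ω) ≤ 2 * (A ω + (A' ω + A'' ω)) :=
            (le_abs_self _).trans (by
              rw [abs_mul]; exact mul_le_mul (hcb i u ω) d1 (abs_nonneg _) two_pos.le)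
          linarith [mul_sub (hc i u ω) (mu ν r Set.univ v ω * mD R r ω)
            (mu ν (s i) Set.univ v ω * mu ν (s i) Set.univ u ω)]
        refine (integral_mono (ib _ _ (measurable_mu _ _ _) (measurable_mu _ _ _) (abs_cE_le _ _ _)
          (abs_cE_le _ _ _)) ((ib _ _ (measurable_mu _ _ _) (measurable_mu _ _ _) (abs_cE_le _ _ _)
          (abs_cE_le _ _ _)).add ((iA.add (iA'.add iA'')).const_mul 2)) hpt).trans ?_
        simp only [Pi.add_apply]
        rw [integral_add (f := fun ω => hc i u ω * (mu ν (s i) Set.univ v ω * mu ν (s i) Set.univ u ω))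
            (g := fun ω => 2 * (A ω + (A' ω + A'' ω))) (ib _ _ (measurable_mu _ _ _) (measurable_mu _ _ _) (abs_cE_le _ _ _) (abs_cE_le _ _ _))
            ((iA.add (iA'.add iA'')).const_mul 2), integral_const_mul,
          integral_add (g := fun ω => A' ω + A'' ω) iA (iA'.add iA''), integral_add iA' iA'', ← hT0]
        have a1 := cE_abs_diff (ν := ν) hr1 (subset_rfl (a := (Set.univ : Set V)))
          (measurable_sp v) (abs_sp_le v) hl0
        have a2 := cE_abs_diff (ν := ν) hr1 (subset_rfl (a := (h.ball u R : Set V)))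
          (measurable_sp u) (abs_sp_le u) hl0
        have b1 : qm ν r Set.univ v ≤ qm ν (s (i + 1)) Set.univ v := qm_mono hr2 subset_rfl v
        have b2 : qm ν r (h.ball u R : Set V) u ≤ qm ν (s (i + 1)) (h.ball u R : Set V) u :=
          qm_mono hr2 subset_rfl u
        have c1 := mul_le_mul_of_nonneg_right (add_le_add b1 b2) (show 0 ≤ 1 / (2 * l) by positivity)
        simp only [A, A', A'', hmD, qm, mu] at *
        simp only [mul_one_div, add_div, sub_div] at a1 a2 c1 ⊢
        linarith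
      have h3 := mul_le_mul_of_nonneg_left (Finset.sum_le_sum fun j hj => hb j (Finset.mem_range.1 hj))
        (mesh_pos (n + R)).le
      rw [Finset.sum_const, Finset.card_range, nsmul_eq_mul, ← mul_assoc,
        show mesh (n + R) * ((2 ^ R : ℕ) : ℝ) = Δ by push_cast; rw [hΔ]; exact mesh_add n R] at h3
      linarith
    have hlimq : Tendsto (fun R => ∫ ω, |mD R (s i) ω - mu ν (s i) Set.univ u ω| ∂probM ν) atTop
        (𝓝 0) := by
      have := tendsto_integral_of_dominated_convergence
        (F := fun R ω => |mD R (s i) ω - mu ν (s i) Set.univ u ω|) (f := fun _ => (0 : ℝ))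
        (μ := probM ν) (fun _ => 2) (fun R => (by fun_prop : Measurable _).aestronglyMeasurable)
        (integrable_const _) (fun R => Eventually.of_forall fun ω => by
          rw [Real.norm_eq_abs, abs_abs]
          simp only [hmD, mu]
          exact (abs_sub _ _).trans (by
            linarith [abs_cE_le (ν := ν) (s i) (h.ball u R : Set V) (sp u) ω,
              abs_cE_le (ν := ν) (s i) Set.univ (sp u) ω]))
        (by
          filter_upwards [cE_tendsto (ν := ν) (s i) (ball_mono h u) (iUnion_ball h u)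
            (g := sp u) (abs_sp_le u)] with ω hω
          simpa [hmD, mu] using (hω.sub_const (cE ν (s i) Set.univ (sp u) ω)).abs)
      simpa using this
    have hq : ∀ j, Tendsto (fun R => qm ν (s j) (h.ball u R : Set V) u) atTop
        (𝓝 (qm ν (s j) Set.univ u)) := fun j =>
      tendsto_integral_cE (ν := ν) (s j) (ball_mono h u) (iUnion_ball h u) (abs_sp_le u)
        (continuous_pow 2)
    have hL := le_of_tendsto_of_tendsto' (((((((hq (i + 1)).sub (hq i)).const_add
      (qm ν (s (i + 1)) Set.univ v - qm ν (s i) Set.univ v)).div_const (2 * l)).const_add l).add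
      hlimq).const_mul (2 * Δ) |>.const_sub
        (Δ * ∫ ω, hc i u ω * mm2 ν (s i) Set.univ v u ω ∂probM ν - Δ * T0)) hlim hlow
    refine le_trans (le_of_eq ?_) hL
    rw [add_zero]
    congr 1
    have e1 : ∫ ω, hc i u ω ^ 2 ∂probM ν
        = ∫ ω, hc i u ω * mm2 ν (s i) Set.univ v u ω ∂probM ν - T0 := by
      have e2 : ∫ ω, hc i u ω * covJ ν (s i) Set.univ v u ω ∂probM ν
          = ∫ ω, hc i u ω ^ 2 ∂probM ν := by
        have e3 := integral_bE_mul_self (G := G) (θ := θ) (t := s i) (ν := ν)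
          (measurable_halfJ (ν := ν) (s i) v u) (abs_halfJ_le (ν := ν) (s i) v u)
        have p1 : ∀ ω, hc i u ω * covJ ν (s i) Set.univ v u ω
            = 4 * (bE G θ ν (s i) (halfJ ν (s i) v u) ω * halfJ ν (s i) v u ω) := fun ω => by
          simp only [hhc, halfJ]; ring
        have p2 : ∀ ω, hc i u ω ^ 2 = 4 * bE G θ ν (s i) (halfJ ν (s i) v u) ω ^ 2 := fun ω => by
          simp only [hhc]; ring
        simp only [p1, p2, integral_const_mul, e3]
      have ia : Integrable (fun ω => hc i u ω * mm2 ν (s i) Set.univ v u ω) (probM ν) :=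
        integrable_bdd (hcm0.mul (measurable_cE _ _ _)) (C := 2) fun ω => by
          simp only [Pi.mul_apply, abs_mul]
          exact (mul_le_of_le_one_right (abs_nonneg _) (abs_cE_le _ _ _ _)).trans (hcb i u ω)
      have ib : Integrable (fun ω => hc i u ω * (mu ν (s i) Set.univ v ω * mu ν (s i) Set.univ u ω))
          (probM ν) := integrable_bdd (hcm0.mul ((measurable_mu _ _ _).mul (measurable_mu _ _ _)))
            (C := 2) fun ω => by
          simp only [Pi.mul_apply, abs_mul]
          exact (mul_le_of_le_one_right (abs_nonneg _) (mul_le_one₀ (abs_cE_le _ _ _ _)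
            (abs_nonneg _) (abs_cE_le _ _ _ _))).trans (hcb i u ω)
      rw [← e2, hT0, ← integral_sub ia ib]
      refine integral_congr_ae (Eventually.of_forall fun ω => ?_)
      simp only [covJ]; ring
    rw [e1]; ring
  -- the variational inequality
  have hvar : 2 * ∫ ω, sp v ω * H N ω ∂probM ν - ∫ ω, H N ω ^ 2 ∂probM ν
      ≤ pB G θ ν (s N) v := by
    have e := integral_mul_bE (measurable_sp v) (abs_sp_le v) (hHm N) (hI1 (hH2 N))
    have e2 : ∫ ω, sp v ω * H N ω ∂probM ν = ∫ ω, bE G θ ν (s N) (sp v) ω * H N ω ∂probM ν := by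
      simp only [mul_comm _ (H N _)]; exact e.symm
    have ib : Integrable (fun ω => bE G θ ν (s N) (sp v) ω * H N ω) (probM ν) :=
      (hI1 (hH2 N)).bdd_mul (measurable_bE _ _).aestronglyMeasurable
        (Eventually.of_forall fun ω => (Real.norm_eq_abs _).trans_le (abs_bE_le _ _ _))
    rw [e2, pB, ← integral_const_mul, ← integral_sub (ib.const_mul 2) (hH2 N).integrable_sq]
    refine integral_mono ((ib.const_mul 2).sub (hH2 N).integrable_sq)
      (integrable_bdd ((measurable_bE _ _).pow_const 2) (C := 1) fun ω => by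
        rw [abs_pow]; exact pow_le_one₀ (abs_nonneg _) (abs_bE_le _ _ _)) fun ω => ?_
    simp only [Pi.sub_apply]
    nlinarith [sq_nonneg (bE G θ ν (s N) (sp v) ω - H N ω)]
  have hlin : ∫ ω, sp v ω * H N ω ∂probM ν
      = pB G θ ν (s 0) v
        + ∑ i ∈ Finset.range N, ∑ u ∈ F, ∫ ω, sp v ω * (hc i u ω * B i u ω) ∂probM ν := by
    simp only [hH, mul_add, Finset.mul_sum]
    rw [integral_add (hiσ _ (integrable_bdd (measurable_bE _ _) (abs_bE_le _ _)))
        (integrable_finsetSum _ fun i _ => integrable_finsetSum _ fun u _ => hiσ _ (hI1 (hterm2 i u))),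
      integral_finsetSum _ fun i _ => integrable_finsetSum _ fun u _ => hiσ _ (hI1 (hterm2 i u))]
    congr 1
    · rw [pB, ← integral_bE_mul_self (measurable_sp v) (abs_sp_le v)]
      simp only [mul_comm]
    · exact Finset.sum_congr rfl fun i _ => integral_finsetSum _ fun u _ => hiσ _ (hI1 (hterm2 i u))
  rw [hlin, hsqsum] at hvar
  have hsum : ∑ i ∈ Finset.range N, ∑ u ∈ F, (Δ * ∫ ω, hc i u ω ^ 2 ∂probM ν - 2 * Δ * Dq i u)
      ≤ ∑ i ∈ Finset.range N, ∑ u ∈ F, ∫ ω, sp v ω * (hc i u ω * B i u ω) ∂probM ν :=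
    Finset.sum_le_sum fun i _ => Finset.sum_le_sum fun u _ => hcorr i u
  have hDsum : ∑ i ∈ Finset.range N, ∑ u ∈ F, Dq i u ≤ F.card * (l * N + 1 / l) := by
    rw [Finset.sum_comm]
    refine (Finset.sum_le_card_nsmul _ _ (l * N + 1 / l) fun u _ => ?_).trans
      (le_of_eq (by rw [nsmul_eq_mul]))
    simp only [hDq, hsdef, ← add_assoc i0, Finset.sum_add_distrib, Finset.sum_const,
      Finset.card_range, nsmul_eq_mul, ← Finset.sum_div]
    have a1 := sum_abs_telescope (q := fun i => qm ν (gt n i) Set.univ v) (fun i => qm_nonneg _ _ _)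
      (fun i => qm_le_one _ _ _) i0 N
    have a2 := sum_abs_telescope (q := fun i => qm ν (gt n i) Set.univ u) (fun i => qm_nonneg _ _ _)
      (fun i => qm_le_one _ _ _) i0 N
    rw [show (N : ℝ) * l = l * N by ring, show 1 / l = 2 / (2 * l) by field_simp]
    refine add_le_add le_rfl (div_le_div_of_nonneg_right ?_ (by positivity))
    linarith
  simp only [Finset.sum_sub_distrib, ← Finset.mul_sum] at hsum
  simp only [hSh, ← Finset.mul_sum] at hvar
  have hcsq : ∀ i u, ∫ ω, hc i u ω ^ 2 ∂probM ν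
      = 4 * ∫ ω, bE G θ ν (s i) (halfJ ν (s i) v u) ω ^ 2 ∂probM ν := fun i u => by
    simp only [hhc, mul_pow, integral_const_mul]; norm_num
  simp only [hcsq, ← Finset.mul_sum] at hsum hvar
  have hll : l * l = Δ := Real.mul_self_sqrt hΔ0.le
  have h4 : 2 * (2 * Δ * (F.card * (l * N + 1 / l))) = 4 * F.card * l * (gt n N + 1) := by
    rw [gt, ← hΔ]; field_simp; linear_combination (-4 * (F.card : ℝ)) * hll
  have h5 := mul_le_mul_of_nonneg_left hDsum (show 0 ≤ 2 * Δ by positivity)
  simp only [hsdef, add_zero, ← Finset.mul_sum] at hvar hsum h5 ⊢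
  linarith

/-- The growth of the ambiguity. -/
theorem amb_step [Countable V] (h : Reg G d) (hν : HasMarginals G θ ν) (hθ : |θ| < 1) (v : V)
    (F : Finset V) (n i0 N : ℕ) {τ : ℝ}
    (hτ : ∀ᶠ R in atTop, ∀ r, gt n i0 ≤ r → r ≤ gt n (i0 + N) →
      ∑ u ∈ h.ball v R \ F, ∫ ω, covJ ν r (h.ball v R : Set V) v u ω ^ 2 ∂probM ν ≤ τ) :
    amb G θ ν (gt n (i0 + N)) v - amb G θ ν (gt n i0) v
      ≤ (∑ i ∈ Finset.range N, mesh n * ∑ u ∈ F,
            4 * ∫ ω, (halfJ ν (gt n (i0 + i)) v u ω
              - bE G θ ν (gt n (i0 + i)) (halfJ ν (gt n (i0 + i)) v u) ω) ^ 2 ∂probM ν)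
        + 10 * F.card * Real.sqrt (mesh n) * (gt n N + 1) + gt n N * τ := by
  have hlow := pB_lower h hν hθ v F n i0 N
  obtain ⟨R0, hR0⟩ := h.exists_ball_subset v F
  have hq : ∀ t, Tendsto (fun R => qm ν t (h.ball v R : Set V) v) atTop (𝓝 (qm ν t Set.univ v)) :=
    fun t => tendsto_integral_cE (ν := ν) t (ball_mono h v) (iUnion_ball h v) (abs_sp_le v)
      (continuous_pow 2)
  have hJ : ∀ t u, Tendsto (fun R => ∫ ω, covJ ν t (h.ball v R : Set V) v u ω ^ 2 ∂probM ν) atTop
      (𝓝 (∫ ω, covJ ν t Set.univ v u ω ^ 2 ∂probM ν)) := fun t u => by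
    refine tendsto_integral_of_dominated_convergence (fun _ => 4)
      (fun R => ((measurable_covJ t _ v u).pow_const 2).aestronglyMeasurable) (integrable_const _)
      (fun R => Eventually.of_forall fun ω => by
        rw [Real.norm_eq_abs, abs_pow]
        exact (pow_le_pow_left₀ (abs_nonneg _) (abs_covJ_le _ _ _ _ _) 2).trans (by norm_num)) ?_
    filter_upwards [cE_tendsto (ν := ν) t (ball_mono h v) (iUnion_ball h v)
        (g := fun ω => sp v ω * sp u ω) (abs_sp_mul_le v u),
      cE_tendsto (ν := ν) t (ball_mono h v) (iUnion_ball h v) (g := sp v) (abs_sp_le v),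
      cE_tendsto (ν := ν) t (ball_mono h v) (iUnion_ball h v) (g := sp u) (abs_sp_le u)]
      with ω a b c
    exact (a.sub (b.mul c)).pow 2
  have hup : qm ν (gt n (i0 + N)) Set.univ v - qm ν (gt n i0) Set.univ v
      ≤ (∑ i ∈ Finset.range N, mesh n * ∑ u ∈ F,
          ∫ ω, covJ ν (gt n (i0 + i)) Set.univ v u ω ^ 2 ∂probM ν)
        + 6 * F.card * Real.sqrt (mesh n) * (gt n N + 1) + gt n N * τ := by
    refine le_of_tendsto_of_tendsto ((hq _).sub (hq _))
      (((tendsto_finsetSum _ fun i _ => (tendsto_finsetSum _ fun u _ => hJ _ u).const_mul _).add_const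
        _).add_const _) ?_
    filter_upwards [hτ, eventually_ge_atTop R0] with R hR hR'
    exact qm_upper h hν hθ (h.conn_ball v R) (h.mem_ball.2 (by simp))
      (fun x hx => h.mem_ball.2 ((h.mem_ball.1 (hR0 hx)).trans hR')) n i0 N hR
  have hsplit : ∀ t u, 4 * ∫ ω, (halfJ ν t v u ω - bE G θ ν t (halfJ ν t v u) ω) ^ 2 ∂probM ν
      = ∫ ω, covJ ν t Set.univ v u ω ^ 2 ∂probM ν
        - 4 * ∫ ω, bE G θ ν t (halfJ ν t v u) ω ^ 2 ∂probM ν := by
    intro t u
    have hb : Integrable (fun ω => bE G θ ν t (halfJ ν t v u) ω * halfJ ν t v u ω) (probM ν) :=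
      integrable_bdd (by fun_prop) (C := 1) fun ω => by
        rw [abs_mul]; exact mul_le_one₀ (abs_bE_le _ _ _) (abs_nonneg _) (abs_halfJ_le _ _ _ _)
    have h2 : Integrable (fun ω => halfJ ν t v u ω ^ 2) (probM ν) :=
      integrable_bdd (by fun_prop) (C := 1) fun ω => by
        rw [abs_pow]; exact pow_le_one₀ (abs_nonneg _) (abs_halfJ_le _ _ _ _)
    have h3 : Integrable (fun ω => bE G θ ν t (halfJ ν t v u) ω ^ 2) (probM ν) :=
      integrable_bdd (by fun_prop) (C := 1) fun ω => by
        rw [abs_pow]; exact pow_le_one₀ (abs_nonneg _) (abs_bE_le _ _ _)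
    have e : ∀ ω, (halfJ ν t v u ω - bE G θ ν t (halfJ ν t v u) ω) ^ 2
        = halfJ ν t v u ω ^ 2 + (bE G θ ν t (halfJ ν t v u) ω ^ 2
          - 2 * (bE G θ ν t (halfJ ν t v u) ω * halfJ ν t v u ω)) := fun ω => by ring
    simp only [e]
    rw [integral_add h2 (g := fun ω => bE G θ ν t (halfJ ν t v u) ω ^ 2
          - 2 * (bE G θ ν t (halfJ ν t v u) ω * halfJ ν t v u ω)) (h3.sub (hb.const_mul 2)),
      integral_sub h3 (hb.const_mul 2), integral_const_mul,
      integral_bE_mul_self (measurable_halfJ t v u) (abs_halfJ_le t v u)]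
    have : ∀ ω, halfJ ν t v u ω ^ 2 = covJ ν t Set.univ v u ω ^ 2 / 4 := fun ω => by
      simp only [halfJ]; ring
    simp only [this, integral_div]
    ring
  simp only [hsplit, Finset.sum_sub_distrib, mul_sub]
  simp only [amb]
  linarith

end Vale.Agent.P161
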