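import Vale.Agent.P161.Model
import Vale.Agent.P161.Equivariant

/-!
The Markov property across an edge for functions of spins and noise on the two sides.
-/

open MeasureTheory ProbabilityTheory SimpleGraph Filter
open scoped Topology

set_option linter.unusedSectionVars false

namespace Vale.Agent.P161

universe u

variable {V : Type u} [DecidableEq V] {G : SimpleGraph V} [DecidableRel G.Adj] {θ : ℝ} {d : ℕ}
variable {ν : Measure (V → Bool)} [IsProbabilityMeasure ν]

/-- The component of `x` after removing the edge to `p`. -/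
def sideOf (G : SimpleGraph V) (x p : V) : Set V := {z | G.dist z p = G.dist z x + 1}

lemma self_mem_sideOf {x p : V} (h : G.Adj x p) : x ∈ sideOf G x p := by
  simp [sideOf, dist_eq_one_iff_adj.2 h]

lemma mem_sideOf_or (hG : G.IsTree) {x p : V} (h : G.Adj x p) (z : V) :
    z ∈ sideOf G x p ∨ z ∈ sideOf G p x :=
  (dist_succ_or hG z h).symm

lemma disjoint_sideOf (x p : V) : Disjoint (sideOf G x p) (sideOf G p x) := by
  refine Set.disjoint_left.2 fun z h1 h2 => ?_
  simp only [sideOf, Set.mem_ofPred_eq] at h1 h2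
  omega

open Classical in
/-- Keep the spins and noise of a set of sites. -/
noncomputable def mask (S : Set V) (ω : Omega V) : Omega V :=
  (fun v => if v ∈ S then ω.1 v else false, fun p => if p.1 ∈ S then ω.2 p else 0)

lemma measurable_mask (S : Set V) : Measurable (mask S) := by
  classical
  unfold mask
  refine Measurable.prodMk (measurable_pi_lambda _ fun v => ?_) (measurable_pi_lambda _ fun p => ?_)
  · by_cases hv : v ∈ S
    · simp only [if_pos hv]; exact (measurable_pi_apply v).comp measurable_fst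
    · simp only [if_neg hv]; exact measurable_const
  · by_cases hv : p.1 ∈ S
    · simp only [if_pos hv]; exact (measurable_pi_apply p).comp measurable_snd
    · simp only [if_neg hv]; exact measurable_const

/-- A function that only reads the spins and noise of `S`. -/
def SiteDep {α : Type*} (S : Set V) (f : Omega V → α) : Prop :=
  ∀ ω ω' : Omega V, (∀ v ∈ S, ω.1 v = ω'.1 v) → (∀ p : V × ℕ × ℕ, p.1 ∈ S → ω.2 p = ω'.2 p) →
    f ω = f ω'

lemma SiteDep.mono {α : Type*} {S S' : Set V} {f : Omega V → α} (hf : SiteDep S f)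
    (h : S ⊆ S') : SiteDep S' f :=
  fun ω ω' h1 h2 => hf ω ω' (fun v hv => h1 v (h hv)) fun p hp => h2 p (h hp)

lemma SiteDep.mask {α : Type*} {S : Set V} {f : Omega V → α} (hf : SiteDep S f) (ω : Omega V) :
    f (Vale.Agent.P161.mask S ω) = f ω :=
  hf _ _ (fun v hv => by simp [Vale.Agent.P161.mask, hv])
    fun p hp => by simp [Vale.Agent.P161.mask, hp]

lemma siteDep_of_mask {α : Type*} {S : Set V} {f : Omega V → α}
    (hf : ∀ ω, f (mask S ω) = f ω) : SiteDep S f := by
  intro ω ω' h1 h2
  rw [← hf ω, ← hf ω']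
  congr 1
  refine Prod.ext (funext fun v => ?_) (funext fun p => ?_)
  · by_cases hv : v ∈ S
    · simp [mask, hv, h1 v hv]
    · simp [mask, hv]
  · by_cases hv : p.1 ∈ S
    · simp [mask, hv, h2 p hv]
    · simp [mask, hv]

lemma SiteDep.comp {α β : Type*} {S : Set V} {f : Omega V → α} (hf : SiteDep S f) (φ : α → β) :
    SiteDep S fun ω => φ (f ω) := fun ω ω' h1 h2 => congrArg φ (hf ω ω' h1 h2)

lemma SiteDep.comp₂ {α β γ : Type*} {S : Set V} {f : Omega V → α} {g : Omega V → β}
    (hf : SiteDep S f) (hg : SiteDep S g) (φ : α → β → γ) :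
    SiteDep S fun ω => φ (f ω) (g ω) :=
  fun ω ω' h1 h2 => congrArg₂ φ (hf ω ω' h1 h2) (hg ω ω' h1 h2)

lemma mask_mask (S : Set V) (ω : Omega V) :
    Vale.Agent.P161.mask S (Vale.Agent.P161.mask S ω) = Vale.Agent.P161.mask S ω := by
  refine Prod.ext (funext fun v => ?_) (funext fun p => ?_)
  · by_cases hv : v ∈ S <;> simp [Vale.Agent.P161.mask, hv]
  · by_cases hv : p.1 ∈ S <;> simp [Vale.Agent.P161.mask, hv]

lemma siteDep_mask (S : Set V) : SiteDep S (Vale.Agent.P161.mask (V := V) S) :=
  siteDep_of_mask (mask_mask S)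

lemma siteDep_spin {S : Set V} {v : V} (hv : v ∈ S) :
    SiteDep S fun ω : Omega V => spin (ω.1 v) := fun _ _ h1 _ => congrArg spin (h1 v hv)

open Classical in
/-- Join two noises along a set of sites. -/
noncomputable def joinNoise (S : Set V) (z : (V × ℕ × ℕ → ℝ) × (V × ℕ × ℕ → ℝ)) :
    V × ℕ × ℕ → ℝ := fun p => if p.1 ∈ S then z.1 p else z.2 p

lemma measurable_joinNoise (S : Set V) : Measurable (joinNoise S) := by
  classical
  refine measurable_pi_lambda _ fun p => ?_
  unfold joinNoise
  by_cases hv : p.1 ∈ S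
  · simp only [if_pos hv]; exact (measurable_pi_apply p).comp measurable_fst
  · simp only [if_neg hv]; exact (measurable_pi_apply p).comp measurable_snd

lemma map_joinNoise (S : Set V) :
    ((gam (V × ℕ × ℕ)).prod (gam (V × ℕ × ℕ))).map (joinNoise S) = gam (V × ℕ × ℕ) := by
  classical
  refine Measure.eq_infinitePi _ fun s t ht => ?_
  rw [Measure.map_apply (measurable_joinNoise S)
    (MeasurableSet.pi s.countable_toSet fun i _ => ht i)]
  have : joinNoise S ⁻¹' Set.pi s t
      = (Set.pi (s.filter fun p => p.1 ∈ S) t) ×ˢ (Set.pi (s.filter fun p => p.1 ∉ S) t) := by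
    ext z
    simp only [Set.mem_preimage, Set.mem_pi, Finset.mem_coe, Set.mem_prod, Finset.mem_filter,
      joinNoise]
    constructor
    · intro hz
      exact ⟨fun p hp => by simpa [hp.2] using hz p hp.1, fun p hp => by simpa [hp.2] using hz p hp.1⟩
    · intro hz p hp
      by_cases hS : p.1 ∈ S
      · simpa [hS] using hz.1 p ⟨hp, hS⟩
      · simpa [hS] using hz.2 p ⟨hp, hS⟩
  rw [this, Measure.prod_prod, gam, Measure.infinitePi_pi _ fun i _ => ht _,
    Measure.infinitePi_pi _ fun i _ => ht _, Finset.prod_filter_mul_prod_filter_not]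

/-- The average of a function over the noise. -/
noncomputable def noiseAvg (f : Omega V → ℝ) (σ : V → Bool) : ℝ :=
  ∫ Z, f (σ, Z) ∂gam (V × ℕ × ℕ)

lemma measurable_noiseAvg {f : Omega V → ℝ} (hf : Measurable f) : Measurable (noiseAvg f) :=
  (hf.stronglyMeasurable.integral_prod_right').measurable

lemma abs_noiseAvg_le {f : Omega V → ℝ} {C : ℝ} (hf : ∀ ω, |f ω| ≤ C) (σ : V → Bool) :
    |noiseAvg f σ| ≤ C := by
  refine (norm_integral_le_of_norm_le_const (μ := gam (V × ℕ × ℕ)) (f := fun Z => f (σ, Z))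
    (Eventually.of_forall fun Z => (Real.norm_eq_abs _).trans_le (hf (σ, Z)))).trans
    (le_of_eq ?_)
  simp

lemma noiseAvg_depOn {D : Finset V} {f : Omega V → ℝ} (hf : SiteDep (D : Set V) f) :
    DepOn D (noiseAvg f) := fun σ σ' he => by
  unfold noiseAvg
  congr 1
  funext Z
  exact hf _ _ (fun v hv => he v hv) fun _ _ => rfl

lemma noiseAvg_mul {A B : Set V} (hAB : Disjoint A B) {f g : Omega V → ℝ} (hf : SiteDep A f)
    (hg : SiteDep B g) (hfm : Measurable f) (hgm : Measurable g) (σ : V → Bool) :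
    noiseAvg (fun ω => f ω * g ω) σ = noiseAvg f σ * noiseAvg g σ := by
  classical
  have hm : Measurable fun Z : V × ℕ × ℕ → ℝ => f (σ, Z) * g (σ, Z) :=
    (hfm.comp measurable_prodMk_left).mul (hgm.comp measurable_prodMk_left)
  unfold noiseAvg
  conv_lhs => rw [← map_joinNoise A]
  rw [integral_map (measurable_joinNoise A).aemeasurable hm.aestronglyMeasurable]
  have e : ∀ z : (V × ℕ × ℕ → ℝ) × (V × ℕ × ℕ → ℝ),
      f (σ, joinNoise A z) * g (σ, joinNoise A z) = f (σ, z.1) * g (σ, z.2) := by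
    intro z
    rw [hf (σ, joinNoise A z) (σ, z.1) (fun _ _ => rfl) fun p hp => by simp [joinNoise, hp],
      hg (σ, joinNoise A z) (σ, z.2) (fun _ _ => rfl) fun p hp => by
        simp [joinNoise, Set.disjoint_right.1 hAB hp]]
  simp only [e]
  exact integral_prod_mul (fun Z => f (σ, Z)) (fun Z => g (σ, Z))

lemma integral_probM (hν : HasMarginals G θ ν) (hθ : |θ| < 1) {D : Finset V} (hD : Conn G D)
    {f : Omega V → ℝ} (hfm : Measurable f) (hfd : SiteDep (D : Set V) f) {C : ℝ}
    (hf : ∀ ω, |f ω| ≤ C) :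
    ∫ ω, f ω ∂probM ν = S D fun η => w G θ D η * noiseAvg f η := by
  rw [probM, integral_prod f (integrable_bdd hfm hf), ← hν.integral_eq hθ hD (noiseAvg_depOn hfd)]
  rfl

lemma conn_side_ball (h : Reg G d) {v v' : V} (hvv' : G.Adj v v') (R : ℕ) :
    Conn G ((h.ball v (R + 1)).filter fun x => G.dist x v' = G.dist x v + 1) := by
  classical
  have hv : v ∈ (h.ball v (R + 1)).filter fun x => G.dist x v' = G.dist x v + 1 := by
    simp [h.mem_ball, dist_eq_one_iff_adj.2 hvv']
  refine ⟨⟨v, hv⟩, ?_⟩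
  have key : ∀ a ∈ (h.ball v (R + 1)).filter fun x => G.dist x v' = G.dist x v + 1,
      ∃ p : G.Walk a v, ∀ x ∈ p.support,
        x ∈ (h.ball v (R + 1)).filter fun x => G.dist x v' = G.dist x v + 1 := by
    intro a ha
    rw [Finset.mem_filter, h.mem_ball] at ha
    obtain ⟨p, hp⟩ := h.tree.connected.exists_walk_length_eq_dist a v
    refine ⟨p, fun x hx => ?_⟩
    rw [Finset.mem_filter, h.mem_ball]
    have h1 := G.dist_le (p.takeUntil x hx)
    have h2 := G.dist_le (p.dropUntil x hx)
    have h3 := congrArg Walk.length (p.take_spec hx)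
    rw [Walk.length_append] at h3
    have h4 := h.tree.connected.dist_triangle (u := a) (v := x) (w := v')
    rcases dist_succ_or h.tree x hvv' with h5 | h5
    · exfalso; omega
    · refine ⟨?_, h5⟩
      rw [G.dist_comm]
      have := G.dist_comm (u := v) (v := a)
      omega
  intro a ha b hb
  obtain ⟨p, hp⟩ := key a ha
  obtain ⟨q, hq⟩ := key b hb
  refine ⟨p.append q.reverse, fun x hx => ?_⟩
  rw [Walk.mem_support_append_iff, Walk.support_reverse, List.mem_reverse] at hx
  exact hx.elim (hp x) (hq x)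

lemma S_cut (hG : G.IsTree) {D : Finset V} {v v' : V} (hvv' : G.Adj v v') (hv : v ∈ D)
    (hv' : v' ∈ D) {F K : (V → Bool) → ℝ}
    (hF : DepOn (D.filter fun x => G.dist x v' = G.dist x v + 1) F)
    (hK : DepOn (D.filter fun x => ¬ G.dist x v' = G.dist x v + 1) K) :
    S D (fun η => w G θ D η * (F η * K η)) =
      S (D.filter fun x => G.dist x v' = G.dist x v + 1)
          (fun η => w G θ (D.filter fun x => G.dist x v' = G.dist x v + 1) η * F η) *
        S (D.filter fun x => ¬ G.dist x v' = G.dist x v + 1)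
          (fun η => w G θ (D.filter fun x => ¬ G.dist x v' = G.dist x v + 1) η * K η) +
      θ * (S (D.filter fun x => G.dist x v' = G.dist x v + 1)
          (fun η => w G θ (D.filter fun x => G.dist x v' = G.dist x v + 1) η
            * (F η * spin (η v))) *
        S (D.filter fun x => ¬ G.dist x v' = G.dist x v + 1)
          (fun η => w G θ (D.filter fun x => ¬ G.dist x v' = G.dist x v + 1) η
            * (K η * spin (η v')))) := by
  set A := D.filter fun x => G.dist x v' = G.dist x v + 1 with hA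
  set B := D.filter fun x => ¬ G.dist x v' = G.dist x v + 1 with hB
  have hvA : v ∈ A := by simp [hA, hv, dist_eq_one_iff_adj.2 hvv']
  have hv'B : v' ∈ B := by simp [hB, hv']
  have hdisj : Disjoint A B := Finset.disjoint_filter_filter_not _ _ _
  have hD : A ∪ B = D := Finset.filter_union_filter_not_eq _ _
  conv_lhs => rw [← hD, S_union hdisj]
  simp only [S, Finset.sum_mul_sum]
  rw [Finset.mul_sum, ← Finset.sum_add_distrib]
  refine Finset.sum_congr rfl fun a ha => ?_
  rw [Finset.mul_sum, ← Finset.sum_add_distrib]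
  refine Finset.sum_congr rfl fun b hb => ?_
  have hagA : ∀ x ∈ A, chi (a ∪ b) x = chi a x := by
    intro x hx
    have : x ∉ b := fun hxb => Finset.disjoint_left.1 hdisj hx (Finset.mem_powerset.1 hb hxb)
    simp [chi, this]
  have hagB : ∀ x ∈ B, chi (a ∪ b) x = chi b x := by
    intro x hx
    have : x ∉ a := fun hxa => Finset.disjoint_right.1 hdisj hx (Finset.mem_powerset.1 ha hxa)
    simp [chi, this]
  rw [hD, w_split hG hvv' hv hv', depOn_w G θ _ _ _ hagA, depOn_w G θ _ _ _ hagB,
    hagA v hvA, hagB v' hv'B, hF _ _ hagA, hK _ _ hagB]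
  ring

lemma cut_finite (h : Reg G d) (hν : HasMarginals G θ ν) (hθ : |θ| < 1) {v v' : V}
    (hvv' : G.Adj v v') {R : ℕ} {f g : Omega V → ℝ} (hfm : Measurable f) (hgm : Measurable g)
    (hf : SiteDep ((h.ball v (R + 1) : Set V) ∩ sideOf G v v') f)
    (hg : SiteDep ((h.ball v' (R + 1) : Set V) ∩ sideOf G v' v) g) {C : ℝ}
    (hfb : ∀ ω, |f ω| ≤ C) (hgb : ∀ ω, |g ω| ≤ C) :
    ∫ ω, f ω * g ω ∂probM ν = (∫ ω, f ω ∂probM ν) * (∫ ω, g ω ∂probM ν)
      + θ * ((∫ ω, f ω * spin (ω.1 v) ∂probM ν) * (∫ ω, g ω * spin (ω.1 v') ∂probM ν)) := by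
  classical
  set A := (h.ball v (R + 1)).filter fun x => G.dist x v' = G.dist x v + 1 with hA
  set B := (h.ball v' (R + 1)).filter fun x => G.dist x v = G.dist x v' + 1 with hB
  have hAc : Conn G A := conn_side_ball h hvv' R
  have hBc : Conn G B := conn_side_ball h hvv'.symm R
  have hvA : v ∈ A := by simp [hA, h.mem_ball, dist_eq_one_iff_adj.2 hvv']
  have hv'B : v' ∈ B := by simp [hB, h.mem_ball, dist_eq_one_iff_adj.2 hvv'.symm]
  set D := A ∪ B with hDdef
  have hDA : D.filter (fun x => G.dist x v' = G.dist x v + 1) = A := by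
    ext x
    simp only [hDdef, hA, hB, Finset.mem_filter, Finset.mem_union]
    constructor
    · rintro ⟨h1 | ⟨h1, h2⟩, h3⟩
      · exact h1
      · omega
    · exact fun hx => ⟨Or.inl hx, hx.2⟩
  have hDB : D.filter (fun x => ¬ G.dist x v' = G.dist x v + 1) = B := by
    ext x
    simp only [hDdef, hA, hB, Finset.mem_filter, Finset.mem_union]
    constructor
    · rintro ⟨h1 | h1, h3⟩
      · exact absurd h1.2 h3
      · exact h1
    · exact fun hx => ⟨Or.inr hx, by omega⟩
  have hDc : Conn G D := by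
    refine ⟨hAc.1.mono Finset.subset_union_left, fun a ha b hb => ?_⟩
    have key : ∀ a ∈ D, ∃ p : G.Walk a v, ∀ x ∈ p.support, x ∈ D := by
      intro a ha
      rcases Finset.mem_union.1 ha with ha | ha
      · obtain ⟨p, hp⟩ := hAc.2 a ha v hvA
        exact ⟨p, fun x hx => Finset.mem_union_left _ (hp x hx)⟩
      · obtain ⟨p, hp⟩ := hBc.2 a ha v' hv'B
        refine ⟨p.append (Walk.cons hvv'.symm .nil), fun x hx => ?_⟩
        rw [Walk.mem_support_append_iff] at hx
        rcases hx with hx | hx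
        · exact Finset.mem_union_right _ (hp x hx)
        · simp only [Walk.support_cons, Walk.support_nil, List.mem_cons, List.not_mem_nil,
            or_false] at hx
          rcases hx with rfl | rfl
          · exact Finset.mem_union_right _ hv'B
          · exact Finset.mem_union_left _ hvA
    obtain ⟨p, hp⟩ := key a ha
    obtain ⟨q, hq⟩ := key b hb
    refine ⟨p.append q.reverse, fun x hx => ?_⟩
    rw [Walk.mem_support_append_iff, Walk.support_reverse, List.mem_reverse] at hx
    exact hx.elim (hp x) (hq x)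
  have hfA : SiteDep (A : Set V) f := hf.mono fun x hx => by
    simp only [hA, Finset.coe_filter, Set.mem_ofPred_eq]; exact ⟨hx.1, hx.2⟩
  have hgB : SiteDep (B : Set V) g := hg.mono fun x hx => by
    simp only [hB, Finset.coe_filter, Set.mem_ofPred_eq]; exact ⟨hx.1, hx.2⟩
  have hdis : Disjoint (A : Set V) (B : Set V) := by
    refine Set.disjoint_left.2 fun x h1 h2 => ?_
    simp only [hA, hB, Finset.coe_filter, Set.mem_ofPred_eq] at h1 h2
    omega
  have hfs : SiteDep (A : Set V) fun ω => f ω * spin (ω.1 v) :=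
    hfA.comp₂ (siteDep_spin (by simpa using hvA)) (· * ·)
  have hgs : SiteDep (B : Set V) fun ω => g ω * spin (ω.1 v') :=
    hgB.comp₂ (siteDep_spin (by simpa using hv'B)) (· * ·)
  have hC : 0 ≤ C := (abs_nonneg _).trans (hfb (fun _ => false, 0))
  have hb1 : ∀ (φ : Omega V → ℝ) (z : V), (∀ ω, |φ ω| ≤ C) → ∀ ω, |φ ω * spin (ω.1 z)| ≤ C :=
    fun φ z hφ ω => by rw [abs_mul, abs_spin, mul_one]; exact hφ ω
  have hmul : ∀ (σ : V → Bool) (φ : Omega V → ℝ) (z : V),
      noiseAvg (fun ω => φ ω * spin (ω.1 z)) σ = noiseAvg φ σ * spin (σ z) := fun σ φ z =>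
    integral_mul_const (spin (σ z)) fun Z => φ (σ, Z)
  have hDAs : (A : Set V) ⊆ (D : Set V) := Finset.coe_subset.2 Finset.subset_union_left
  have hDBs : (B : Set V) ⊆ (D : Set V) := Finset.coe_subset.2 Finset.subset_union_right
  rw [integral_probM hν hθ hDc (f := fun ω => f ω * g ω) (hfm.mul hgm)
      ((hfA.mono hDAs).comp₂ (hgB.mono hDBs) (· * ·))
      (C := C * C) fun ω => by rw [abs_mul]; exact mul_le_mul (hfb ω) (hgb ω) (abs_nonneg _) hC]
  simp only [noiseAvg_mul hdis hfA hgB hfm hgm]
  rw [S_cut h.tree hvv' (Finset.mem_union_left _ hvA) (Finset.mem_union_right _ hv'B)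
      (F := noiseAvg f) (K := noiseAvg g) (hDA.symm ▸ noiseAvg_depOn hfA)
      (hDB.symm ▸ noiseAvg_depOn hgB), hDA, hDB,
    integral_probM hν hθ hAc hfm hfA hfb, integral_probM hν hθ hBc hgm hgB hgb,
    integral_probM hν hθ hAc (f := fun ω => f ω * spin (ω.1 v))
      (hfm.mul ((measurable_spin_eval v).comp measurable_fst)) hfs (hb1 f v hfb),
    integral_probM hν hθ hBc (f := fun ω => g ω * spin (ω.1 v'))
      (hgm.mul ((measurable_spin_eval v').comp measurable_fst)) hgs (hb1 g v' hgb)]
  simp only [hmul]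

lemma comap_mask_mono {S S' : Set V} (h : S ⊆ S') :
    MeasurableSpace.comap (mask (V := V) S) inferInstance
      ≤ MeasurableSpace.comap (mask (V := V) S') inferInstance := by
  have : mask (V := V) S = mask S ∘ mask S' := by
    funext ω
    exact ((siteDep_mask S).mono h).mask ω |>.symm
  rw [this, ← MeasurableSpace.comap_comp]
  exact MeasurableSpace.comap_mono (measurable_mask S).comap_le

/-- Bounded functions of a region are limits of functions of an exhausting sequence. -/
lemma exists_approx {S : ℕ → Set V} (hS : Monotone S) {f : Omega V → ℝ}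
    (hfm : Measurable f) (hf : SiteDep (⋃ R, S R) f) {C : ℝ} (hC : ∀ ω, |f ω| ≤ C) :
    ∃ fR : ℕ → Omega V → ℝ, (∀ R, Measurable (fR R)) ∧ (∀ R, SiteDep (S R) (fR R)) ∧
      (∀ R ω, |fR R ω| ≤ C) ∧
      ∀ᵐ ω ∂probM ν, Tendsto (fun R => fR R ω) atTop (𝓝 (f ω)) := by
  classical
  set U := ⋃ R, S R
  let ℱ : Filtration ℕ (inferInstance : MeasurableSpace (Omega V)) :=
    ⟨fun R => MeasurableSpace.comap (mask (S R)) inferInstance,
      fun i j hij => comap_mask_mono (hS hij), fun R => (measurable_mask _).comap_le⟩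
  have hmU : Measurable[⨆ R, ℱ R] (mask (V := V) U) := by
    refine Measurable.prodMk (@measurable_pi_lambda _ _ _ (⨆ R, ℱ R) _ _ fun v => ?_)
      (@measurable_pi_lambda _ _ _ (⨆ R, ℱ R) _ _ fun p => ?_)
    · by_cases hv : v ∈ U
      · obtain ⟨R, hR⟩ := Set.mem_iUnion.1 hv
        simp only [if_pos hv]
        refine Measurable.mono (ma := ℱ R) ?_ (le_iSup (fun R => ℱ R) R) le_rfl
        have : (fun ω : Omega V => ω.1 v) = (fun η : Omega V => η.1 v) ∘ mask (S R) := by
          funext ω; simp [mask, hR]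
        rw [this]
        exact ((measurable_pi_apply v).comp measurable_fst).comp (comap_measurable _)
      · simp only [if_neg hv]; exact measurable_const
    · by_cases hv : p.1 ∈ U
      · obtain ⟨R, hR⟩ := Set.mem_iUnion.1 hv
        simp only [if_pos hv]
        refine Measurable.mono (ma := ℱ R) ?_ (le_iSup (fun R => ℱ R) R) le_rfl
        have : (fun ω : Omega V => ω.2 p) = (fun η : Omega V => η.2 p) ∘ mask (S R) := by
          funext ω; simp [mask, hR]
        rw [this]
        exact ((measurable_pi_apply p).comp measurable_snd).comp (comap_measurable _)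
      · simp only [if_neg hv]; exact measurable_const
  have hfU : Measurable[⨆ R, ℱ R] f := by
    have : f = f ∘ mask U := funext fun ω => (hf.mask ω).symm
    rw [this]
    exact hfm.comp hmU
  have hlim := (integrable_bdd (μ := probM ν) hfm hC).tendsto_ae_condExp (ℱ := ℱ)
    hfU.stronglyMeasurable
  set c : ℕ → Omega V → ℝ := fun R => (probM ν)[f|ℱ R] with hc
  have hC0 : 0 ≤ C := (abs_nonneg _).trans (hC (fun _ => false, 0))
  refine ⟨fun R ω => max (-C) (min C (c R ω)), fun R => ?_, fun R => ?_, fun R ω => ?_, ?_⟩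
  · exact (measurable_const.max (measurable_const.min
      ((stronglyMeasurable_condExp.measurable).mono (ℱ.le R) le_rfl)))
  · obtain ⟨φ, -, hφ⟩ := (stronglyMeasurable_condExp (μ := probM ν) (f := f)
      (m := ℱ R)).measurable.exists_eq_measurable_comp
    refine SiteDep.comp ?_ fun x => max (-C) (min C x)
    intro ω ω' h1 h2
    simp only [hc, hφ, Function.comp_apply]
    congr 1
    refine Prod.ext (funext fun v => ?_) (funext fun p => ?_)
    · by_cases hv : v ∈ S R
      · simp [mask, hv, h1 v hv]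
      · simp [mask, hv]
    · by_cases hv : p.1 ∈ S R
      · simp [mask, hv, h2 p hv]
      · simp [mask, hv]
  · exact abs_le.2 ⟨le_max_left _ _, max_le (by linarith) (min_le_left _ _)⟩
  · filter_upwards [hlim] with ω hω
    have := (tendsto_const_nhds (x := -C)).max ((tendsto_const_nhds (x := C)).min hω)
    obtain ⟨h1, h2⟩ := abs_le.1 (hC ω)
    simpa [min_eq_right h2, max_eq_right h1] using this

/-- The Markov property across an edge. -/
lemma cut_identity (h : Reg G d) (hν : HasMarginals G θ ν) (hθ : |θ| < 1) {v v' : V}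
    (hvv' : G.Adj v v') {f g : Omega V → ℝ} (hfm : Measurable f) (hgm : Measurable g)
    (hf : SiteDep (sideOf G v v') f) (hg : SiteDep (sideOf G v' v) g) {C : ℝ}
    (hfb : ∀ ω, |f ω| ≤ C) (hgb : ∀ ω, |g ω| ≤ C) :
    ∫ ω, f ω * g ω ∂probM ν = (∫ ω, f ω ∂probM ν) * (∫ ω, g ω ∂probM ν)
      + θ * ((∫ ω, f ω * spin (ω.1 v) ∂probM ν) * (∫ ω, g ω * spin (ω.1 v') ∂probM ν)) := by
  have hmono : ∀ (a b : V), Monotone fun R => (h.ball a (R + 1) : Set V) ∩ sideOf G a b :=
    fun a b i j hij x hx => ⟨h.mem_ball.2 ((h.mem_ball.1 hx.1).trans (by omega)), hx.2⟩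
  have hun : ∀ (a b : V), ⋃ R, (h.ball a (R + 1) : Set V) ∩ sideOf G a b = sideOf G a b :=
    fun a b => Set.ext fun x => ⟨fun hx => by
      obtain ⟨R, -, hR⟩ := Set.mem_iUnion.1 hx
      exact hR, fun hx => Set.mem_iUnion.2 ⟨G.dist a x, h.mem_ball.2 (Nat.le_succ _), hx⟩⟩
  obtain ⟨fR, hfRm, hfRd, hfRb, hfRl⟩ :=
    exists_approx (ν := ν) (hmono v v') hfm (by rw [hun]; exact hf) hfb
  obtain ⟨gR, hgRm, hgRd, hgRb, hgRl⟩ :=
    exists_approx (ν := ν) (hmono v' v) hgm (by rw [hun]; exact hg) hgb
  have hC : 0 ≤ C := (abs_nonneg _).trans (hfb (fun _ => false, 0))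
  have lim : ∀ (F : ℕ → Omega V → ℝ) (F0 : Omega V → ℝ) (K : ℝ), (∀ R, Measurable (F R)) →
      (∀ R ω, |F R ω| ≤ K) → (∀ᵐ ω ∂probM ν, Tendsto (fun R => F R ω) atTop (𝓝 (F0 ω))) →
      Tendsto (fun R => ∫ ω, F R ω ∂probM ν) atTop (𝓝 (∫ ω, F0 ω ∂probM ν)) :=
    fun F F0 K hm hb hl => tendsto_integral_of_dominated_convergence (fun _ => K)
      (fun R => (hm R).aestronglyMeasurable) (integrable_const K)
      (fun R => Eventually.of_forall (hb R)) hl
  have hs : ∀ z : V, Measurable fun ω : Omega V => spin (ω.1 z) :=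
    fun z => (measurable_spin_eval z).comp measurable_fst
  have L1 := lim _ (fun ω => f ω * g ω) (C * C) (fun R => (hfRm R).mul (hgRm R))
    (fun R ω => by
      simp only [Pi.mul_apply, abs_mul]
      exact mul_le_mul (hfRb R ω) (hgRb R ω) (abs_nonneg _) hC)
    (by filter_upwards [hfRl, hgRl] with ω a b using a.mul b)
  have L2 := lim _ f C hfRm hfRb hfRl
  have L3 := lim _ g C hgRm hgRb hgRl
  have L4 := lim _ (fun ω => f ω * spin (ω.1 v)) C (fun R => (hfRm R).mul (hs v))
    (fun R ω => by simp only [Pi.mul_apply, abs_mul, abs_spin, mul_one]; exact hfRb R ω)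
    (by filter_upwards [hfRl] with ω a using a.mul_const _)
  have L5 := lim _ (fun ω => g ω * spin (ω.1 v')) C (fun R => (hgRm R).mul (hs v'))
    (fun R ω => by simp only [Pi.mul_apply, abs_mul, abs_spin, mul_one]; exact hgRb R ω)
    (by filter_upwards [hgRl] with ω a using a.mul_const _)
  refine tendsto_nhds_unique L1 ?_
  refine Tendsto.congr (fun R => (cut_finite h hν hθ hvv' (hfRm R) (hgRm R) (hfRd R) (hgRd R)
    (hfRb R) (hgRb R)).symm) ?_
  exact (L2.mul L3).add ((L4.mul L5).const_mul θ)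

/-- Two probability spaces glued along an edge. -/
noncomputable def pairDensity (θ : ℝ) (a b : Omega V → ℝ) (p : Omega V × Omega V) : ℝ :=
  1 + θ * (a p.1 * b p.2)

lemma pairDensity_nonneg (hθ : |θ| < 1) {a b : Omega V → ℝ} (ha : ∀ ω, |a ω| ≤ 1)
    (hb : ∀ ω, |b ω| ≤ 1) (p : Omega V × Omega V) : 0 ≤ pairDensity θ a b p := by
  have h1 : |θ * (a p.1 * b p.2)| ≤ 1 := by
    rw [abs_mul, abs_mul]
    exact mul_le_one₀ hθ.le (by positivity) (mul_le_one₀ (ha _) (abs_nonneg _) (hb _))
  unfold pairDensity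
  linarith [(abs_le.1 h1).1]

/-- A joint law across an edge, from its values on rectangles. -/
lemma joint_of_rect (hθ : |θ| < 1) {α β : Type*} [MeasurableSpace α] [MeasurableSpace β]
    {X : Omega V → α} {Y : Omega V → β} (hX : Measurable X) (hY : Measurable Y)
    {a b : Omega V → ℝ} (ham : Measurable a) (hbm : Measurable b) (ha : ∀ ω, |a ω| ≤ 1)
    (hb : ∀ ω, |b ω| ≤ 1)
    (hrect : ∀ s t, MeasurableSet s → MeasurableSet t →
      (probM ν).real (X ⁻¹' s ∩ Y ⁻¹' t) =
        (probM ν).real (X ⁻¹' s) * (probM ν).real (Y ⁻¹' t)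
          + θ * ((∫ ω in X ⁻¹' s, a ω ∂probM ν) * (∫ ω in Y ⁻¹' t, b ω ∂probM ν)))
    {Φ : α × β → ℝ} (hΦ : Measurable Φ) :
    ∫ ω, Φ (X ω, Y ω) ∂probM ν
      = ∫ p, Φ (X p.1, Y p.2) * pairDensity θ a b p ∂(probM ν).prod (probM ν) := by
  have hdm : Measurable (pairDensity θ a b) := by unfold pairDensity; fun_prop
  have hdb : ∀ p, |pairDensity θ a b p| ≤ 2 := fun p => by
    have h0 := pairDensity_nonneg hθ ha hb p
    rw [abs_of_nonneg h0]
    have h1 : |θ * (a p.1 * b p.2)| ≤ 1 := by
      rw [abs_mul, abs_mul]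
      exact mul_le_one₀ hθ.le (by positivity) (mul_le_one₀ (ha _) (abs_nonneg _) (hb _))
    unfold pairDensity
    linarith [(abs_le.1 h1).2]
  set dens : Omega V × Omega V → NNReal := fun p => (pairDensity θ a b p).toNNReal with hdens
  set m2 := ((probM ν).prod (probM ν)).withDensity fun p => (dens p : ENNReal) with hm2
  have hXY : Measurable fun p : Omega V × Omega V => (X p.1, Y p.2) :=
    (hX.comp measurable_fst).prodMk (hY.comp measurable_snd)
  have key : (probM ν).map (fun ω => (X ω, Y ω)) = m2.map fun p => (X p.1, Y p.2) := by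
    have := Measure.isProbabilityMeasure_map (μ := probM ν) (hX.prodMk hY).aemeasurable
    refine Measure.ext_prod fun {s t} hs ht => ?_
    have hpre : (fun p : Omega V × Omega V => (X p.1, Y p.2)) ⁻¹' (s ×ˢ t)
        = (X ⁻¹' s) ×ˢ (Y ⁻¹' t) := rfl
    rw [Measure.map_apply (hX.prodMk hY) (hs.prod ht), Measure.map_apply hXY (hs.prod ht), hpre,
      hm2, withDensity_apply _ ((hX hs).prod (hY ht))]
    simp only [hdens, ← ENNReal.ofReal.eq_def]
    rw [← ofReal_integral_eq_lintegral_ofReal
      ((integrable_bdd hdm hdb).integrableOn)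
      (Eventually.of_forall (pairDensity_nonneg hθ ha hb))]
    have e1 : (fun ω => (X ω, Y ω)) ⁻¹' (s ×ˢ t) = X ⁻¹' s ∩ Y ⁻¹' t := rfl
    rw [e1, ← ofReal_measureReal, hrect s t hs ht]
    congr 1
    have hi : ∀ {μ : Measure (Omega V × Omega V)} [IsFiniteMeasure μ],
        Integrable (fun p : Omega V × Omega V => θ * (a p.1 * b p.2)) μ :=
      fun {μ} _ => (integrable_bdd (by fun_prop) (C := 1) fun p => by
        rw [abs_mul]
        exact mul_le_one₀ (ha _) (abs_nonneg _) (hb _)).const_mul θ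
    unfold pairDensity
    rw [integral_add (integrable_const 1) hi, integral_const_mul, setIntegral_prod_mul a b,
      setIntegral_const, smul_eq_mul, mul_one, measureReal_prod_prod]
  rw [← integral_map (f := Φ) (hX.prodMk hY).aemeasurable hΦ.aestronglyMeasurable, key,
    integral_map hXY.aemeasurable hΦ.aestronglyMeasurable, hm2,
    integral_withDensity_eq_integral_smul hdm.real_toNNReal]
  refine integral_congr_ae (Eventually.of_forall fun p => ?_)
  simp only [NNReal.smul_def, Real.coe_toNNReal _ (pairDensity_nonneg hθ ha hb p),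
    smul_eq_mul, mul_comm]

/-- The joint law of the two sides of an edge. -/
lemma cut_mask (h : Reg G d) (hν : HasMarginals G θ ν) (hθ : |θ| < 1) {v v' : V}
    (hvv' : G.Adj v v') {Φ : Omega V × Omega V → ℝ} (hΦ : Measurable Φ)
    (hΦd : ∀ p, Φ (mask (sideOf G v v') p.1, mask (sideOf G v' v) p.2) = Φ p) :
    ∫ ω, Φ (ω, ω) ∂probM ν = ∫ p, Φ p * pairDensity θ (fun ω => spin (ω.1 v))
      (fun ω => spin (ω.1 v')) p ∂(probM ν).prod (probM ν) := by
  set A := sideOf G v v'
  set B := sideOf G v' v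
  have e := joint_of_rect (θ := θ) (ν := ν) hθ (measurable_mask A) (measurable_mask B)
    (a := fun ω => spin (ω.1 v)) (b := fun ω => spin (ω.1 v'))
    ((measurable_spin_eval v).comp measurable_fst) ((measurable_spin_eval v').comp measurable_fst)
    (fun ω => (abs_spin _).le) (fun ω => (abs_spin _).le) ?_ hΦ
  · simp only [hΦd] at e
    rw [← e]
    exact integral_congr_ae (Eventually.of_forall fun ω => (hΦd (ω, ω)).symm)
  intro s t hs ht
  have hsA := measurable_mask A hs
  have htB := measurable_mask B ht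
  have hd : ∀ (S : Set V) (r : Set (Omega V)), SiteDep S ((mask S ⁻¹' r).indicator fun _ => (1 : ℝ)) :=
    fun S r => siteDep_of_mask fun ω => by
      by_cases hω : mask S ω ∈ r <;> simp [Set.indicator, mask_mask, hω]
  have e1 := cut_identity h hν hθ hvv' (f := (mask A ⁻¹' s).indicator fun _ => (1 : ℝ))
    (g := (mask B ⁻¹' t).indicator fun _ => (1 : ℝ)) (measurable_const.indicator hsA)
    (measurable_const.indicator htB) (hd A s) (hd B t) (C := 1)
    (fun ω => by by_cases hω : ω ∈ mask A ⁻¹' s <;> simp [hω])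
    (fun ω => by by_cases hω : ω ∈ mask B ⁻¹' t <;> simp [hω])
  have ei : ∀ ω, (mask A ⁻¹' s).indicator (fun _ => (1 : ℝ)) ω
      * (mask B ⁻¹' t).indicator (fun _ => (1 : ℝ)) ω
      = (mask A ⁻¹' s ∩ mask B ⁻¹' t).indicator (fun _ => (1 : ℝ)) ω := fun ω => by
    rw [← Set.inter_indicator_mul]; simp
  have es : ∀ (r : Set (Omega V)) (z : V) ω, r.indicator (fun _ => (1 : ℝ)) ω * spin (ω.1 z)
      = r.indicator (fun η => spin (η.1 z)) ω := fun r z ω => by
    by_cases hω : ω ∈ r <;> simp [hω]
  simp only [ei, es] at e1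
  rw [integral_indicator_const _ (hsA.inter htB), integral_indicator_const _ hsA,
    integral_indicator_const _ htB, integral_indicator hsA, integral_indicator htB] at e1
  simpa using e1

end Vale.Agent.P161
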