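import Vale.Agent.P161.HaarLaw
import Vale.Agent.P161.Gauss
import Vale.Agent.P161.Stability
import Vale.Agent.P161.Model

/-!
Increments of the driving noise are independent of their past.
-/

open MeasureTheory ProbabilityTheory Filter
open scoped Topology NNReal

set_option linter.unusedSectionVars false

namespace Vale.Agent.P161

universe u

variable {V : Type u} [DecidableEq V]

lemma inc_block (n m : ℕ) (Z : ℕ × ℕ → ℝ) (k : ℕ) :
    inc n Z k = ∑ j ∈ Finset.range (2 ^ m), inc (n + m) Z (2 ^ m * k + j) := by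
  have h1 := cum_refine n m Z (k + 1)
  have h2 := cum_refine n m Z k
  simp only [cum] at h1 h2
  rw [mul_add, mul_one, Finset.sum_range_add, h2, Finset.sum_range_succ] at h1
  linarith

/-- Integrals against the past and the last increment factorise. -/
lemma integral_past_mul_step (D : Finset V) (n N : ℕ) {φ : (Fin N → D → ℝ) → ℝ}
    {ψ : (D → ℝ) → ℝ} (hφ : Measurable φ) (hψ : Measurable ψ) :
    ∫ Z, φ (incMap D n N Z) * ψ (fun u => inc n (slice Z u) N) ∂gam (V × ℕ × ℕ)
      = (∫ b, φ b ∂incPi D (meshNN n) N) * ∫ a, ψ a ∂stepPi D (meshNN n) := by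
  set f : (Fin (N + 1) → D → ℝ) → ℝ := fun x => φ (Fin.init x) * ψ (x (Fin.last N)) with hf
  have hfm : Measurable f :=
    (hφ.comp measurable_init).mul (hψ.comp (measurable_pi_apply (Fin.last N)))
  have e0 : ∀ Z, φ (incMap D n N Z) * ψ (fun u => inc n (slice Z u) N)
      = f (incMap D n (N + 1) Z) := fun Z => rfl
  simp only [e0]
  rw [← integral_map (f := f) (measurable_incMap D n (N + 1)).aemeasurable hfm.aestronglyMeasurable,
    map_incMap, incPi_eq]
  have hmp := (measurePreserving_piFinSuccAbove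
    (fun _ : Fin (N + 1) => stepPi D (meshNN n)) (Fin.last N)).symm
  rw [← hmp.integral_comp' f]
  rw [show (fun x : (D → ℝ) × ((j : Fin N) → D → ℝ) => f ((MeasurableEquiv.piFinSuccAbove
      (fun _ : Fin (N + 1) => D → ℝ) (Fin.last N)).symm x))
    = fun x => ψ x.1 * φ x.2 from funext fun x => by
      simp only [hf, MeasurableEquiv.piFinSuccAbove_symm_apply, Fin.insertNthEquiv,
        Equiv.coe_fn_mk, Fin.insertNth_last']
      rw [mul_comm]
      simp]
  exact (integral_prod_mul ψ φ).trans (mul_comm _ _)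

lemma integral_step_eval (D : Finset V) (h : ℝ≥0) (u : D) {ψ : ℝ → ℝ} (hψ : Measurable ψ) :
    ∫ a, ψ (a u) ∂stepPi D h = ∫ x, ψ x ∂gaussianReal 0 h := by
  refine (integral_map (μ := stepPi D h) (f := ψ) (φ := fun a : D → ℝ => a u)
    (measurable_pi_apply u).aemeasurable hψ.aestronglyMeasurable).symm.trans ?_
  congr 1
  exact (measurePreserving_eval (fun _ : D => gaussianReal 0 h) u).map_eq

lemma integral_step_id (D : Finset V) (h : ℝ≥0) (u : D) : ∫ a, a u ∂stepPi D h = 0 :=
  (integral_step_eval D h u (ψ := fun x => x) measurable_id).trans integral_id_gaussianReal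

/-- A coordinate of a doubly indexed family. -/
lemma measurable_eval2 {ι κ : Type*} (i : ι) (j : κ) : Measurable fun x : ι → κ → ℝ => x i j :=
  (measurable_pi_apply j).comp (measurable_pi_apply i)

lemma integral_sq_gaussian (h : ℝ≥0) : ∫ x, x ^ 2 ∂gaussianReal 0 h = h := by
  have := variance_fun_id_gaussianReal (μ := 0) (v := h)
  rwa [variance_of_integral_eq_zero (by fun_prop) integral_id_gaussianReal] at this

lemma integral_step_mul (D : Finset V) (h : ℝ≥0) (u u' : D) :
    ∫ a, a u * a u' ∂stepPi D h = if u = u' then (h : ℝ) else 0 := by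
  split_ifs with hu
  · subst hu
    simp only [← sq]
    rw [integral_step_eval D h u (ψ := fun x => x ^ 2) (by fun_prop), integral_sq_gaussian]
  · have hpi : iIndepFun (fun (i : D) (a : D → ℝ) => a i) (stepPi D h) :=
      iIndepFun_pi (X := fun _ : D => (id : ℝ → ℝ)) fun _ => aemeasurable_id
    rw [(hpi.indepFun hu).integral_fun_mul_eq_mul_integral (measurable_pi_apply u).aestronglyMeasurable
      (measurable_pi_apply u').aestronglyMeasurable, integral_step_id]
    simp

lemma map_inc (n : ℕ) (u : V) (k : ℕ) :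
    (gam (V × ℕ × ℕ)).map (fun Z => inc n (slice Z u) k) = gaussianReal 0 (meshNN n) := by
  have hu : u ∈ ({u} : Finset V) := Finset.mem_singleton_self u
  set ev : (Fin (k + 1) → ({u} : Finset V) → ℝ) → ℝ := fun x => x (Fin.last k) ⟨u, hu⟩ with hev
  have hevm : Measurable ev := (measurable_pi_apply _).comp (measurable_pi_apply _)
  have e : (fun Z : V × ℕ × ℕ → ℝ => inc n (slice Z u) k) = ev ∘ incMap {u} n (k + 1) := rfl
  rw [e, ← Measure.map_map hevm (measurable_incMap _ _ _), map_incMap, incPi_eq, hev,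
    ← Function.comp_def (fun a : ({u} : Finset V) → ℝ => a ⟨u, hu⟩)
      (fun x : Fin (k + 1) → ({u} : Finset V) → ℝ => x (Fin.last k)),
    ← Measure.map_map (measurable_pi_apply _) (measurable_pi_apply _),
    (measurePreserving_eval (fun _ : Fin (k + 1) => stepPi ({u} : Finset V) (meshNN n))
      (Fin.last k)).map_eq]
  exact (measurePreserving_eval (fun _ : ({u} : Finset V) => gaussianReal 0 (meshNN n))
    ⟨u, hu⟩).map_eq

lemma measurable_incZ (n : ℕ) (u : V) (k : ℕ) :
    Measurable fun Z : V × ℕ × ℕ → ℝ => inc n (slice Z u) k :=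
  (inc_measurable n k).comp (measurable_slice u)

lemma memLp_inc (n : ℕ) (u : V) (k : ℕ) :
    MemLp (fun Z => inc n (slice Z u) k) 2 (gam (V × ℕ × ℕ)) := by
  have := (memLp_id_gaussianReal' (μ := 0) (v := meshNN n) 2 (by simp))
  rw [← map_inc n u k] at this
  exact this.comp_of_map (measurable_incZ n u k).aemeasurable

/-- The increments of noise up to time `s`. -/
noncomputable def pinc (s : ℝ) (Z : V × ℕ × ℕ → ℝ) (p : V × ℕ × ℕ) : ℝ :=
  if ((p.2.2 : ℝ) + 1) * mesh p.2.1 ≤ s then inc p.2.1 (slice Z p.1) p.2.2 else 0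

lemma measurable_pinc (s : ℝ) : Measurable (pinc (V := V) s) := by
  refine measurable_pi_lambda _ fun p => ?_
  unfold pinc
  by_cases hp : ((p.2.2 : ℝ) + 1) * mesh p.2.1 ≤ s
  · simp only [if_pos hp]; exact measurable_incZ _ _ _
  · simp only [if_neg hp]; exact measurable_const

/-- The future increments are centred and orthonormal given finitely many past increments. -/
lemma future_moments_finite (D : Finset V) (n N : ℕ) (u u' : V) (hu : u ∈ D) (hu' : u' ∈ D)
    {φ : (Fin N → D → ℝ) → ℝ} (hφ : Measurable φ) {C : ℝ} (hC : ∀ b, |φ b| ≤ C) (L : ℕ) :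
    (∫ Z, φ (incMap D n N Z) * ∑ j ∈ Finset.range L, inc n (slice Z u) (N + j) ∂gam (V × ℕ × ℕ) = 0)
    ∧ (∫ Z, φ (incMap D n N Z) * ((∑ j ∈ Finset.range L, inc n (slice Z u) (N + j))
          * ∑ j ∈ Finset.range L, inc n (slice Z u') (N + j)) ∂gam (V × ℕ × ℕ)
        = (if u = u' then (L : ℝ) * mesh n else 0)
          * ∫ Z, φ (incMap D n N Z) ∂gam (V × ℕ × ℕ)) := by
  induction L with
  | zero => simp
  | succ L ih =>
    obtain ⟨ih1, ih2⟩ := ih
    set A : V → (V × ℕ × ℕ → ℝ) → ℝ := fun w Z => ∑ j ∈ Finset.range L, inc n (slice Z w) (N + j)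
      with hA
    set X : V → (V × ℕ × ℕ → ℝ) → ℝ := fun w Z => inc n (slice Z w) (N + L) with hX
    set F : (V × ℕ × ℕ → ℝ) → ℝ := fun Z => φ (incMap D n N Z) with hF
    set r : (Fin (N + L) → D → ℝ) → Fin N → D → ℝ := fun b i => b (Fin.castAdd L i) with hr
    have hrm : Measurable r := measurable_pi_lambda _ fun i => measurable_pi_apply _
    set a : ∀ w : V, w ∈ D → (Fin (N + L) → D → ℝ) → ℝ := fun w hw b =>
      ∑ j : Fin L, b (Fin.natAdd N j) ⟨w, hw⟩ with ha
    have ham : ∀ w hw, Measurable (a w hw) := fun w hw => Finset.measurable_sum _ fun j _ =>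
      (measurable_pi_apply _).comp (measurable_pi_apply _)
    have hAr : ∀ w hw Z, a w hw (incMap D n (N + L) Z) = A w Z := fun w hw Z => by
      simp only [ha, hA, incMap]
      rw [Finset.sum_range]
      rfl
    have hFr : ∀ Z, φ (r (incMap D n (N + L) Z)) = F Z := fun Z => rfl
    have g1 : ∀ w hw, ∫ Z, F Z * X w Z ∂gam (V × ℕ × ℕ) = 0 := fun w hw => by
      have e := integral_past_mul_step D n (N + L) (φ := fun b => φ (r b))
        (ψ := fun x => x ⟨w, hw⟩) (hφ.comp hrm) (measurable_pi_apply _)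
      rw [integral_step_id] at e
      simpa [hFr, hX] using e
    have g2 : ∀ w hw w' hw', ∫ Z, F Z * (A w Z * X w' Z) ∂gam (V × ℕ × ℕ) = 0 :=
      fun w hw w' hw' => by
      have e := integral_past_mul_step D n (N + L) (φ := fun b => φ (r b) * a w hw b)
        (ψ := fun x => x ⟨w', hw'⟩) ((hφ.comp hrm).mul (ham w hw)) (measurable_pi_apply _)
      rw [integral_step_id] at e
      simpa [hFr, hAr, hX, mul_assoc] using e
    have g3 : ∫ Z, F Z * (X u Z * X u' Z) ∂gam (V × ℕ × ℕ)
        = (if u = u' then mesh n else 0) * ∫ Z, F Z ∂gam (V × ℕ × ℕ) := by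
      have e := integral_past_mul_step D n (N + L) (φ := fun b => φ (r b))
        (ψ := fun x => x ⟨u, hu⟩ * x ⟨u', hu'⟩) (hφ.comp hrm)
        ((measurable_pi_apply _).mul (measurable_pi_apply _))
      have e2 := integral_past_mul_step D n (N + L) (φ := fun b => φ (r b))
        (ψ := fun _ => 1) (hφ.comp hrm) measurable_const
      simp only [mul_one, integral_const, probReal_univ, one_smul, hFr] at e2
      rw [integral_step_mul, ← e2] at e
      simp only [hFr, coe_meshNN, Subtype.mk.injEq] at e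
      rw [mul_comm]
      exact e
    have hFm : Measurable F := hφ.comp (measurable_incMap D n N)
    have hAL : ∀ w, MemLp (A w) 2 (gam (V × ℕ × ℕ)) := fun w =>
      memLp_finsetSum _ fun j _ => memLp_inc n w (N + j)
    have hXL : ∀ w, MemLp (X w) 2 (gam (V × ℕ × ℕ)) := fun w => memLp_inc n w (N + L)
    have hi : ∀ (Y : (V × ℕ × ℕ → ℝ) → ℝ), Integrable Y (gam (V × ℕ × ℕ)) →
        Integrable (fun Z => F Z * Y Z) (gam (V × ℕ × ℕ)) := fun Y hY =>
      hY.bdd_mul hFm.aestronglyMeasurable (Eventually.of_forall fun Z =>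
        (Real.norm_eq_abs _).trans_le (hC _))
    have h1 : ∀ w, Integrable (A w) (gam (V × ℕ × ℕ)) := fun w => (hAL w).integrable (by norm_num)
    have h1' : ∀ w, Integrable (X w) (gam (V × ℕ × ℕ)) := fun w => (hXL w).integrable (by norm_num)
    simp only [Finset.sum_range_succ]
    refine ⟨?_, ?_⟩
    · rw [integral_congr_ae (Eventually.of_forall fun Z => show
          F Z * (A u Z + X u Z) = F Z * A u Z + F Z * X u Z from mul_add _ _ _),
        integral_add (hi _ (h1 u)) (hi _ (h1' u)), g1 u hu]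
      simp only [hF, hA] at ih1 ⊢
      rw [ih1, add_zero]
    · have hmul : ∀ (P Q : (V × ℕ × ℕ → ℝ) → ℝ), MemLp P 2 (gam (V × ℕ × ℕ)) →
          MemLp Q 2 (gam (V × ℕ × ℕ)) → Integrable (fun Z => F Z * (P Z * Q Z))
            (gam (V × ℕ × ℕ)) := fun P Q hP hQ => hi _ (hP.integrable_mul hQ)
      rw [integral_congr_ae (Eventually.of_forall fun Z => show
          F Z * ((A u Z + X u Z) * (A u' Z + X u' Z))
            = (F Z * (A u Z * A u' Z) + F Z * (X u Z * X u' Z))
              + (F Z * (A u Z * X u' Z) + F Z * (A u' Z * X u Z)) by ring),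
        integral_add (f := fun Z => F Z * (A u Z * A u' Z) + F Z * (X u Z * X u' Z))
          (g := fun Z => F Z * (A u Z * X u' Z) + F Z * (A u' Z * X u Z))
          ((hmul _ _ (hAL u) (hAL u')).add (hmul _ _ (hXL u) (hXL u')))
          ((hmul _ _ (hAL u) (hXL u')).add (hmul _ _ (hAL u') (hXL u))),
        integral_add (hmul _ _ (hAL u) (hAL u')) (hmul _ _ (hXL u) (hXL u')),
        integral_add (hmul _ _ (hAL u) (hXL u')) (hmul _ _ (hAL u') (hXL u)),
        g2 u hu u' hu', g2 u' hu' u hu, g3]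
      simp only [hF, hA] at ih2 ⊢
      rw [ih2]
      push_cast
      split_ifs <;> ring

/-- A noise increment after time `s` is centred and orthonormal given the past. -/
lemma future_moments [Countable V] (n k : ℕ) {s : ℝ} (hs : s = k * mesh n) (u u' : V)
    {φ : (V × ℕ × ℕ → ℝ) → ℝ} (hφ : Measurable φ) {C : ℝ} (hC : ∀ z, |φ z| ≤ C) :
    (∫ Z, φ (pinc s Z) * inc n (slice Z u) k ∂gam (V × ℕ × ℕ) = 0)
    ∧ (∫ Z, φ (pinc s Z) * (inc n (slice Z u) k * inc n (slice Z u') k) ∂gam (V × ℕ × ℕ)
        = (if u = u' then mesh n else 0) * ∫ Z, φ (pinc s Z) ∂gam (V × ℕ × ℕ)) := by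
  classical
  have : Nonempty V := ⟨u⟩
  obtain ⟨enum, henum⟩ := exists_surjective_nat V
  set E : ℕ → Finset V := fun R => ((Finset.range R).image enum) ∪ {u, u'} with hE
  have hEmono : Monotone E := fun i j hij => Finset.union_subset_union
    (Finset.image_subset_image (Finset.range_mono hij)) subset_rfl
  set X : ∀ R, (V × ℕ × ℕ → ℝ) → Fin (2 ^ R * k) → E R → ℝ :=
    fun R => incMap (E R) (n + R) (2 ^ R * k)
  set U : (V × ℕ × ℕ → ℝ) → V × ℕ × ℕ → ℝ := pinc s
  have hmono : ∀ R, MeasurableSpace.comap (X R) inferInstance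
      ≤ MeasurableSpace.comap (X (R + 1)) inferInstance := by
    intro R
    have hm : Measurable[MeasurableSpace.comap (X (R + 1)) inferInstance] (X R) := by
      refine @measurable_pi_lambda _ _ _ (MeasurableSpace.comap (X (R + 1)) inferInstance) _ _
        fun j => @measurable_pi_lambda _ _ _ (MeasurableSpace.comap (X (R + 1)) inferInstance) _ _
        fun w => ?_
      have hw : (w : V) ∈ E (R + 1) := hEmono (Nat.le_succ R) w.2
      have h2 : ∀ i, i < 2 → 2 * (j : ℕ) + i < 2 ^ (R + 1) * k := by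
        intro i hi
        have := j.2
        rw [pow_succ', mul_assoc]
        omega
      have e : (fun Z => X R Z j w)
          = fun Z => X (R + 1) Z ⟨2 * (j : ℕ) + 0, h2 0 (by norm_num)⟩ ⟨w, hw⟩
            + X (R + 1) Z ⟨2 * (j : ℕ) + 1, h2 1 (by norm_num)⟩ ⟨w, hw⟩ := by
        funext Z
        simp only [X, incMap]
        rw [inc_block (n + R) 1]
        simp [Finset.sum_range_succ, Nat.add_assoc]
      rw [e]
      exact ((measurable_eval2 _ _).comp (comap_measurable (X (R + 1)))).add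
        ((measurable_eval2 _ _).comp (comap_measurable (X (R + 1))))
    exact hm.comap_le
  let ℱ : Filtration ℕ (inferInstance : MeasurableSpace (V × ℕ × ℕ → ℝ)) :=
    ⟨fun R => MeasurableSpace.comap (X R) inferInstance, monotone_nat_of_le_succ hmono,
      fun R => (measurable_incMap _ _ _).comap_le⟩
  have hU : Measurable[⨆ R, ℱ R] U := by
    refine @measurable_pi_lambda _ _ _ (⨆ R, ℱ R) _ _ fun p => ?_
    simp only [U, pinc]
    by_cases hp : ((p.2.2 : ℝ) + 1) * mesh p.2.1 ≤ s
    · simp only [if_pos hp]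
      obtain ⟨w, m0, j⟩ := p
      obtain ⟨i0, hi0⟩ := henum w
      set R := max (i0 + 1) m0 with hR
      refine Measurable.mono (ma := ℱ R) ?_ (le_iSup (fun R => ℱ R) R) le_rfl
      have hw : w ∈ E R := Finset.mem_union_left _ (Finset.mem_image.2
        ⟨i0, Finset.mem_range.2 (by omega), hi0⟩)
      obtain ⟨e, he⟩ : ∃ e, n + R = m0 + e := ⟨n + R - m0, by omega⟩
      have hlt : ∀ i < 2 ^ e, 2 ^ e * j + i < 2 ^ R * k := by
        intro i hi
        have h1 : ((2 ^ e * (j + 1) : ℕ) : ℝ) ≤ ((2 ^ R * k : ℕ) : ℝ) := by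
          push_cast
          have h2 : ((j : ℝ) + 1) * mesh m0 ≤ k * mesh n := hs ▸ hp
          have hpos : 0 < mesh (n + R) := mesh_pos _
          refine le_of_mul_le_mul_right ?_ hpos
          calc (2 : ℝ) ^ e * ((j : ℝ) + 1) * mesh (n + R)
              = ((j : ℝ) + 1) * (mesh (m0 + e) * 2 ^ e) := by rw [he]; ring
            _ = ((j : ℝ) + 1) * mesh m0 := by
                simp only [mesh, pow_add, mul_assoc, ← mul_pow]; norm_num
            _ ≤ k * mesh n := h2
            _ = k * (mesh (n + R) * 2 ^ R) := by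
                simp only [mesh, pow_add, mul_assoc, ← mul_pow]; norm_num
            _ = _ := by ring
        have h3 : 2 ^ e * (j + 1) ≤ 2 ^ R * k := by exact_mod_cast h1
        rw [mul_add, mul_one] at h3
        omega
      have e1 : (fun Z : V × ℕ × ℕ → ℝ => inc m0 (slice Z w) j)
          = fun Z => ∑ i : Fin (2 ^ e), X R Z ⟨2 ^ e * j + i, hlt i i.2⟩ ⟨w, hw⟩ := by
        funext Z
        rw [inc_block m0 e, Finset.sum_range, ← he]
        rfl
      show Measurable[ℱ R] (fun Z : V × ℕ × ℕ → ℝ => inc m0 (slice Z w) j)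
      rw [e1]
      exact Finset.measurable_sum _ fun i _ =>
        (measurable_eval2 _ _).comp (comap_measurable (X R))
    · simp only [if_neg hp]; exact measurable_const
  set f : (V × ℕ × ℕ → ℝ) → ℝ := fun Z => φ (pinc s Z) with hf
  have hfm : Measurable f := hφ.comp (measurable_pinc s)
  have hlim := (integrable_bdd (μ := gam (V × ℕ × ℕ)) hfm fun Z => hC _).tendsto_ae_condExp (ℱ := ℱ)
    (hφ.comp hU).stronglyMeasurable
  set c : ℕ → (V × ℕ × ℕ → ℝ) → ℝ := fun R => (gam (V × ℕ × ℕ))[f|ℱ R] with hc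
  have hC0 : 0 ≤ C := (abs_nonneg _).trans (hC 0)
  have hlim' : ∀ᵐ Z ∂gam (V × ℕ × ℕ),
      Tendsto (fun R => max (-C) (min C (c R Z))) atTop (𝓝 (f Z)) := by
    filter_upwards [hlim] with Z hZ
    have := (tendsto_const_nhds (x := -C)).max ((tendsto_const_nhds (x := C)).min hZ)
    obtain ⟨h1, h2⟩ := abs_le.1 (hC (pinc s Z))
    simpa [hf, min_eq_right h2, max_eq_right h1] using this
  have hcm : ∀ R, Measurable fun Z => max (-C) (min C (c R Z)) := fun R =>
    measurable_const.max (measurable_const.min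
      (stronglyMeasurable_condExp.measurable.mono (ℱ.le R) le_rfl))
  have hlimI : ∀ Y : (V × ℕ × ℕ → ℝ) → ℝ, Integrable Y (gam (V × ℕ × ℕ)) →
      Tendsto (fun R => ∫ Z, max (-C) (min C (c R Z)) * Y Z ∂gam (V × ℕ × ℕ)) atTop
        (𝓝 (∫ Z, f Z * Y Z ∂gam (V × ℕ × ℕ))) := by
    intro Y hY
    refine tendsto_integral_of_dominated_convergence (fun Z => C * |Y Z|)
      (fun R => (hcm R).aestronglyMeasurable.mul hY.aestronglyMeasurable) (hY.abs.const_mul C)
      (fun R => Eventually.of_forall fun Z => ?_) ?_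
    · rw [Real.norm_eq_abs, abs_mul]
      exact mul_le_mul_of_nonneg_right
        (abs_le.2 ⟨le_max_left _ _, max_le (by linarith) (min_le_left _ _)⟩) (abs_nonneg _)
    · filter_upwards [hlim'] with Z hZ using hZ.mul_const _
  have hfin : ∀ R, (∫ Z, max (-C) (min C (c R Z)) * inc n (slice Z u) k ∂gam (V × ℕ × ℕ) = 0) ∧
      (∫ Z, max (-C) (min C (c R Z)) * (inc n (slice Z u) k * inc n (slice Z u') k)
          ∂gam (V × ℕ × ℕ)
        = (if u = u' then mesh n else 0) * ∫ Z, max (-C) (min C (c R Z)) ∂gam (V × ℕ × ℕ)) := by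
    intro R
    obtain ⟨ψ, hψ, hψe⟩ := (stronglyMeasurable_condExp (μ := gam (V × ℕ × ℕ)) (f := f)
      (m := ℱ R)).measurable.exists_eq_measurable_comp
    have hu : u ∈ E R := Finset.mem_union_right _ (by simp)
    have hu' : u' ∈ E R := Finset.mem_union_right _ (by simp)
    have e := future_moments_finite (E R) (n + R) (2 ^ R * k) u u' hu hu'
      (φ := fun b => max (-C) (min C (ψ b))) (measurable_const.max (measurable_const.min hψ))
      (C := C) (fun b => abs_le.2 ⟨le_max_left _ _, max_le (by linarith) (min_le_left _ _)⟩) (2 ^ R)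
    have hm : ((2 ^ R : ℕ) : ℝ) * mesh (n + R) = mesh n := by
      push_cast; simp only [mesh, pow_add]; rw [mul_left_comm, ← mul_pow]; norm_num
    simp only [← inc_block n R, hm] at e
    simp only [hc, hψe, Function.comp_apply]
    exact e
  have hxi : ∀ w : V, MemLp (fun Z => inc n (slice Z w) k) 2 (gam (V × ℕ × ℕ)) :=
    fun w => memLp_inc n w k
  refine ⟨tendsto_nhds_unique (hlimI _ ((hxi u).integrable (by norm_num))) ?_, ?_⟩
  · simp only [fun R => (hfin R).1]; exact tendsto_const_nhds
  · refine tendsto_nhds_unique (hlimI _ ((hxi u).integrable_mul (hxi u'))) ?_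
    simp only [fun R => (hfin R).2]
    have := hlimI (fun _ => 1) (integrable_const _)
    simp only [mul_one] at this
    exact this.const_mul _

end Vale.Agent.P161
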