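import Vale.Agent.P161.Critical.Msg
import Vale.Agent.P161.Critical.Noise

/-!
Identification of posterior expectations on finite volumes with the finite Gibbs formulas, and
continuity along growing regions.
-/

open MeasureTheory ProbabilityTheory SimpleGraph Filter
open scoped Topology NNReal

set_option linter.unusedSectionVars false

namespace Vale.Agent.P161

universe u

variable {V : Type u} [DecidableEq V] {G : SimpleGraph V} [DecidableRel G.Adj] {θ : ℝ} {d : ℕ}
variable {ν : Measure (V → Bool)} [IsProbabilityMeasure ν]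

/-- Finite volume posterior expectation of a function of spins. -/
noncomputable def pst (G : SimpleGraph V) [DecidableRel G.Adj] (θ : ℝ) (D : Finset V)
    (g : (V → Bool) → ℝ) (y : V → ℝ) : ℝ :=
  S D (fun η => W G θ D y η * g η) / Z G θ D y

lemma pst_spin (D : Finset V) (y : V → ℝ) (v : V) :
    pst G θ D (fun η => spin (η v)) y = mag G θ D y v := rfl

lemma measurable_pst (D : Finset V) (g : (V → Bool) → ℝ) : Measurable (pst G θ D g) := by
  unfold pst Z W fieldSum S
  fun_prop

lemma abs_pst_le (hθ : |θ| < 1) (D : Finset V) {g : (V → Bool) → ℝ} (hg : ∀ η, |g η| ≤ 1)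
    (y : V → ℝ) : |pst G θ D g y| ≤ 1 := by
  rw [pst, abs_div, abs_of_pos (Z_pos hθ D y), div_le_one (Z_pos hθ D y)]
  refine (Finset.abs_sum_le_sum_abs _ _).trans (Finset.sum_le_sum fun A _ => ?_)
  rw [abs_mul, abs_of_pos (W_pos hθ D y _)]
  exact mul_le_of_le_one_right (W_pos hθ D y _).le (hg _)

lemma pst_congr {D : Finset V} {y y' : V → ℝ} (h : ∀ u ∈ D, y u = y' u) (g : (V → Bool) → ℝ) :
    pst G θ D g y = pst G θ D g y' := by
  simp only [pst, Z, S, W_congr h]

namespace Mixture

variable {ι : Type u} [Fintype ι] (P : Mixture ι) {h : ℝ≥0}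

/-- Posterior mean of a function of the index. -/
noncomputable def postFun (g : P.carrier → ℝ) (y : ι → ℝ) : ℝ :=
  (∑ a ∈ P.supp, P.pw y a * g a) / ∑ a ∈ P.supp, P.pw y a

/-- Bayes for a bounded function of the index. -/
lemma bayes_fun (hh : h ≠ 0) (N : ℕ) (g : P.carrier → ℝ) (hg : ∀ a ∈ P.supp, |g a| ≤ 1)
    {f : (Fin N → ι → ℝ) → ℝ} (hf : Measurable f) {C : ℝ} (hC : ∀ x, |f x| ≤ C) :
    ∑ a ∈ P.supp, P.wt a * ∫ b, f (fun k j => b k j + (h : ℝ) * P.sig a j) * g a ∂incPi ι h N
      = ∫ x, P.lik h N x * (f x * P.postFun g (tot x)) ∂incPi ι h N := by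
  have key : ∀ a ∈ P.supp, P.wt a * ∫ b, f (fun k j => b k j + (h : ℝ) * P.sig a j)
        * g a ∂incPi ι h N
      = ∫ x, P.wt a * dens h (fun _ => P.sig a) N x * (f x * g a) ∂incPi ι h N := by
    intro a _
    have := integral_shear hh (M := fun _ : ι → ℝ => P.sig a) measurable_const N
      (hf.mul_const (g a))
    simp only [shear_const] at this
    rw [this, ← integral_const_mul]
    simp only [mul_assoc]
  rw [Finset.sum_congr rfl key, ← integral_finsetSum]
  · refine integral_congr_ae (Filter.Eventually.of_forall fun x => ?_)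
    simp only [lik_eq, postFun]
    rw [show ∀ c s q r : ℝ, c * s * (q * (r / s)) = c * q * (s * (r / s)) from fun _ _ _ _ => by ring,
      mul_div_cancel₀ _ (P.norm_pos _).ne', Finset.mul_sum]
    refine Finset.sum_congr rfl fun a ha => ?_
    have : ∑ j, P.sig a j ^ 2 = (Fintype.card ι : ℝ) := by
      simp [show ∀ j, P.sig a j ^ 2 = 1 from fun j => by rw [← sq_abs, P.sig_abs a ha]; norm_num]
    rw [dens_const, this, pw, Real.exp_sub, Real.exp_neg]
    ring
  · intro a ha
    refine ((integrable_dens hh measurable_const N).const_mul _).mul_bdd (c := C)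
      (hf.mul_const _).aestronglyMeasurable (Filter.Eventually.of_forall fun x => ?_)
    rw [Real.norm_eq_abs, abs_mul]
    exact (mul_le_of_le_one_right (abs_nonneg _) (hg a ha)).trans (hC x)

end Mixture

/-- Bayes for bounded functions of the spins in the volume. -/
lemma bayes_pst (hν : HasMarginals G θ ν) (hG : G.IsTree) (hθ : |θ| < 1) {D : Finset V}
    (hD : Conn G D) (n N : ℕ) {g : (V → Bool) → ℝ} (hgm : Measurable g) (hgd : DepOn D g)
    (hg : ∀ η, |g η| ≤ 1) {F : (Fin N → D → ℝ) → ℝ} (hFm : Measurable F) {C : ℝ}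
    (hF : ∀ x, |F x| ≤ C) :
    ∫ ω, g ω.1 * F (datum D n N ω) ∂probM ν =
      ∫ ω, pst G θ D g (pos n ω N) * F (datum D n N ω) ∂probM ν := by
  set M := isingMix hG hθ D hD
  rw [integral_datum hν hθ hD n N hgm hgd hg hFm hF]
  have e2 := M.bayes_fun (meshNN_ne_zero n) N (fun A => g (chi A)) (fun A _ => hg _) hFm hF
  have epost : ∀ y : D → ℝ,
      M.postFun (fun A => g (chi A)) y = pst G θ D g (extD D y) := by
    intro y
    have e : ∀ A, fieldSum D (extD D y) (chi A) = ∑ i : D, spin (chi A i) * y i := by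
      intro A
      rw [fieldSum, ← Finset.sum_coe_sort D]
      exact Finset.sum_congr rfl fun i _ => by simp [extD, mul_comm]
    simp only [M, Mixture.postFun, Mixture.pw, isingMix, pst, Z, S, W, e]
  have e3 : ∑ A ∈ D.powerset, w G θ D (chi A) * (g (chi A) *
        ∫ b, F (fun k v => b k v + (meshNN n : ℝ) * spin (chi A v)) ∂incPi D (meshNN n) N)
      = ∫ x, M.lik (meshNN n) N x * (F x * M.postFun (fun A => g (chi A)) (tot x))
          ∂incPi D (meshNN n) N := by
    rw [← e2]
    refine Finset.sum_congr rfl fun A _ => ?_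
    simp only [M, isingMix]
    rw [integral_mul_const]
    ring
  rw [e3]
  simp only [epost]
  have hm : Measurable fun x : Fin N → D → ℝ => F x * pst G θ D g (extD D (tot x)) :=
    hFm.mul ((measurable_pst D g).comp ((measurable_extD D).comp measurable_tot))
  have hb : ∀ x, |F x * pst G θ D g (extD D (tot x))| ≤ C := fun x => by
    rw [abs_mul]
    exact (mul_le_of_le_one_right (abs_nonneg _) (abs_pst_le hθ D hg _)).trans (hF x)
  rw [← lik_law hν hG hθ hD n N hm hb]
  refine integral_congr_ae (Eventually.of_forall fun ω => ?_)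
  dsimp only
  rw [pst_congr (fun u hu => extD_tot_datum D n N ω hu), mul_comm]

lemma incY_block (n m : ℕ) (ω : Omega V) (u : V) (k : ℕ) :
    incY n ω u k = ∑ j ∈ Finset.range (2 ^ m), incY (n + m) ω u (2 ^ m * k + j) := by
  simp only [incY, Finset.sum_add_distrib, Finset.sum_const, Finset.card_range, nsmul_eq_mul]
  rw [← inc_block n m (slice ω.2 u) k]
  push_cast
  rw [← mesh_add n m]
  ring

lemma time_le_iff {n k m j e R : ℕ} (he : n + R = m + e) :
    ((j : ℝ) + 1) * mesh m ≤ k * mesh n ↔ 2 ^ e * (j + 1) ≤ 2 ^ R * k := by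
  have h1 : mesh m = mesh (n + R) * 2 ^ e := by rw [he, mesh_add]
  have h2 : mesh n = mesh (n + R) * 2 ^ R := (mesh_add n R).symm
  have hpos : 0 < mesh (n + R) := mesh_pos _
  rw [h1, h2, ← Nat.cast_le (α := ℝ)]
  push_cast
  constructor <;> intro hh
  · exact le_of_mul_le_mul_right (by linarith) hpos
  · have := mul_le_mul_of_nonneg_right hh hpos.le
    linarith

lemma comap_datum_mono (D : Finset V) (n k R : ℕ) :
    MeasurableSpace.comap (datum D (n + R) (2 ^ R * k)) inferInstance
      ≤ MeasurableSpace.comap (datum D (n + (R + 1)) (2 ^ (R + 1) * k)) inferInstance := by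
  refine Measurable.comap_le ?_
  refine @measurable_pi_lambda _ _ _
    (MeasurableSpace.comap (datum D (n + (R + 1)) (2 ^ (R + 1) * k)) inferInstance) _ _
    fun j => @measurable_pi_lambda _ _ _
      (MeasurableSpace.comap (datum D (n + (R + 1)) (2 ^ (R + 1) * k)) inferInstance) _ _ fun w => ?_
  have h2 : ∀ i, i < 2 → 2 * (j : ℕ) + i < 2 ^ (R + 1) * k := by
    intro i hi
    have := j.2
    rw [pow_succ', mul_assoc]
    omega
  have e : (fun ω => datum D (n + R) (2 ^ R * k) ω j w)
      = fun ω => datum D (n + (R + 1)) (2 ^ (R + 1) * k) ω ⟨2 * (j : ℕ) + 0, h2 0 (by norm_num)⟩ w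
        + datum D (n + (R + 1)) (2 ^ (R + 1) * k) ω ⟨2 * (j : ℕ) + 1, h2 1 (by norm_num)⟩ w := by
    funext ω
    simp only [datum]
    rw [incY_block (n + R) 1]
    simp [Finset.sum_range_succ, Nat.add_assoc]
  rw [e]
  exact ((((measurable_pi_apply w).comp (measurable_pi_apply _)).comp
      (comap_measurable (datum D (n + (R + 1)) (2 ^ (R + 1) * k))))).add
    (((measurable_pi_apply w).comp (measurable_pi_apply _)).comp
      (comap_measurable (datum D (n + (R + 1)) (2 ^ (R + 1) * k))))

/-- On a finite volume at a grid time the posterior is the finite Gibbs expression. -/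
lemma cE_finite (hν : HasMarginals G θ ν) (hG : G.IsTree) (hθ : |θ| < 1) {D : Finset V}
    (hD : Conn G D) (n k : ℕ) {g : (V → Bool) → ℝ} (hgm : Measurable g) (hgd : DepOn D g)
    (hg : ∀ η, |g η| ≤ 1) :
    ∀ᵐ ω ∂probM ν, cE ν (k * mesh n) (D : Set V) (fun ω => g ω.1) ω
      = pst G θ D g (pos n ω k) := by
  classical
  set t : ℝ := k * mesh n with ht
  set X := fun R => datum D (n + R) (2 ^ R * k)
  let ℱ : Filtration ℕ (inferInstance : MeasurableSpace (Omega V)) :=
    ⟨fun R => MeasurableSpace.comap (X R) inferInstance,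
      monotone_nat_of_le_succ (comap_datum_mono D n k),
      fun R => (measurable_datum D _ _).comap_le⟩
  have hsup : ⨆ R, ℱ R = obsAlg t (D : Set V) := by
    refine le_antisymm (iSup_le fun R => ?_) ?_
    · refine Measurable.comap_le ?_
      refine @measurable_pi_lambda _ _ _ (obsAlg t (D : Set V)) _ _ fun j =>
        @measurable_pi_lambda _ _ _ (obsAlg t (D : Set V)) _ _ fun w => ?_
      have hj : (((j : ℕ) : ℝ) + 1) * mesh (n + R) ≤ t := by
        rw [ht, time_le_iff (n := n) (k := k) (m := n + R) (j := (j : ℕ)) (e := 0) (R := R) rfl]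
        have := j.2
        rw [pow_zero, one_mul]
        omega
      have e : (fun ω => datum D (n + R) (2 ^ R * k) ω j w)
          = fun ω => obs t (D : Set V) ω ((w : V), n + R, (j : ℕ)) := by
        funext ω
        simp [datum, obs, hj]
      show Measurable[obsAlg t (D : Set V)] fun ω => datum D (n + R) (2 ^ R * k) ω j w
      rw [e]
      exact (measurable_pi_apply (((w : V), n + R, (j : ℕ)) : V × ℕ × ℕ)).comp
        (comap_measurable (obs t (D : Set V)))
    · refine Measurable.comap_le ?_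
      refine @measurable_pi_lambda _ _ _ (⨆ R, ℱ R) _ _ fun p => ?_
      simp only [obs]
      by_cases hp : p.1 ∈ (D : Set V) ∧ ((p.2.2 : ℝ) + 1) * mesh p.2.1 ≤ t
      · simp only [if_pos hp]
        obtain ⟨w, m, j⟩ := p
        obtain ⟨hw, hj⟩ := hp
        refine Measurable.mono (ma := ℱ m) ?_ (le_iSup (fun R => ℱ R) m) le_rfl
        rw [ht, time_le_iff (e := n) (R := m) (Nat.add_comm n m)] at hj
        have hlt : ∀ i < 2 ^ n, 2 ^ n * j + i < 2 ^ m * k := by
          intro i hi
          rw [mul_add, mul_one] at hj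
          dsimp only at hj
          omega
        have e1 : (fun ω : Omega V => incY m ω w j)
            = fun ω => ∑ i : Fin (2 ^ n), X m ω ⟨2 ^ n * j + i, hlt i i.2⟩ ⟨w, hw⟩ := by
          funext ω
          rw [incY_block m n, Finset.sum_range, Nat.add_comm m n]
          rfl
        show Measurable[ℱ m] (fun ω : Omega V => incY m ω w j)
        rw [e1]
        exact Finset.measurable_sum _ fun i _ =>
          (measurable_eval2 (⟨2 ^ n * j + i, hlt i i.2⟩ : Fin (2 ^ m * k))
            (⟨w, hw⟩ : D)).comp (comap_measurable (X m))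
      · simp only [if_neg hp]; exact measurable_const
  set P : Omega V → ℝ := fun ω => pst G θ D g (pos n ω k) with hP
  have hPm : Measurable P := (measurable_pst D g).comp (measurable_pos n k)
  have hPR : ∀ R ω, P ω = pst G θ D g (extD D (tot (X R ω))) := by
    intro R ω
    rw [hP]
    dsimp only
    rw [← pos_refine n R ω k]
    exact (pst_congr (fun u hu => extD_tot_datum D (n + R) (2 ^ R * k) ω hu) g).symm
  have hfin : ∀ R, (probM ν)[fun ω => g ω.1|ℱ R] =ᵐ[probM ν] P := by
    intro R
    refine (ae_eq_condExp_of_forall_setIntegral_eq (ℱ.le R)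
      (integrable_bdd (hgm.comp measurable_fst) fun ω => hg _)
      (fun _ _ _ => (integrable_bdd hPm (C := 1) fun ω => abs_pst_le hθ D hg _).integrableOn)
      ?_ ?_).symm
    · rintro s ⟨r, hr, rfl⟩ _
      have e := bayes_pst hν hG hθ hD (n + R) (2 ^ R * k) hgm hgd hg
        (F := r.indicator fun _ => 1) (measurable_const.indicator hr) (C := 1)
        (fun x => by by_cases hx : x ∈ r <;> simp [hx])
      have hr' : MeasurableSet (X R ⁻¹' r) := measurable_datum D _ _ hr
      have e4 : ∀ φ : Omega V → ℝ, ∫ ω in X R ⁻¹' r, φ ω ∂probM ν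
          = ∫ ω, φ ω * r.indicator (fun _ => (1 : ℝ)) (X R ω) ∂probM ν := fun φ => by
        rw [← integral_indicator hr']
        congr 1
        funext ω
        by_cases hω : X R ω ∈ r <;> simp [hω]
      show ∫ ω in X R ⁻¹' r, P ω ∂probM ν = ∫ ω in X R ⁻¹' r, g ω.1 ∂probM ν
      rw [e4, e4]
      simp only [hP, ← pos_refine n R _ k]
      exact e.symm
    · refine (Measurable.stronglyMeasurable ?_).aestronglyMeasurable
      rw [funext (hPR R)]
      exact ((measurable_pst D g).comp ((measurable_extD D).comp measurable_tot)).comp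
        (comap_measurable (X R))
  have hlim := tendsto_ae_condExp (μ := probM ν) (ℱ := ℱ) (fun ω : Omega V => g ω.1)
  rw [hsup] at hlim
  filter_upwards [hlim, ae_all_iff.2 hfin, cE_ae (ν := ν) (t := t) (S := (D : Set V))
    (g := fun ω => g ω.1) (fun ω => hg _)] with ω h1 h2 h3
  rw [h3]
  exact tendsto_nhds_unique h1 (tendsto_const_nhds.congr fun R => (h2 R).symm)

lemma mu_finite (hν : HasMarginals G θ ν) (hG : G.IsTree) (hθ : |θ| < 1) {D : Finset V}
    (hD : Conn G D) (n k : ℕ) {v : V} (hv : v ∈ D) :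
    ∀ᵐ ω ∂probM ν, mu ν (k * mesh n) (D : Set V) v ω = mag G θ D (pos n ω k) v := by
  filter_upwards [cE_finite hν hG hθ hD n k (g := fun η => spin (η v)) (measurable_spin_eval v)
    (fun η η' he => by simp [he v hv]) (fun η => (abs_spin _).le)] with ω e
  exact e

/-- Posterior expectations converge along exhausting regions. -/
lemma cE_tendsto (t : ℝ) {S : ℕ → Set V} (hS : Monotone S) {U : Set V} (hU : ⋃ R, S R = U)
    {g : Omega V → ℝ} (hg : ∀ ω, |g ω| ≤ 1) :
    ∀ᵐ ω ∂probM ν, Tendsto (fun R => cE ν t (S R) g ω) atTop (𝓝 (cE ν t U g ω)) := by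
  classical
  let ℱ : Filtration ℕ (inferInstance : MeasurableSpace (Omega V)) :=
    ⟨fun R => obsAlg t (S R), fun i j hij => obsAlg_mono le_rfl (hS hij), fun R => obsAlg_le t _⟩
  have hsup : ⨆ R, ℱ R = obsAlg t U := by
    refine le_antisymm (iSup_le fun R => obsAlg_mono le_rfl (hU ▸ Set.subset_iUnion S R))
      (Measurable.comap_le ?_)
    refine @measurable_pi_lambda _ _ _ (⨆ R, ℱ R) _ _ fun p => ?_
    simp only [obs]
    by_cases hp : p.1 ∈ U ∧ ((p.2.2 : ℝ) + 1) * mesh p.2.1 ≤ t
    · obtain ⟨R, hR⟩ := Set.mem_iUnion.1 (hU.symm ▸ hp.1)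
      refine Measurable.mono (ma := ℱ R) ?_ (le_iSup (fun R => ℱ R) R) le_rfl
      have e : (fun ω : Omega V => incY p.2.1 ω p.1 p.2.2) = fun ω => obs t (S R) ω p := by
        funext ω; simp [obs, hR, hp.2]
      simp only [if_pos hp]
      rw [e]
      exact (measurable_pi_apply p).comp (comap_measurable (obs t (S R)))
    · simp only [if_neg hp]; exact measurable_const
  have hlim := tendsto_ae_condExp (μ := probM ν) (ℱ := ℱ) g
  rw [hsup] at hlim
  filter_upwards [hlim, ae_all_iff.2 fun R => cE_ae (ν := ν) (t := t) (S := S R) hg,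
    cE_ae (ν := ν) (t := t) (S := U) hg] with ω h1 h2 h3
  rw [h3]
  exact h1.congr fun R => (h2 R).symm

lemma tendsto_integral_cE (t : ℝ) {S : ℕ → Set V} (hS : Monotone S) {U : Set V}
    (hU : ⋃ R, S R = U) {g : Omega V → ℝ} (hg : ∀ ω, |g ω| ≤ 1) {Φ : ℝ → ℝ} (hΦ : Continuous Φ) :
    Tendsto (fun R => ∫ ω, Φ (cE ν t (S R) g ω) ∂probM ν) atTop
      (𝓝 (∫ ω, Φ (cE ν t U g ω) ∂probM ν)) := by
  obtain ⟨C, hC⟩ := isCompact_Icc.exists_bound_of_continuousOn (f := Φ) (s := Set.Icc (-1 : ℝ) 1)
    hΦ.continuousOn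
  refine tendsto_integral_of_dominated_convergence (fun _ => C)
    (fun R => (hΦ.measurable.comp (measurable_cE t _ g)).aestronglyMeasurable) (integrable_const C)
    (fun R => Eventually.of_forall fun ω => hC _ (Set.mem_Icc.2 (abs_le.1 (abs_cE_le _ _ _ _))))
    ?_
  filter_upwards [cE_tendsto (ν := ν) t hS hU hg] with ω hω
  exact (hΦ.tendsto _).comp hω

lemma iUnion_ball (h : Reg G d) (o : V) : ⋃ R, (h.ball o R : Set V) = Set.univ :=
  Set.eq_univ_of_forall fun x => Set.mem_iUnion.2 ⟨G.dist o x, h.mem_ball.2 le_rfl⟩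

lemma ball_mono (h : Reg G d) (o : V) : Monotone fun R => (h.ball o R : Set V) :=
  fun _ _ hij _ hx => h.mem_ball.2 ((h.mem_ball.1 hx).trans hij)

end Vale.Agent.P161
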