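import Vale.Agent.P161.Critical.Msg
import Vale.Agent.P161.Critical.Posterior
import Vale.Agent.P161.Critical.Noise
import Vale.Agent.P161.Main

/-!
Moments of magnetisations: monotonicity, invariance, one site, and one step of the recursion.
-/

open MeasureTheory ProbabilityTheory SimpleGraph Filter
open scoped Topology NNReal ENNReal

set_option linter.unusedSectionVars false

namespace Vale.Agent.P161

universe u

variable {V : Type u} [DecidableEq V] {G : SimpleGraph V} [DecidableRel G.Adj] {θ : ℝ} {d : ℕ}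
variable {ν : Measure (V → Bool)} [IsProbabilityMeasure ν]

/-- The moment of order `2p` of a magnetisation. -/
noncomputable def mom (ν : Measure (V → Bool)) (t : ℝ) (S : Set V) (v : V) (p : ℕ) : ℝ :=
  ∫ ω, mu ν t S v ω ^ (2 * p) ∂probM ν

lemma abs_mu_le (t : ℝ) (S : Set V) (v : V) (ω : Omega V) : |mu ν t S v ω| ≤ 1 :=
  abs_cE_le _ _ _ _

lemma integrable_mu_pow (t : ℝ) (S : Set V) (v : V) (n : ℕ) :
    Integrable (fun ω => mu ν t S v ω ^ n) (probM ν) :=
  integrable_bdd ((measurable_cE t S _).pow_const n) (C := 1) fun ω => by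
    rw [abs_pow]; exact pow_le_one₀ (abs_nonneg _) (abs_mu_le t S v ω)

lemma mom_nonneg (t : ℝ) (S : Set V) (v : V) (p : ℕ) : 0 ≤ mom ν t S v p :=
  integral_nonneg fun ω => by rw [pow_mul]; exact pow_nonneg (sq_nonneg _) _

lemma mom_le_one (t : ℝ) (S : Set V) (v : V) (p : ℕ) : mom ν t S v p ≤ 1 :=
  (integral_mono (integrable_mu_pow t S v _) (integrable_const (1 : ℝ)) fun ω => by
    rw [pow_mul]
    exact pow_le_one₀ (sq_nonneg _) ((sq_le_one_iff_abs_le_one _).2 (abs_mu_le t S v ω))).trans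
      (by simp)

lemma pow_even_tangent (x y : ℝ) : ∀ p : ℕ,
    x ^ (2 * p) + (2 * p : ℝ) * x ^ (2 * p - 1) * (y - x) ≤ y ^ (2 * p)
  | 0 => by simp
  | p + 1 => by
    have hconv : ConvexOn ℝ Set.univ fun z : ℝ => z ^ (2 * (p + 1)) :=
      (even_two_mul (p + 1)).convexOn_pow
    have hder : HasDerivAt (fun z : ℝ => z ^ (2 * (p + 1)))
        (((2 * (p + 1) : ℕ) : ℝ) * x ^ (2 * (p + 1) - 1)) x := hasDerivAt_pow _ x
    set D := ((2 * (p + 1) : ℕ) : ℝ) * x ^ (2 * (p + 1) - 1) with hD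
    have hgoal : x ^ (2 * (p + 1)) + D * (y - x) ≤ y ^ (2 * (p + 1)) := by
      rcases lt_trichotomy x y with hxy | hxy | hxy
      · have h1 := hconv.le_slope_of_hasDerivAt (Set.mem_univ x) (Set.mem_univ y) hxy hder
        rw [slope_def_field, le_div_iff₀ (sub_pos.2 hxy)] at h1
        linarith
      · subst hxy; simp
      · have h1 := hconv.slope_le_of_hasDerivAt (Set.mem_univ y) (Set.mem_univ x) hxy hder
        rw [slope_def_field, div_le_iff₀ (sub_pos.2 hxy)] at h1
        linarith [show D * (y - x) = -(D * (x - y)) by ring]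
    simp only [hD] at hgoal
    push_cast at hgoal ⊢
    exact hgoal

lemma mom_mono {t t' : ℝ} {S S' : Set V} (ht : t ≤ t') (hS : S ⊆ S') (v : V) (p : ℕ) :
    mom ν t S v p ≤ mom ν t' S' v p := by
  set F : Omega V → ℝ := fun ω => mu ν t S v ω ^ (2 * p - 1)
  have hFm : Measurable[obsAlg t S] F := (measurable_cE_obs t S _).pow_const _
  have hFb : ∀ ω, |F ω| ≤ 1 := fun ω => by
    simp only [F, abs_pow]; exact pow_le_one₀ (abs_nonneg _) (abs_mu_le t S v ω)
  have e1 := integral_mul_cE (ν := ν) (measurable_sp v) (abs_sp_le v)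
    (hFm.mono (obsAlg_mono ht hS) le_rfl) hFb
  have e2 := integral_mul_cE (ν := ν) (measurable_sp v) (abs_sp_le v) hFm hFb
  have hi : ∀ t S, Integrable (fun ω => F ω * mu ν t S v ω) (probM ν) := fun t S =>
    integrable_bdd ((hFm.mono (obsAlg_le _ _) le_rfl).mul (measurable_cE t S _)) (C := 1) fun ω => by
      simp only [Pi.mul_apply, abs_mul]
      exact mul_le_one₀ (hFb ω) (abs_nonneg _) (abs_mu_le t S v ω)
  have hzero : ∫ ω, (F ω * mu ν t' S' v ω - F ω * mu ν t S v ω) ∂probM ν = 0 := by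
    rw [integral_sub (hi t' S') (hi t S)]
    simp only [mu]
    rw [e1, e2, sub_self]
  have h1 := integral_mono ((integrable_mu_pow t S v (2 * p)).add
      (((hi t' S').sub (hi t S)).const_mul (2 * p : ℝ))) (integrable_mu_pow t' S' v (2 * p))
      (g := fun ω => mu ν t' S' v ω ^ (2 * p)) fun ω => by
        simp only [Pi.add_apply, Pi.sub_apply, F]
        linarith [pow_even_tangent (mu ν t S v ω) (mu ν t' S' v ω) p]
  simp only [Pi.add_apply, Pi.sub_apply] at h1
  rw [integral_add (g := fun ω => (2 * p : ℝ) * (F ω * mu ν t' S' v ω - F ω * mu ν t S v ω))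
    (integrable_mu_pow t S v (2 * p)) (((hi t' S').sub (hi t S)).const_mul _), integral_const_mul,
    hzero, mul_zero, add_zero] at h1
  exact h1

lemma mom_gact (h : Reg G d) (hν : HasMarginals G θ ν) (γ : G ≃g G) (t : ℝ) (S : Set V) (v : V)
    (p : ℕ) : mom ν t (γ '' S) (γ v) p = mom ν t S v p := by
  have hT := measurePreserving_gact h hν γ
  unfold mom
  have e := integral_map (μ := probM ν) (f := fun ω => mu ν t (γ '' S) (γ v) ω ^ (2 * p))
    hT.measurable.aemeasurable ((measurable_cE t _ _).pow_const _).aestronglyMeasurable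
  rw [hT.map_eq] at e
  rw [e]
  refine integral_congr_ae ?_
  filter_upwards [mu_gact h hν γ t S v] with ω e
  rw [e]

lemma mom_side_eq (h : Reg G d) (hν : HasMarginals G θ ν) {x p x' p' : V} (hxp : G.Adj x p)
    (hxp' : G.Adj x' p') (t : ℝ) (k : ℕ) :
    mom ν t (sideOf G x p) x k = mom ν t (sideOf G x' p') x' k := by
  obtain ⟨γ, h1, h2⟩ := h.exists_iso (show G.dist x p = G.dist x' p' by
    rw [dist_eq_one_iff_adj.2 hxp, dist_eq_one_iff_adj.2 hxp'])
  rw [← h1, ← h2, ← image_sideOf, mom_gact h hν]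

/-! ### One site -/

lemma abs_mag_single (y : V → ℝ) (v : V) : |mag G θ {v} y v| ≤ 2 * |y v| := by
  have hw : ∀ η, w G θ {v} η = 1 / 2 := fun η => by simp [w, edgesIn_singleton]
  have e : mag G θ {v} y v = (Real.exp (y v) - Real.exp (-(y v)))
      / (Real.exp (y v) + Real.exp (-(y v))) := by
    rw [mag, M, Z]
    simp only [show ({v} : Finset V) = insert v ∅ by simp, S_insert (Finset.notMem_empty v)]
    simp only [show insert v (∅ : Finset V) = {v} by simp]
    simp [S, W, hw, fieldSum, chi, spin]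
    ring_nf
    field_simp
  rw [e, abs_div, abs_of_pos (by positivity : 0 < Real.exp (y v) + Real.exp (-(y v))),
    div_le_iff₀ (by positivity)]
  have key : ∀ z : ℝ, 0 ≤ z → |Real.exp z - Real.exp (-z)| ≤ 2 * z * (Real.exp z + Real.exp (-z)) := by
    intro z hz
    have h1 : Real.exp (-z) ≤ Real.exp z := Real.exp_le_exp.2 (by linarith)
    rw [abs_of_nonneg (by linarith)]
    have h2 : -2 * z + 1 ≤ Real.exp (-2 * z) := Real.add_one_le_exp _
    have h3 : Real.exp (-z) = Real.exp z * Real.exp (-2 * z) := by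
      rw [← Real.exp_add]; congr 1; ring
    have h4 := mul_le_mul_of_nonneg_left h2 (Real.exp_pos z).le
    have h5 : 0 ≤ z * Real.exp (-z) := mul_nonneg hz (Real.exp_pos _).le
    nlinarith
  rcases le_total 0 (y v) with h0 | h0
  · rw [abs_of_nonneg h0]; exact key _ h0
  · have := key (-(y v)) (by linarith)
    rw [neg_neg, abs_sub_comm, add_comm] at this
    rw [abs_of_nonpos h0]; exact this

lemma integral_pow_gaussian (v : ℝ≥0) (p : ℕ) :
    ∫ x, x ^ (2 * p) ∂gaussianReal 0 v = (v : ℝ) ^ p * ∫ x, x ^ (2 * p) ∂gaussianReal 0 1 := by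
  set c := Real.sqrt v
  have e : gaussianReal 0 v = (gaussianReal 0 1).map (c * ·) := by
    rw [gaussianReal_map_const_mul]
    congr 1
    · simp
    · ext; simp [c, Real.sq_sqrt v.coe_nonneg]
  rw [e, integral_map (measurable_const_mul c).aemeasurable (by fun_prop)]
  simp only [mul_pow, integral_const_mul]
  congr 1
  rw [pow_mul, Real.sq_sqrt v.coe_nonneg]

lemma pos_one (m : ℕ) (ω : Omega V) (v : V) :
    pos m ω 1 v = mesh m * spin (ω.1 v) + inc m (slice ω.2 v) 0 := by
  simp [pos, incY]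

lemma single_mom_le (hν : HasMarginals G θ ν) (hG : G.IsTree) (hθ : |θ| < 1) (v : V) (p : ℕ) :
    ∃ C, 0 ≤ C ∧ ∀ t, 0 < t → t ≤ 1 → mom ν t {v} v p ≤ C * t ^ p := by
  set g := ∫ x, x ^ (2 * p) ∂gaussianReal 0 1
  have hg : 0 ≤ g := integral_nonneg fun x => by rw [pow_mul]; exact pow_nonneg (sq_nonneg _) _
  refine ⟨4 ^ (2 * p) * (1 + g) * 2 ^ p, by positivity, fun t ht0 ht1 => ?_⟩
  obtain ⟨m, hm1, hm2⟩ := exists_nat_pow_near_of_lt_one ht0 ht1 (by norm_num : (0 : ℝ) < 1 / 2)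
    (by norm_num)
  refine (mom_mono (ν := ν) (t' := mesh m) hm2 subset_rfl v p).trans ?_
  have hmm : mesh m ≤ 2 * t := by
    unfold mesh
    rw [pow_succ] at hm1
    linarith
  have hmesh1 : mesh m ≤ 1 := pow_le_one₀ (by norm_num) (by norm_num)
  have hmag := mu_finite hν hG hθ (conn_singleton v) m 1 (Finset.mem_singleton_self v)
  simp only [Nat.cast_one, one_mul, Finset.coe_singleton] at hmag
  have hinc : Integrable (fun Z : V × ℕ × ℕ → ℝ => inc m (slice Z v) 0 ^ (2 * p))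
      (gam (V × ℕ × ℕ)) := by
    have h1 : Integrable (fun x : ℝ => x ^ (2 * p)) (gaussianReal 0 (meshNN m)) := by
      refine ((memLp_id_gaussianReal' ((2 * p : ℕ) : ℝ≥0∞) (ENNReal.natCast_ne_top _)).integrable_norm_pow'
        ).mono' (by fun_prop) (Eventually.of_forall fun x => ?_)
      simp [pow_mul]
    rw [← map_inc m v 0] at h1
    exact h1.comp_measurable (measurable_incZ m v 0)
  have hb : ∀ᵐ ω ∂probM ν, mu ν (mesh m) {v} v ω ^ (2 * p)
      ≤ 4 ^ (2 * p) * (mesh m ^ (2 * p) + inc m (slice ω.2 v) 0 ^ (2 * p)) := by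
    filter_upwards [hmag] with ω hω
    rw [hω]
    have h1 := abs_mag_single (G := G) (θ := θ) (pos m ω 1) v
    have h2 : |pos m ω 1 v| ≤ mesh m + |inc m (slice ω.2 v) 0| := by
      rw [pos_one]
      refine (abs_add_le _ _).trans (le_of_eq ?_)
      rw [abs_mul, abs_spin, mul_one, abs_of_pos (mesh_pos m)]
    rw [← (even_two_mul p).pow_abs, ← (even_two_mul p).pow_abs (a := inc m _ _)]
    refine (pow_le_pow_left₀ (abs_nonneg _) (h1.trans
      (mul_le_mul_of_nonneg_left h2 two_pos.le)) _).trans ?_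
    rcases le_total (mesh m) |inc m (slice ω.2 v) 0| with h3 | h3
    · refine (pow_le_pow_left₀ (by have := mesh_pos m; positivity)
        (show 2 * (mesh m + |inc m (slice ω.2 v) 0|) ≤ 4 * |inc m (slice ω.2 v) 0| by linarith) _
        ).trans ?_
      rw [mul_pow]
      exact mul_le_mul_of_nonneg_left (le_add_of_nonneg_left (pow_nonneg (mesh_pos m).le _))
        (by positivity)
    · refine (pow_le_pow_left₀ (by have := mesh_pos m; positivity)
        (show 2 * (mesh m + |inc m (slice ω.2 v) 0|) ≤ 4 * mesh m by linarith) _).trans ?_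
      rw [mul_pow]
      exact mul_le_mul_of_nonneg_left (le_add_of_nonneg_right (by positivity)) (by positivity)
  have hi2 : Integrable (fun ω : Omega V => inc m (slice ω.2 v) 0 ^ (2 * p)) (probM ν) :=
    Integrable.comp_snd (f := fun Z => inc m (slice Z v) 0 ^ (2 * p)) hinc ν
  refine (integral_mono_ae (integrable_mu_pow _ _ _ _)
    (((integrable_const _).add hi2).const_mul _) hb).trans ?_
  simp only [Pi.add_apply]
  rw [integral_const_mul, integral_add (integrable_const _) hi2, integral_const, probReal_univ,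
    one_smul, probM, integral_fun_snd (μ := ν) (fun Z => inc m (slice Z v) 0 ^ (2 * p)),
    probReal_univ, one_smul,
    ← integral_map (f := fun x : ℝ => x ^ (2 * p)) (measurable_incZ m v 0).aemeasurable
      (by fun_prop), map_inc, integral_pow_gaussian, coe_meshNN]
  have hpp : mesh m ^ (2 * p) ≤ mesh m ^ p :=
    pow_le_pow_of_le_one (mesh_pos m).le hmesh1 (by omega)
  calc 4 ^ (2 * p) * (mesh m ^ (2 * p) + mesh m ^ p * g)
      ≤ 4 ^ (2 * p) * ((1 + g) * mesh m ^ p) := by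
        refine mul_le_mul_of_nonneg_left ?_ (by positivity)
        linarith
    _ ≤ 4 ^ (2 * p) * ((1 + g) * (2 * t) ^ p) := by
        refine mul_le_mul_of_nonneg_left (mul_le_mul_of_nonneg_left
          (pow_le_pow_left₀ (mesh_pos m).le hmm p) (by linarith)) (by positivity)
    _ = _ := by rw [mul_pow]; ring

/-- The information at a single site. -/
lemma single_ge (n k : ℕ) (v : V) {Var : ℝ}
    (hW : MemLp (fun Z : V × ℕ × ℕ → ℝ => cum n (slice Z v) k) 2 (gam (V × ℕ × ℕ)))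
    (hW1 : ∫ Z, cum n (slice Z v) k ∂gam (V × ℕ × ℕ) = 0)
    (hW2 : ∫ Z, cum n (slice Z v) k ^ 2 ∂gam (V × ℕ × ℕ) = Var) (hVar : Var = k * mesh n) :
    (k : ℝ) * mesh n / (1 + k * mesh n) ≤ mom ν (k * mesh n) {v} v 1 := by
  subst hVar
  set t := (k : ℝ) * mesh n
  have ht : 0 ≤ t := mul_nonneg (Nat.cast_nonneg _) (mesh_pos n).le
  set Wn : Omega V → ℝ := fun ω => cum n (slice ω.2 v) k
  set y : Omega V → ℝ := fun ω => t * sp v ω + Wn ω
  have hWn : MemLp Wn 2 (probM ν) := hW.comp_measurePreserving measurePreserving_snd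
  have hs : MemLp (sp v) 2 (probM ν) := MemLp.of_bound (measurable_sp v).aestronglyMeasurable 1
    (Eventually.of_forall fun ω => (Real.norm_eq_abs _).trans_le (abs_sp_le v ω))
  have hy : MemLp y 2 (probM ν) := (hs.const_mul t).add hWn
  have hyi : Integrable y (probM ν) := hy.integrable (by norm_num)
  have hsW : ∫ ω, sp v ω * Wn ω ∂probM ν = 0 := by
    exact (integral_prod_mul (μ := ν) (ν := gam (V × ℕ × ℕ)) (fun σ : V → Bool => spin (σ v))
      (fun Z => cum n (slice Z v) k)).trans (by rw [hW1, mul_zero])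
  have hWnsq : ∫ ω, Wn ω ^ 2 ∂probM ν = t := by
    rw [probM, integral_fun_snd (μ := ν) (fun Z => cum n (slice Z v) k ^ 2), probReal_univ,
      one_smul, hW2]
  have hsWi : Integrable (fun ω => sp v ω * Wn ω) (probM ν) := hs.integrable_mul hWn
  have hsy : ∫ ω, y ω * sp v ω ∂probM ν = t := by
    have e : ∀ ω, y ω * sp v ω = t + sp v ω * Wn ω := fun ω => by
      simp only [y]; linear_combination t * sp_mul_self v ω
    simp only [e]
    rw [integral_add (integrable_const _) hsWi, hsW, integral_const, probReal_univ, one_smul,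
      add_zero]
  have hy2 : ∫ ω, y ω ^ 2 ∂probM ν = t ^ 2 + t := by
    have e : ∀ ω, y ω ^ 2 = t ^ 2 + (2 * t * (sp v ω * Wn ω) + Wn ω ^ 2) := fun ω => by
      simp only [y]; linear_combination t ^ 2 * sp_mul_self v ω
    simp only [e]
    rw [integral_add (g := fun ω => 2 * t * (sp v ω * Wn ω) + Wn ω ^ 2) (integrable_const _)
      ((hsWi.const_mul _).add hWn.integrable_sq),
      integral_add (hsWi.const_mul _) hWn.integrable_sq, integral_const_mul, hsW, hWnsq,
      integral_const, probReal_univ, one_smul]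
    ring
  have hym : Measurable[obsAlg t {v}] y := by
    have e : y = fun ω => ∑ i ∈ Finset.range k, obs t {v} ω (v, n, i) := by
      funext ω
      have h0 := pos_eq n ω k v
      simp only [y, Wn, sp, t]
      rw [← h0]
      refine Finset.sum_congr rfl fun i hi => ?_
      have h1 : ((i : ℝ) + 1) * mesh n ≤ t :=
        mul_le_mul_of_nonneg_right (by exact_mod_cast Finset.mem_range.1 hi) (mesh_pos n).le
      simp [obs, t] at h1 ⊢
      simp [h1]
    rw [e]
    exact Finset.measurable_sum _ fun i _ =>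
      (measurable_pi_apply ((v, n, i) : V × ℕ × ℕ)).comp (comap_measurable (obs t {v}))
  have hgi : Integrable (sp v) (probM ν) := integrable_bdd (measurable_sp v) (abs_sp_le v)
  have hys : Integrable (y * sp v) (probM ν) := hy.integrable_mul hs
  have hpull : ∫ ω, y ω * mu ν t {v} v ω ∂probM ν = t := by
    calc _ = ∫ ω, ((probM ν)[y * sp v|obsAlg t {v}]) ω ∂probM ν := integral_congr_ae (by
          filter_upwards [condExp_mul_of_stronglyMeasurable_left (μ := probM ν)
            hym.stronglyMeasurable hys hgi, cE_ae (ν := ν) (t := t) (S := {v}) (abs_sp_le v)]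
            with ω e1 e2
          rw [e1, mu, e2, Pi.mul_apply])
      _ = ∫ ω, (y * sp v) ω ∂probM ν := integral_condExp (obsAlg_le t _)
      _ = t := hsy
  set l := 1 / (1 + t) with hl
  have hmy : Integrable (fun ω => y ω * mu ν t {v} v ω) (probM ν) :=
    hyi.mul_bdd (measurable_cE _ _ _).aestronglyMeasurable
      (Eventually.of_forall fun ω => (Real.norm_eq_abs _).trans_le (abs_mu_le _ _ _ ω))
  have h0 : 0 ≤ ∫ ω, (mu ν t {v} v ω - l * y ω) ^ 2 ∂probM ν := integral_nonneg fun _ => sq_nonneg _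
  have e : ∀ ω, (mu ν t {v} v ω - l * y ω) ^ 2
      = mu ν t {v} v ω ^ (2 * 1) + (l ^ 2 * y ω ^ 2 - 2 * l * (y ω * mu ν t {v} v ω)) := fun ω => by
    ring
  simp only [e] at h0
  rw [integral_add (g := fun ω => l ^ 2 * y ω ^ 2 - 2 * l * (y ω * mu ν t {v} v ω))
      (integrable_mu_pow _ _ _ _) ((hy.integrable_sq.const_mul _).sub (hmy.const_mul _)),
    integral_sub (hy.integrable_sq.const_mul _) (hmy.const_mul _), integral_const_mul,
    integral_const_mul, hy2, hpull] at h0
  have : l ^ 2 * (t ^ 2 + t) - 2 * l * t = -(t / (1 + t)) := by rw [hl]; field_simp; ring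
  rw [this] at h0
  show t / (1 + t) ≤ mom ν t {v} v 1
  unfold mom
  linarith

lemma single_ge_mesh (m : ℕ) (v : V) : mesh m / (1 + mesh m) ≤ mom ν (mesh m) {v} v 1 := by
  have e : (fun Z : V × ℕ × ℕ → ℝ => cum m (slice Z v) 1) = fun Z => inc m (slice Z v) 0 := by
    funext Z; simp [cum]
  have hmp : MeasurePreserving (fun Z : V × ℕ × ℕ → ℝ => inc m (slice Z v) 0) (gam _)
      (gaussianReal 0 (meshNN m)) := ⟨measurable_incZ m v 0, map_inc m v 0⟩
  have h := single_ge (ν := ν) m 1 v (Var := mesh m) (by rw [e]; exact memLp_inc m v 0) (by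
      simp only [congrFun e]
      rw [← integral_map (f := fun x : ℝ => x) hmp.measurable.aemeasurable (by fun_prop),
        hmp.map_eq]
      simp [integral_id_gaussianReal]) (by
      simp only [congrFun e]
      rw [← integral_map (f := fun x : ℝ => x ^ 2) hmp.measurable.aemeasurable (by fun_prop),
        hmp.map_eq, integral_sq_gaussian, coe_meshNN]) (by simp)
  simpa using h

lemma single_ge_nat (T : ℕ) (v : V) : (T : ℝ) / (1 + T) ≤ mom ν T {v} v 1 := by
  have e : (fun Z : V × ℕ × ℕ → ℝ => cum 0 (slice Z v) T) = endNoise v T := rfl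
  have hmp : MeasurePreserving (endNoise v T) (gam (V × ℕ × ℕ)) (gaussianReal 0 T) :=
    ⟨Finset.measurable_sum _ fun i _ => measurable_pi_apply _, map_endNoise v T⟩
  have h := single_ge (ν := ν) 0 T v (Var := (T : ℝ)) (by
      rw [e]; exact (memLp_id_gaussianReal' 2 (by simp)).comp_measurePreserving hmp) (by
      rw [e]
      show ∫ Z, (id : ℝ → ℝ) (endNoise v T Z) ∂_ = 0
      rw [← integral_map hmp.measurable.aemeasurable (by fun_prop), hmp.map_eq]
      simp [integral_id_gaussianReal]) (by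
      simp only [congrFun e]
      rw [← integral_map (f := fun x : ℝ => x ^ 2) hmp.measurable.aemeasurable (by fun_prop),
        hmp.map_eq, integral_sq_gaussian]
      simp) (by simp [mesh])
  simpa [mesh] using h

/-! ### One step of the recursion -/

/-- Symmetrised bound for a function of the magnetisation at a cut. -/
lemma union_le (h : Reg G d) (hν : HasMarginals G θ ν) (hθ : |θ| < 1) {v v' : V}
    (hvv' : G.Adj v v') (t : ℝ) {A B : Set V} (hA : A ⊆ sideOf G v v') (hB : B ⊆ sideOf G v' v)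
    {Φ : ℝ → ℝ} (hΦ : Continuous Φ) {Bd : ℝ → ℝ → ℝ} (hBd : Continuous (Function.uncurry Bd))
    (hle : ∀ a b : ℝ, |a| ≤ 1 → |b| ≤ 1 →
      Φ ((a + θ * b) / (1 + θ * (a * b))) * (1 + θ * (a * b))
        + Φ ((a - θ * b) / (1 - θ * (a * b))) * (1 - θ * (a * b)) ≤ 2 * Bd a b) :
    ∫ ω, Φ (mu ν t (A ∪ B) v ω) ∂probM ν
      ≤ ∫ p, Bd (mu ν t A v p.1) (mu ν t B v' p.2) ∂(probM ν).prod (probM ν) := by
  obtain ⟨φA, hφA, hφA1, eA⟩ := exists_cE_eq (ν := ν) t A (sp v)
  obtain ⟨φB, hφB, hφB1, eB⟩ := exists_cE_eq (ν := ν) t B (sp v')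
  set F : ℝ → ℝ → ℝ := fun a b => Φ ((a + θ * b) / (1 + θ * (a * b))) * (1 + θ * (a * b))
  have hFm : Measurable (Function.uncurry F) :=
    (hΦ.measurable.comp (by fun_prop : Measurable fun z : ℝ × ℝ =>
      (z.1 + θ * z.2) / (1 + θ * (z.1 * z.2)))).mul (by fun_prop)
  obtain ⟨M, hM⟩ := isCompact_Icc.exists_bound_of_continuousOn (f := Φ) (s := Set.Icc (-1 : ℝ) 1)
    hΦ.continuousOn
  have hratio : ∀ a b : ℝ, |a| ≤ 1 → |b| ≤ 1 →
      |(a + θ * b) / (1 + θ * (a * b))| ≤ 1 := fun a b ha hb => by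
    have hpos := one_add_mul_pos hθ ha hb
    rw [abs_div, abs_of_pos hpos, div_le_one hpos, abs_le]
    obtain ⟨a1, a2⟩ := abs_le.1 ha
    obtain ⟨b1, b2⟩ := abs_le.1 hb
    obtain ⟨t1, t2⟩ := abs_lt.1 hθ
    have h1 : |θ * b| ≤ 1 := by
      rw [abs_mul]; exact mul_le_one₀ hθ.le (abs_nonneg _) hb
    obtain ⟨c1, c2⟩ := abs_le.1 h1
    constructor <;> nlinarith [mul_nonneg (by linarith : 0 ≤ 1 + a) (by linarith : 0 ≤ 1 + θ * b),
      mul_nonneg (by linarith : 0 ≤ 1 - a) (by linarith : 0 ≤ 1 - θ * b)]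
  have hFb : ∀ a b, |a| ≤ 1 → |b| ≤ 1 → |F a b| ≤ M * 2 := fun a b ha hb => by
    have hM0 : 0 ≤ M := (norm_nonneg _).trans (hM 0 (by simp))
    simp only [F, abs_mul]
    refine mul_le_mul (hM _ (Set.mem_Icc.2 (abs_le.1 (hratio a b ha hb)))) ?_ (abs_nonneg _) hM0
    refine (abs_add_le _ _).trans ?_
    rw [abs_one, abs_mul, abs_mul]
    have : |θ| * (|a| * |b|) ≤ 1 :=
      mul_le_one₀ hθ.le (by positivity) (mul_le_one₀ ha (abs_nonneg _) hb)
    linarith
  have hpm : ∀ f : ℝ → ℝ → ℝ, Measurable (Function.uncurry f) →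
      Measurable fun p : Omega V × Omega V => f (mu ν t A v p.1) (mu ν t B v' p.2) := fun f hf =>
    hf.comp (((measurable_cE t A _).comp measurable_fst).prodMk
      ((measurable_cE t B _).comp measurable_snd))
  have hi : Integrable (fun p : Omega V × Omega V => F (mu ν t A v p.1) (mu ν t B v' p.2))
      ((probM ν).prod (probM ν)) :=
    integrable_bdd (hpm F hFm) fun p => hFb _ _ (abs_mu_le _ _ _ _) (abs_mu_le _ _ _ _)
  have hi' : Integrable (fun p : Omega V × Omega V => F (mu ν t A v p.1) (-(mu ν t B v' p.2)))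
      ((probM ν).prod (probM ν)) :=
    integrable_bdd (hpm (fun a b => F a (-b)) (hFm.comp (measurable_fst.prodMk measurable_snd.neg)))
      fun p => hFb _ _ (abs_mu_le _ _ _ _) (by rw [abs_neg]; exact abs_mu_le _ _ _ _)
  have e1 : ∫ ω, Φ (mu ν t (A ∪ B) v ω) ∂probM ν
      = ∫ p, F (mu ν t A v p.1) (mu ν t B v' p.2) ∂(probM ν).prod (probM ν) := by
    have hΨ : Measurable fun z : (V × ℕ × ℕ → ℝ) × (V × ℕ × ℕ → ℝ) =>
        Φ ((φA z.1 + θ * φB z.2) / (1 + θ * (φA z.1 * φB z.2))) :=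
      hΦ.measurable.comp (by fun_prop)
    calc _ = ∫ ω, Φ ((φA (obs t A ω) + θ * φB (obs t B ω))
          / (1 + θ * (φA (obs t A ω) * φB (obs t B ω)))) ∂probM ν := integral_congr_ae (by
          filter_upwards [edge_formulas h hν hθ hvv' t hA hB] with ω hω
          rw [hω, mu, mu, eA, eB])
      _ = _ := cut_obs h hν hθ hvv' t hA hB hΨ
      _ = _ := integral_congr_ae (Eventually.of_forall fun p => by
          simp only [F, pairDensity, mu, eA, eB]
          rw [show (fun ω : Omega V => spin (ω.1 v)) = sp v from rfl,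
            show (fun ω : Omega V => spin (ω.1 v')) = sp v' from rfl, eA, eB])
  have e2 : ∫ p, F (mu ν t A v p.1) (-(mu ν t B v' p.2)) ∂(probM ν).prod (probM ν)
      = ∫ p, F (mu ν t A v p.1) (mu ν t B v' p.2) ∂(probM ν).prod (probM ν) := by
    have hT : MeasurePreserving (Prod.map (id : Omega V → Omega V) flipAll)
        ((probM ν).prod (probM ν)) ((probM ν).prod (probM ν)) :=
      (MeasurePreserving.id _).prod (measurePreserving_flipAll h hν)
    conv_rhs => rw [← hT.map_eq]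
    rw [integral_map hT.measurable.aemeasurable (hpm F hFm).aestronglyMeasurable]
    refine integral_congr_ae ?_
    filter_upwards [Measure.quasiMeasurePreserving_snd.ae (mu_flipAll h hν t B v')] with p hp
    simp only [Prod.map_fst, Prod.map_snd, id, hp]
  obtain ⟨M', hM'⟩ := (isCompact_Icc.prod isCompact_Icc).exists_bound_of_continuousOn
    (f := Function.uncurry Bd) (s := Set.Icc (-1 : ℝ) 1 ×ˢ Set.Icc (-1 : ℝ) 1) hBd.continuousOn
  have hiB : Integrable (fun p : Omega V × Omega V => Bd (mu ν t A v p.1) (mu ν t B v' p.2))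
      ((probM ν).prod (probM ν)) :=
    integrable_bdd (hpm Bd hBd.measurable) fun p => hM' (mu ν t A v p.1, mu ν t B v' p.2)
      ⟨Set.mem_Icc.2 (abs_le.1 (abs_mu_le _ _ _ _)), Set.mem_Icc.2 (abs_le.1 (abs_mu_le _ _ _ _))⟩
  have h2 := integral_mono (hi.add hi') (hiB.const_mul 2)
    (g := fun p => 2 * Bd (mu ν t A v p.1) (mu ν t B v' p.2)) fun p => by
      have := hle _ _ (abs_mu_le (ν := ν) t A v p.1) (abs_mu_le (ν := ν) t B v' p.2)
      simp only [Pi.add_apply, F, mul_neg, ← sub_eq_add_neg]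
      exact this
  simp only [Pi.add_apply] at h2
  rw [integral_add hi hi', e2, integral_const_mul] at h2
  linarith

lemma integral_prod_pow (t : ℝ) (A B : Set V) (v v' : V) (j k : ℕ) :
    ∫ p, mu ν t A v p.1 ^ j * mu ν t B v' p.2 ^ k ∂(probM ν).prod (probM ν)
      = (∫ ω, mu ν t A v ω ^ j ∂probM ν) * ∫ ω, mu ν t B v' ω ^ k ∂probM ν :=
  integral_prod_mul (fun ω => mu ν t A v ω ^ j) fun ω => mu ν t B v' ω ^ k

lemma integrable_prod_pow (t : ℝ) (A B : Set V) (v v' : V) (j k : ℕ) :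
    Integrable (fun p : Omega V × Omega V => mu ν t A v p.1 ^ j * mu ν t B v' p.2 ^ k)
      ((probM ν).prod (probM ν)) :=
  (integrable_mu_pow t A v j).mul_prod (integrable_mu_pow t B v' k)

/-- The second moment at a cut, upper bound. -/
lemma mom_union_le (h : Reg G d) (hν : HasMarginals G θ ν) (hθ : |θ| < 1) {v v' : V}
    (hvv' : G.Adj v v') (t : ℝ) {A B : Set V} (hA : A ⊆ sideOf G v v') (hB : B ⊆ sideOf G v' v) :
    mom ν t (A ∪ B) v 1 ≤ mom ν t A v 1 + θ ^ 2 * mom ν t B v' 1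
      - (1 - θ ^ 2) * θ ^ 2 * mom ν t A v 1 * mom ν t B v' 1 := by
  refine (union_le h hν hθ hvv' t hA hB (Φ := fun x => x ^ (2 * 1)) (by fun_prop)
    (Bd := fun a b => a ^ 2 * b ^ 0 + θ ^ 2 * (a ^ 0 * b ^ 2)
      - (1 - θ ^ 2) * θ ^ 2 * (a ^ 2 * b ^ 2)) (by fun_prop) fun a b ha hb => ?_).trans (le_of_eq ?_)
  · have hx : |θ * (a * b)| < 1 := by
      rw [abs_mul]
      exact mul_lt_one_of_nonneg_of_lt_one_left (abs_nonneg _) hθ
        (by rw [abs_mul]; exact mul_le_one₀ ha (abs_nonneg _) hb)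
    obtain ⟨x1, x2⟩ := abs_lt.1 hx
    set x := θ * (a * b) with hxd
    have e : ((a + θ * b) / (1 + x)) ^ (2 * 1) * (1 + x)
        + ((a - θ * b) / (1 - x)) ^ (2 * 1) * (1 - x)
        = 4 - 2 * (2 - a ^ 2 - θ ^ 2 * b ^ 2) / (1 - x ^ 2) := by
      have h1 : (0 : ℝ) < 1 + x := by linarith
      have h2 : (0 : ℝ) < 1 - x := by linarith
      have h3 : (0 : ℝ) < 1 - x ^ 2 := by nlinarith
      have e1 : ∀ X z : ℝ, 0 < z → (X / z) ^ (2 * 1) * z = X ^ 2 / z := fun X z hz => by
        rw [mul_one, div_pow]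
        field_simp
      rw [e1 _ _ h1, e1 _ _ h2, div_add_div _ _ h1.ne' h2.ne', sub_div' h3.ne',
        div_eq_div_iff (mul_ne_zero h1.ne' h2.ne') h3.ne']
      rw [hxd]
      ring
    rw [e]
    have h3 : (0 : ℝ) < 1 - x ^ 2 := by nlinarith
    have ha2 : a ^ 2 ≤ 1 := (sq_le_one_iff_abs_le_one _).2 ha
    have hb2 : b ^ 2 ≤ 1 := (sq_le_one_iff_abs_le_one _).2 hb
    have ht2 : θ ^ 2 < 1 := (sq_lt_one_iff_abs_lt_one θ).2 hθ
    set N := 2 - a ^ 2 - θ ^ 2 * b ^ 2 with hN
    have hN0 : 1 - θ ^ 2 ≤ N := by nlinarith [mul_le_of_le_one_right (sq_nonneg θ) hb2]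
    have h4 : N * (1 + x ^ 2) ≤ N / (1 - x ^ 2) := by
      rw [le_div_iff₀ h3]
      nlinarith [mul_nonneg (by linarith : (0 : ℝ) ≤ N) (sq_nonneg (x ^ 2))]
    have h5 : (1 - θ ^ 2) * x ^ 2 ≤ N * x ^ 2 := mul_le_mul_of_nonneg_right hN0 (sq_nonneg x)
    rw [mul_div_assoc]
    have h6 : x ^ 2 = θ ^ 2 * (a ^ 2 * b ^ 2) := by rw [hxd]; ring
    rw [h6] at h4 h5
    simp only [pow_zero, mul_one, one_mul]
    rw [h6]
    linarith
  · have i := integrable_prod_pow (ν := ν) t A B v v'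
    rw [integral_sub (f := fun p : Omega V × Omega V => mu ν t A v p.1 ^ 2 * mu ν t B v' p.2 ^ 0
        + θ ^ 2 * (mu ν t A v p.1 ^ 0 * mu ν t B v' p.2 ^ 2))
        ((i 2 0).add ((i 0 2).const_mul _)) ((i 2 2).const_mul _),
      integral_add (i 2 0) ((i 0 2).const_mul _), integral_const_mul, integral_const_mul,
      integral_prod_pow, integral_prod_pow, integral_prod_pow]
    simp [mom, mul_assoc]

/-- The second moment at a cut, lower bound. -/
lemma mom_union_ge (h : Reg G d) (hν : HasMarginals G θ ν) (hθ : |θ| < 1) {v v' : V}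
    (hvv' : G.Adj v v') (t : ℝ) {A B : Set V} (hA : A ⊆ sideOf G v v') (hB : B ⊆ sideOf G v' v) :
    mom ν t A v 1 + θ ^ 2 * mom ν t B v' 1 - 2 * θ ^ 2 * mom ν t A v 1 * mom ν t B v' 1
      ≤ mom ν t (A ∪ B) v 1 := by
  have key := union_le h hν hθ hvv' t hA hB (Φ := fun x => -(x ^ (2 * 1))) (by fun_prop)
    (Bd := fun a b => 2 * θ ^ 2 * (a ^ 2 * b ^ 2) - (a ^ 2 * b ^ 0 + θ ^ 2 * (a ^ 0 * b ^ 2)))
    (by fun_prop) fun a b ha hb => ?_
  · have i := integrable_prod_pow (ν := ν) t A B v v'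
    rw [integral_neg, integral_sub (g := fun p : Omega V × Omega V =>
        mu ν t A v p.1 ^ 2 * mu ν t B v' p.2 ^ 0
        + θ ^ 2 * (mu ν t A v p.1 ^ 0 * mu ν t B v' p.2 ^ 2))
        ((i 2 2).const_mul _) ((i 2 0).add ((i 0 2).const_mul _)),
      integral_add (i 2 0) ((i 0 2).const_mul _), integral_const_mul, integral_const_mul,
      integral_prod_pow, integral_prod_pow, integral_prod_pow] at key
    simp [mom, mul_assoc] at key ⊢
    linarith
  · have hx : |θ * (a * b)| < 1 := by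
      rw [abs_mul]
      exact mul_lt_one_of_nonneg_of_lt_one_left (abs_nonneg _) hθ
        (by rw [abs_mul]; exact mul_le_one₀ ha (abs_nonneg _) hb)
    obtain ⟨x1, x2⟩ := abs_lt.1 hx
    set x := θ * (a * b) with hxd
    have h1 : (0 : ℝ) < 1 + x := by linarith
    have h2 : (0 : ℝ) < 1 - x := by linarith
    have h3 : (0 : ℝ) < 1 - x ^ 2 := by nlinarith
    have e : -(((a + θ * b) / (1 + x)) ^ (2 * 1)) * (1 + x)
        + -(((a - θ * b) / (1 - x)) ^ (2 * 1)) * (1 - x)
        = 2 * (2 - a ^ 2 - θ ^ 2 * b ^ 2) / (1 - x ^ 2) - 4 := by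
      have e1 : ∀ X z : ℝ, 0 < z → -((X / z) ^ (2 * 1)) * z = -(X ^ 2) / z := fun X z hz => by
        rw [mul_one, div_pow]
        field_simp
      rw [e1 _ _ h1, e1 _ _ h2, div_add_div _ _ h1.ne' h2.ne', div_sub' h3.ne',
        div_eq_div_iff (mul_ne_zero h1.ne' h2.ne') h3.ne']
      rw [hxd]
      ring
    rw [e]
    set A2 := a ^ 2
    set B2 := θ ^ 2 * b ^ 2
    have hA1 : A2 ≤ 1 := (sq_le_one_iff_abs_le_one _).2 ha
    have hA0 : 0 ≤ A2 := sq_nonneg a
    have hB0 : 0 ≤ B2 := mul_nonneg (sq_nonneg _) (sq_nonneg _)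
    have hB1 : B2 ≤ 1 := mul_le_one₀ ((sq_le_one_iff_abs_le_one _).2 hθ.le) (sq_nonneg _)
      ((sq_le_one_iff_abs_le_one _).2 hb)
    have h6 : x ^ 2 = A2 * B2 := by rw [hxd]; simp only [A2, B2]; ring
    have h4 : (2 - A2 - B2) / (1 - x ^ 2) ≤ 2 - A2 - B2 + 2 * (A2 * B2) := by
      rw [div_le_iff₀ h3, h6]
      nlinarith [mul_nonneg (mul_nonneg hA0 hB0) (show 0 ≤ A2 + B2 - 2 * (A2 * B2) by nlinarith)]
    simp only [pow_zero, mul_one, one_mul, mul_div_assoc]
    linarith [show 2 * θ ^ 2 * (a ^ 2 * b ^ 2) = 2 * (A2 * B2) by simp only [A2, B2]; ring]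

lemma exists_one_add_pow_le (k : ℕ) {U : ℝ} (hU : 0 ≤ U) :
    ∃ K, 0 ≤ K ∧ ∀ u, 0 ≤ u → u ≤ U → (1 + u) ^ k ≤ 1 + K * u := by
  induction k with
  | zero => exact ⟨0, le_rfl, fun u _ _ => by simp⟩
  | succ k ih =>
    obtain ⟨K, hK0, hK⟩ := ih
    refine ⟨K + 1 + K * U, by positivity, fun u h0 h1 => ?_⟩
    rw [pow_succ]
    refine (mul_le_mul_of_nonneg_right (hK u h0 h1) (by linarith)).trans ?_
    nlinarith [mul_le_mul_of_nonneg_left h1 (mul_nonneg hK0 h0)]

lemma binom_sym_le (a b : ℝ) {p : ℕ} (hp : 2 ≤ p) :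
    (a + b) ^ (2 * p) + (a - b) ^ (2 * p) ≤ 2 * a ^ (2 * p) + 2 * b ^ (2 * p)
      + 2 * 4 ^ p * (a ^ 2 * b ^ (2 * (p - 1)) + a ^ (2 * (p - 1)) * b ^ 2) := by
  set N := 2 * p with hN
  set mid := a ^ 2 * b ^ (2 * (p - 1)) + a ^ (2 * (p - 1)) * b ^ 2 with hmid
  have hmid0 : 0 ≤ mid := by rw [hmid, pow_mul b, pow_mul a]; positivity
  rw [sub_eq_add_neg, add_pow, add_pow, ← Finset.sum_add_distrib]
  have hterm : ∀ m ∈ Finset.range (N + 1),
      a ^ m * b ^ (N - m) * (N.choose m : ℝ) + a ^ m * (-b) ^ (N - m) * (N.choose m : ℝ)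
        ≤ (if m = 0 then 2 * b ^ N else 0) + (if m = N then 2 * a ^ N else 0)
          + 2 * (N.choose m : ℝ) * mid := by
    intro m hm
    have hmN : m ≤ N := Nat.lt_succ_iff.1 (Finset.mem_range.1 hm)
    have hc0 : (0 : ℝ) ≤ 2 * (N.choose m : ℝ) * mid := by positivity
    rcases Nat.even_or_odd (N - m) with he | ho
    swap
    · rw [ho.neg_pow]
      have h0 : a ^ m * b ^ (N - m) * (N.choose m : ℝ) + a ^ m * -b ^ (N - m) * (N.choose m : ℝ)
          = 0 := by ring
      rw [h0]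
      have : 0 ≤ b ^ N := by rw [hN, pow_mul]; positivity
      have : 0 ≤ a ^ N := by rw [hN, pow_mul]; positivity
      split_ifs <;> linarith
    rw [he.neg_pow]
    by_cases h0 : m = 0
    · subst h0
      rw [if_pos rfl, if_neg (by omega)]
      simp only [pow_zero, Nat.sub_zero, Nat.choose_zero_right, Nat.cast_one, one_mul, mul_one]
      linarith
    by_cases h1 : m = N
    · subst h1
      rw [if_neg (by omega), if_pos rfl]
      simp only [pow_zero, Nat.sub_self, Nat.choose_self, Nat.cast_one, one_mul, mul_one]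
      linarith
    rw [if_neg h0, if_neg h1, zero_add, zero_add]
    obtain ⟨j, hj⟩ := he
    have hme : Even m := by
      refine (Nat.even_sub hmN).1 (hj ▸ ⟨j, rfl⟩) |>.1 ?_
      exact ⟨p, by omega⟩
    obtain ⟨i, hi⟩ := hme
    have hle : a ^ m * b ^ (N - m) ≤ mid := by
      rw [hj, hi, ← two_mul, ← two_mul, pow_mul, pow_mul, hmid, pow_mul a 2, pow_mul b 2]
      have hA : 0 ≤ a ^ 2 := sq_nonneg a
      have hB : 0 ≤ b ^ 2 := sq_nonneg b
      have hi1 : 1 ≤ i := by omega
      have hj1 : 1 ≤ j := by omega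
      have hij : i + j = p := by omega
      rcases le_total (a ^ 2) (b ^ 2) with hab | hab
      · refine le_trans ?_ (le_add_of_nonneg_right (by positivity))
        calc (a ^ 2) ^ i * (b ^ 2) ^ j = a ^ 2 * ((a ^ 2) ^ (i - 1) * (b ^ 2) ^ j) := by
              rw [← mul_assoc, ← pow_succ', Nat.sub_add_cancel hi1]
          _ ≤ a ^ 2 * ((b ^ 2) ^ (i - 1) * (b ^ 2) ^ j) := by gcongr
          _ = _ := by rw [← pow_add, show i - 1 + j = p - 1 by omega]
      · refine le_trans ?_ (le_add_of_nonneg_left (by positivity))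
        calc (a ^ 2) ^ i * (b ^ 2) ^ j = ((a ^ 2) ^ i * (b ^ 2) ^ (j - 1)) * b ^ 2 := by
              rw [mul_assoc, ← pow_succ, Nat.sub_add_cancel hj1]
          _ ≤ ((a ^ 2) ^ i * (a ^ 2) ^ (j - 1)) * b ^ 2 := by gcongr
          _ = _ := by rw [← pow_add, show i + (j - 1) = p - 1 by omega]
    have : (0 : ℝ) ≤ (N.choose m : ℝ) := Nat.cast_nonneg _
    nlinarith
  refine (Finset.sum_le_sum hterm).trans (le_of_eq ?_)
  rw [Finset.sum_add_distrib, Finset.sum_add_distrib, Finset.sum_ite_eq', Finset.sum_ite_eq',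
    if_pos (by simp), if_pos (by simp), ← Finset.sum_mul, ← Finset.mul_sum]
  have hsum : (∑ m ∈ Finset.range (N + 1), (N.choose m : ℝ)) = 4 ^ p := by
    rw [← Nat.cast_sum, Nat.sum_range_choose, hN, pow_mul]; norm_num
  rw [hsum]
  ring

/-- Higher moments at a cut. -/
lemma mom_union_pow_le (hθ : |θ| < 1) {p : ℕ} (hp : 2 ≤ p) :
    ∃ K, 0 ≤ K ∧ ∀ (d : ℕ) (G : SimpleGraph V) [DecidableRel G.Adj] (ν : Measure (V → Bool))
      [IsProbabilityMeasure ν] (_ : Reg G d) (_ : HasMarginals G θ ν) (v v' : V) (_ : G.Adj v v')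
      (t : ℝ) (A B : Set V) (_ : A ⊆ sideOf G v v') (_ : B ⊆ sideOf G v' v),
      mom ν t (A ∪ B) v p ≤ mom ν t A v p + θ ^ (2 * p) * mom ν t B v' p
        + K * (mom ν t A v 1 * mom ν t B v' (p - 1) + mom ν t A v (p - 1) * mom ν t B v' 1)
        + K * (mom ν t A v p * (∫ ω, |mu ν t B v' ω| ∂probM ν)
          + mom ν t B v' p * ∫ ω, |mu ν t A v ω| ∂probM ν) := by
  have hr : 0 < 1 - |θ| := by linarith
  obtain ⟨L, hL0, hL⟩ := exists_one_add_pow_le (2 * p - 1) (U := |θ| / (1 - |θ|)) (by positivity)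
  set L' := L / (1 - |θ|) with hL'
  have hL'0 : 0 ≤ L' := by positivity
  refine ⟨4 ^ p + 4 ^ p * L', by positivity,
    fun d G _ ν _ h hν v v' hvv' t A B hA hB => ?_⟩
  set K := (4 : ℝ) ^ p + 4 ^ p * L'
  refine (union_le h hν hθ hvv' t hA hB (Φ := fun x => x ^ (2 * p)) (by fun_prop)
    (Bd := fun a b => a ^ (2 * p) * b ^ 0 + θ ^ (2 * p) * (a ^ 0 * b ^ (2 * p))
      + K * (a ^ (2 * 1) * b ^ (2 * (p - 1)) + a ^ (2 * (p - 1)) * b ^ (2 * 1))
      + K * (a ^ (2 * p) * |b| + |a| * b ^ (2 * p))) (by fun_prop) fun a b ha hb => ?_).trans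
    (le_of_eq ?_)
  · set c := θ * b with hc
    have hcb : |c| ≤ |b| := by
      rw [hc, abs_mul]; exact mul_le_of_le_one_left (abs_nonneg _) hθ.le
    have hcr : |a * c| ≤ |θ| := by
      rw [hc, abs_mul, abs_mul]
      calc |a| * (|θ| * |b|) ≤ 1 * (|θ| * 1) := by gcongr
        _ = |θ| := by ring
    have key : ∀ z : ℝ, |z| ≤ |θ| → ∀ s : ℝ,
        (s / (1 + z)) ^ (2 * p) * (1 + z) ≤ s ^ (2 * p) * (1 + L' * |z|) := by
      intro z hz s
      have hz1 : 0 < 1 + z := by linarith [(abs_le.1 hz).1]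
      have hs : 0 ≤ s ^ (2 * p) := by rw [pow_mul]; positivity
      have e : (s / (1 + z)) ^ (2 * p) * (1 + z) = s ^ (2 * p) * (1 / (1 + z)) ^ (2 * p - 1) := by
        rw [div_pow, div_pow, one_pow, div_mul_eq_mul_div, mul_one_div]
        rw [show (1 + z) ^ (2 * p) = (1 + z) ^ (2 * p - 1) * (1 + z) by
          rw [← pow_succ]; congr 1; omega]
        field_simp
      rw [e]
      refine mul_le_mul_of_nonneg_left ?_ hs
      have h1 : 1 / (1 + z) ≤ 1 + |z| / (1 - |θ|) := by
        rw [div_le_iff₀ hz1]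
        have h2 : 0 ≤ |z| / (1 - |θ|) := by positivity
        have h3 : |z| / (1 - |θ|) * (1 - |θ|) = |z| := div_mul_cancel₀ _ hr.ne'
        nlinarith [mul_le_mul_of_nonneg_left (show 1 - |θ| ≤ 1 + z by linarith [(abs_le.1 hz).1]) h2,
          neg_abs_le z]
      refine (pow_le_pow_left₀ (by positivity) h1 _).trans ((hL _ (by positivity)
        (div_le_div_of_nonneg_right hz hr.le)).trans (le_of_eq ?_))
      rw [hL']; ring
    have k1 := key (a * c) hcr (a + c)
    have k2 := key (-(a * c)) (by rw [abs_neg]; exact hcr) (a - c)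
    rw [abs_neg] at k2
    rw [show θ * (a * b) = a * c by rw [hc]; ring, ← sub_eq_add_neg] at *
    have hsym := binom_sym_le a c hp
    have hcpow : ∀ j, c ^ (2 * j) = θ ^ (2 * j) * b ^ (2 * j) := fun j => by rw [hc, mul_pow]
    have hth : ∀ j, 0 ≤ θ ^ (2 * j) ∧ θ ^ (2 * j) ≤ 1 := fun j =>
      ⟨by rw [pow_mul]; positivity, by
        rw [pow_mul]; exact pow_le_one₀ (sq_nonneg _) ((sq_le_one_iff_abs_le_one _).2 hθ.le)⟩
    have he : ∀ (x : ℝ) (j : ℕ), 0 ≤ x ^ (2 * j) := fun x j => by rw [pow_mul]; positivity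
    have m1 : a ^ 2 * c ^ (2 * (p - 1)) + a ^ (2 * (p - 1)) * c ^ 2
        ≤ a ^ 2 * b ^ (2 * (p - 1)) + a ^ (2 * (p - 1)) * b ^ 2 := by
      rw [hcpow, show c ^ 2 = θ ^ 2 * b ^ 2 by rw [hc]; ring]
      refine add_le_add (mul_le_mul_of_nonneg_left (mul_le_of_le_one_left (he _ _) (hth _).2)
        (sq_nonneg _)) (mul_le_mul_of_nonneg_left (mul_le_of_le_one_left (sq_nonneg _) ?_) (he _ _))
      simpa using (hth 1).2
    have m2 : ∀ x y : ℝ, |x| = |a| → |y| = |c| → (x + y) ^ (2 * p)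
        ≤ 4 ^ p * (a ^ (2 * p) + c ^ (2 * p)) := by
      intro x y hx hy
      rw [← (even_two_mul p).pow_abs, ← (even_two_mul p).pow_abs (a := a),
        ← (even_two_mul p).pow_abs (a := c), ← hx, ← hy]
      rcases le_total |x| |y| with hxy | hxy
      · refine (pow_le_pow_left₀ (abs_nonneg _)
          ((abs_add_le x y).trans (show |x| + |y| ≤ 2 * |y| by linarith)) _).trans ?_
        rw [mul_pow, pow_mul (2 : ℝ)]
        norm_num
      · refine (pow_le_pow_left₀ (abs_nonneg _)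
          ((abs_add_le x y).trans (show |x| + |y| ≤ 2 * |x| by linarith)) _).trans ?_
        rw [mul_pow, pow_mul (2 : ℝ)]
        norm_num
    have m3 := m2 a c rfl rfl
    have m4 := m2 a (-c) rfl (abs_neg c)
    rw [← sub_eq_add_neg] at m4
    have m5 : (a ^ (2 * p) + c ^ (2 * p)) * |a * c|
        ≤ a ^ (2 * p) * |b| + |a| * b ^ (2 * p) := by
      rw [add_mul, abs_mul]
      refine add_le_add (mul_le_mul_of_nonneg_left ((mul_le_of_le_one_left (abs_nonneg _) ha).trans
        hcb) (he _ _)) ?_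
      rw [hcpow]
      calc θ ^ (2 * p) * b ^ (2 * p) * (|a| * |c|) ≤ 1 * b ^ (2 * p) * (|a| * 1) :=
            mul_le_mul (mul_le_mul_of_nonneg_right (hth p).2 (he _ _))
              (mul_le_mul_of_nonneg_left (hcb.trans hb) (abs_nonneg _)) (by positivity)
              (by simpa using he b p)
        _ = _ := by ring
    have n1 := mul_le_mul_of_nonneg_left m1 (show (0 : ℝ) ≤ 2 * 4 ^ p by positivity)
    have n2 := mul_le_mul_of_nonneg_right (add_le_add m3 m4) (mul_nonneg hL'0 (abs_nonneg (a * c)))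
    have n3 := mul_le_mul_of_nonneg_left m5 (show (0 : ℝ) ≤ 2 * 4 ^ p * L' by positivity)
    have p1 : 0 ≤ a ^ 2 * b ^ (2 * (p - 1)) + a ^ (2 * (p - 1)) * b ^ 2 :=
      add_nonneg (mul_nonneg (sq_nonneg _) (he _ _)) (mul_nonneg (he _ _) (sq_nonneg _))
    have p2 : 0 ≤ a ^ (2 * p) * |b| + |a| * b ^ (2 * p) :=
      add_nonneg (mul_nonneg (he _ _) (abs_nonneg _)) (mul_nonneg (abs_nonneg _) (he _ _))
    have q1 := mul_nonneg (show (0 : ℝ) ≤ 4 ^ p * L' by positivity) p1
    have q2 := mul_nonneg (show (0 : ℝ) ≤ 4 ^ p by positivity) p2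
    rw [hcpow] at hsym
    simp only [mul_one, pow_zero, one_mul, K]
    linarith
  · have i := integrable_prod_pow (ν := ν) t A B v v'
    have ia : ∀ (S : Set V) (w : V), Integrable (fun ω => |mu ν t S w ω|) (probM ν) := fun S w =>
      (integrable_bdd (measurable_cE t S _) (abs_mu_le t S w)).abs
    have i1 := (integrable_mu_pow (ν := ν) t A v (2 * p)).mul_prod (ia B v')
    have i2 := (ia A v).mul_prod (integrable_mu_pow (ν := ν) t B v' (2 * p))
    rw [integral_add
        (f := fun z : Omega V × Omega V => mu ν t A v z.1 ^ (2 * p) * mu ν t B v' z.2 ^ 0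
          + θ ^ (2 * p) * (mu ν t A v z.1 ^ 0 * mu ν t B v' z.2 ^ (2 * p))
          + K * (mu ν t A v z.1 ^ (2 * 1) * mu ν t B v' z.2 ^ (2 * (p - 1))
            + mu ν t A v z.1 ^ (2 * (p - 1)) * mu ν t B v' z.2 ^ (2 * 1)))
        (g := fun z : Omega V × Omega V => K * (mu ν t A v z.1 ^ (2 * p) * |mu ν t B v' z.2|
          + |mu ν t A v z.1| * mu ν t B v' z.2 ^ (2 * p)))
        (((i _ 0).add ((i 0 _).const_mul _)).add (((i _ _).add (i _ _)).const_mul _))
        ((i1.add i2).const_mul _),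
      integral_add
        (f := fun z : Omega V × Omega V => mu ν t A v z.1 ^ (2 * p) * mu ν t B v' z.2 ^ 0
          + θ ^ (2 * p) * (mu ν t A v z.1 ^ 0 * mu ν t B v' z.2 ^ (2 * p)))
        (g := fun z : Omega V × Omega V =>
          K * (mu ν t A v z.1 ^ (2 * 1) * mu ν t B v' z.2 ^ (2 * (p - 1))
            + mu ν t A v z.1 ^ (2 * (p - 1)) * mu ν t B v' z.2 ^ (2 * 1)))
        ((i _ 0).add ((i 0 _).const_mul _)) (((i _ _).add (i _ _)).const_mul _),
      integral_add (i _ 0) ((i 0 _).const_mul _), integral_const_mul, integral_const_mul,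
      integral_const_mul, integral_add (i _ _) (i _ _), integral_add i1 i2,
      integral_prod_pow, integral_prod_pow, integral_prod_pow, integral_prod_pow,
      integral_prod_mul (fun ω => mu ν t A v ω ^ (2 * p)) fun ω => |mu ν t B v' ω|,
      integral_prod_mul (fun ω => |mu ν t A v ω|) fun ω => mu ν t B v' ω ^ (2 * p)]
    simp only [mom, pow_zero, integral_const, probReal_univ, one_smul, mul_one, one_mul]
    ring

end Vale.Agent.P161
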