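import Vale.Agent.P161.Critical.Obs
import Vale.Agent.P161.Critical.Edges

/-!
Magnetisations, messages along directed edges and the product formula for the posterior
covariance.
-/

open MeasureTheory ProbabilityTheory SimpleGraph Filter
open scoped Topology

set_option linter.unusedSectionVars false

namespace Vale.Agent.P161

universe u

variable {V : Type u} [DecidableEq V] {G : SimpleGraph V} [DecidableRel G.Adj] {θ : ℝ} {d : ℕ}
variable {ν : Measure (V → Bool)} [IsProbabilityMeasure ν]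

/-- The spin at a vertex as a random variable. -/
def sp (v : V) (ω : Omega V) : ℝ := spin (ω.1 v)

@[fun_prop]
lemma measurable_sp (v : V) : Measurable (sp v) :=
  (measurable_spin_eval v).comp measurable_fst

lemma abs_sp_le (v : V) (ω : Omega V) : |sp v ω| ≤ 1 := (abs_spin _).le

lemma sp_mul_self (v : V) (ω : Omega V) : sp v ω * sp v ω = 1 := spin_mul_self _

lemma abs_sp_mul_le (v u : V) (ω : Omega V) : |sp v ω * sp u ω| ≤ 1 := by
  rw [abs_mul]; exact mul_le_one₀ (abs_sp_le v ω) (abs_nonneg _) (abs_sp_le u ω)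

lemma siteDep_sp {S : Set V} {v : V} (hv : v ∈ S) : SiteDep S (sp v) := siteDep_spin hv

/-- The magnetisation given the observations on `S`. -/
noncomputable def mu (ν : Measure (V → Bool)) (t : ℝ) (S : Set V) (v : V) : Omega V → ℝ :=
  cE ν t S (sp v)

/-- The posterior second moment. -/
noncomputable def mm2 (ν : Measure (V → Bool)) (t : ℝ) (S : Set V) (v u : V) : Omega V → ℝ :=
  cE ν t S fun ω => sp v ω * sp u ω

/-- The posterior covariance. -/
noncomputable def covJ (ν : Measure (V → Bool)) (t : ℝ) (S : Set V) (v u : V) (ω : Omega V) : ℝ :=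
  mm2 ν t S v u ω - mu ν t S v ω * mu ν t S u ω

/-- The message from `x` to its neighbour `p`. -/
noncomputable def msg (ν : Measure (V → Bool)) (G : SimpleGraph V) (t : ℝ) (S : Set V) (x p : V) :
    Omega V → ℝ :=
  mu ν t (S ∩ sideOf G x p) x

/-- The attenuation factor of an edge. -/
noncomputable def edgeWt (θ a : ℝ) : ℝ := (1 - a ^ 2) / (1 - θ ^ 2 * a ^ 2)

lemma cE_congr_fun {t : ℝ} {S : Set V} {g g' : Omega V → ℝ} (h : ∀ ω, g ω = g' ω) :
    cE ν t S g = cE ν t S g' := by rw [funext h]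

lemma cE_const (t : ℝ) (S : Set V) {c : ℝ} (hc : |c| ≤ 1) (ω : Omega V) :
    cE ν t S (fun _ => c) ω = c := by
  obtain ⟨h1, h2⟩ := abs_le.1 hc
  rw [cE, condExp_const (obsAlg_le t S) c, clip, min_eq_right h2, max_eq_right h1]

lemma inter_union_sides (hG : G.IsTree) {v v' : V} (h : G.Adj v v') (S : Set V) :
    S ∩ sideOf G v v' ∪ S ∩ sideOf G v' v = S := by
  rw [← Set.inter_union_distrib_left, Set.inter_eq_left]
  exact fun z _ => mem_sideOf_or hG h z

/-- The formulas at the two ends of an edge. -/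
lemma edge_formulas (h : Reg G d) (hν : HasMarginals G θ ν) (hθ : |θ| < 1) {v v' : V}
    (hvv' : G.Adj v v') (t : ℝ) {A B : Set V} (hA : A ⊆ sideOf G v v') (hB : B ⊆ sideOf G v' v) :
    ∀ᵐ ω ∂probM ν, mu ν t (A ∪ B) v ω = (mu ν t A v ω + θ * mu ν t B v' ω)
        / (1 + θ * (mu ν t A v ω * mu ν t B v' ω)) := by
  have h1 := cE_prod h hν hθ hvv' t hA hB (f := sp v) (g := fun _ => 1) (measurable_sp v)
    measurable_const (siteDep_sp (self_mem_sideOf hvv')) (fun _ _ _ _ => rfl) (abs_sp_le v)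
    (fun _ => by simp)
  filter_upwards [h1] with ω hω
  have e1 : cE ν t A (fun η => sp v η * spin (η.1 v)) ω = 1 := by
    rw [show cE ν t A (fun η => sp v η * spin (η.1 v)) = cE ν t A fun _ => 1 from
      cE_congr_fun (sp_mul_self v), cE_const t A (by simp)]
  have e2 : cE ν t B (fun _ => (1 : ℝ)) ω = 1 := cE_const t B (by simp) ω
  have e3 : cE ν t B (fun η : Omega V => (1 : ℝ) * spin (η.1 v')) = mu ν t B v' :=
    cE_congr_fun fun η => one_mul _
  have e4 : cE ν t (A ∪ B) (fun η => sp v η * 1) = mu ν t (A ∪ B) v :=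
    cE_congr_fun fun η => mul_one _
  rw [e4, e1, e2, e3] at hω
  rw [hω, one_mul, mul_one]
  rfl

/-- The formulas for a spin on the far side. -/
lemma far_formulas (h : Reg G d) (hν : HasMarginals G θ ν) (hθ : |θ| < 1) {v v' u : V}
    (hvv' : G.Adj v v') (hu : u ∈ sideOf G v' v) (t : ℝ) {A B : Set V} (hA : A ⊆ sideOf G v v')
    (hB : B ⊆ sideOf G v' v) :
    ∀ᵐ ω ∂probM ν,
      mu ν t (A ∪ B) u ω = (mu ν t B u ω + θ * (mu ν t A v ω * mm2 ν t B v' u ω))
        / (1 + θ * (mu ν t A v ω * mu ν t B v' ω)) ∧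
      mm2 ν t (A ∪ B) v u ω = (mu ν t A v ω * mu ν t B u ω + θ * mm2 ν t B v' u ω)
        / (1 + θ * (mu ν t A v ω * mu ν t B v' ω)) ∧
      mm2 ν t (A ∪ B) v' u ω = (mm2 ν t B v' u ω + θ * (mu ν t A v ω * mu ν t B u ω))
        / (1 + θ * (mu ν t A v ω * mu ν t B v' ω)) := by
  have hv := self_mem_sideOf hvv'
  have hv' := self_mem_sideOf hvv'.symm
  have h1 := cE_prod h hν hθ hvv' t hA hB (f := fun _ => 1) (g := sp u) measurable_const
    (measurable_sp u) (fun _ _ _ _ => rfl) (siteDep_sp hu) (fun _ => by simp) (abs_sp_le u)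
  have h2 := cE_prod h hν hθ hvv' t hA hB (f := sp v) (g := sp u) (measurable_sp v)
    (measurable_sp u) (siteDep_sp hv) (siteDep_sp hu) (abs_sp_le v) (abs_sp_le u)
  have h3 := cE_prod h hν hθ hvv' t hA hB (f := fun _ => 1) (g := fun η => sp v' η * sp u η)
    measurable_const ((measurable_sp v').mul (measurable_sp u)) (fun _ _ _ _ => rfl)
    ((siteDep_sp hv').comp₂ (siteDep_sp hu) (· * ·)) (fun _ => by simp) (abs_sp_mul_le v' u)
  filter_upwards [h1, h2, h3] with ω q1 q2 q3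
  have ec : ∀ S, cE ν t S (fun _ => (1 : ℝ)) ω = 1 := fun S => cE_const t S (by simp) ω
  have ea : cE ν t A (fun η : Omega V => (1 : ℝ) * spin (η.1 v)) = mu ν t A v :=
    cE_congr_fun fun η => one_mul _
  have ea2 : cE ν t A (fun η => sp v η * spin (η.1 v)) ω = 1 := by
    rw [show cE ν t A (fun η => sp v η * spin (η.1 v)) = cE ν t A fun _ => 1 from
      cE_congr_fun (sp_mul_self v), ec]
  have eb : cE ν t B (fun η => sp u η * spin (η.1 v')) = mm2 ν t B v' u :=
    cE_congr_fun fun η => mul_comm _ _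
  have eb2 : cE ν t B (fun η => sp v' η * sp u η * spin (η.1 v')) = mu ν t B u :=
    cE_congr_fun fun η => by
      show sp v' η * sp u η * sp v' η = sp u η
      linear_combination sp u η * sp_mul_self v' η
  have eu : cE ν t (A ∪ B) (fun η => (1 : ℝ) * sp u η) = mu ν t (A ∪ B) u :=
    cE_congr_fun fun η => one_mul _
  have eu2 : cE ν t (A ∪ B) (fun η => (1 : ℝ) * (sp v' η * sp u η)) = mm2 ν t (A ∪ B) v' u :=
    cE_congr_fun fun η => one_mul _
  rw [eu, ec, ea, eb] at q1
  rw [ea2, eb] at q2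
  rw [eu2, ec, ea, eb2] at q3
  refine ⟨?_, ?_, ?_⟩
  · rw [q1, one_mul]; rfl
  · rw [mm2, q2, one_mul]; rfl
  · rw [q3, one_mul]; rfl

/-- One step of the product formula. -/
lemma covJ_step (h : Reg G d) (hν : HasMarginals G θ ν) (hθ : |θ| < 1) {v v' u : V}
    (hvv' : G.Adj v v') (hu : u ∈ sideOf G v' v) (t : ℝ) (S : Set V) :
    ∀ᵐ ω ∂probM ν,
      covJ ν t S v u ω = θ * edgeWt θ (msg ν G t S v v' ω) * covJ ν t S v' u ω := by
  have hA : S ∩ sideOf G v v' ⊆ sideOf G v v' := Set.inter_subset_right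
  have hB : S ∩ sideOf G v' v ⊆ sideOf G v' v := Set.inter_subset_right
  have h1 := edge_formulas h hν hθ hvv' t hA hB
  have h2 := edge_formulas h hν hθ hvv'.symm t hB hA
  have h3 := far_formulas h hν hθ hvv' hu t hA hB
  rw [Set.union_comm (S ∩ sideOf G v' v)] at h2
  simp only [inter_union_sides h.tree hvv' S] at h1 h2 h3
  filter_upwards [h1, h2, h3] with ω q1 q2 q3
  obtain ⟨q3, q4, q5⟩ := q3
  simp only [covJ, msg, q1, q2, q3, q4, q5, edgeWt]
  set α := mu ν t (S ∩ sideOf G v v') v ω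
  set β := mu ν t (S ∩ sideOf G v' v) v' ω
  set b := mu ν t (S ∩ sideOf G v' v) u ω
  set c := mm2 ν t (S ∩ sideOf G v' v) v' u ω
  have hD : 0 < 1 + θ * (α * β) :=
    one_add_mul_pos hθ (abs_cE_le _ _ _ _) (abs_cE_le _ _ _ _)
  have hE : 0 < 1 - θ ^ 2 * α ^ 2 := by
    have h1 : α ^ 2 ≤ 1 := (sq_le_one_iff_abs_le_one α).2 (abs_cE_le _ _ _ _)
    have h2 : θ ^ 2 < 1 := (sq_lt_one_iff_abs_lt_one θ).2 hθ
    nlinarith [sq_nonneg α, sq_nonneg θ]
  rw [show (1 + θ * (β * α)) = 1 + θ * (α * β) by ring]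
  set D := 1 + θ * (α * β)
  have e : ∀ X Y Z : ℝ, X / D - Y / D * (Z / D) = (X * D - Y * Z) / D ^ 2 := fun X Y Z => by
    field_simp
  rw [e, e, show (α * b + θ * c) * D - (α + θ * β) * (b + θ * (α * c))
      = θ * (1 - α ^ 2) * (c - β * b) by ring,
    show (c + θ * (α * b)) * D - (β + θ * α) * (b + θ * (α * c))
      = (1 - θ ^ 2 * α ^ 2) * (c - β * b) by ring]
  have hD' := hD.ne'
  have hE' := hE.ne'
  field_simp

lemma covJ_self (t : ℝ) (S : Set V) (u : V) (ω : Omega V) :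
    covJ ν t S u u ω = 1 - mu ν t S u ω ^ 2 := by
  rw [covJ, mm2, cE_congr_fun (g' := fun _ => 1) (sp_mul_self u), cE_const t S (by simp), sq]

/-- The product formula for the posterior covariance along a geodesic. -/
lemma covJ_path (h : Reg G d) (hν : HasMarginals G θ ν) (hθ : |θ| < 1) (t : ℝ) (S : Set V) :
    ∀ (k : ℕ) (y : ℕ → V), Geo G y k →
      ∀ᵐ ω ∂probM ν, covJ ν t S (y 0) (y k) ω
        = θ ^ k * (∏ i ∈ Finset.range k, edgeWt θ (msg ν G t S (y i) (y (i + 1)) ω))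
          * (1 - mu ν t S (y k) ω ^ 2) := by
  intro k
  induction k with
  | zero => exact fun y _ => Eventually.of_forall fun ω => by simp [covJ_self]
  | succ k ih =>
    intro y hy
    have h1 := ih (fun i => y (1 + i)) (hy.sub h.tree 1 k (by omega))
    have e0 := hy.dist_eq h.tree (Nat.zero_le (k + 1)) le_rfl
    have e1 := hy.dist_eq h.tree (show 1 ≤ k + 1 by omega) le_rfl
    have hu : y (k + 1) ∈ sideOf G (y 1) (y 0) := by
      show G.dist (y (k + 1)) (y 0) = G.dist (y (k + 1)) (y 1) + 1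
      rw [G.dist_comm, e0, G.dist_comm, e1]
      omega
    filter_upwards [h1, covJ_step h hν hθ (hy.1 0 (Nat.succ_pos k)) hu t S] with ω q1 q2
    rw [show (1 + k) = k + 1 by omega, Nat.add_zero] at q1
    rw [q2, q1, Finset.prod_range_succ', pow_succ]
    simp only [show ∀ i, 1 + i = i + 1 from fun i => Nat.add_comm 1 i]
    ring

/-- Posterior expectations grow in mean square with the observations. -/
lemma integral_cE_mul_cE {t t' : ℝ} {S S' : Set V} (ht : t ≤ t') (hS : S ⊆ S')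
    {g : Omega V → ℝ} (hgm : Measurable g) (hg : ∀ ω, |g ω| ≤ 1) :
    ∫ ω, cE ν t S g ω * cE ν t' S' g ω ∂probM ν = ∫ ω, cE ν t S g ω ^ 2 ∂probM ν := by
  rw [integral_mul_cE hgm hg ((measurable_cE_obs t S g).mono (obsAlg_mono ht hS) le_rfl)
      (abs_cE_le t S g),
    ← integral_mul_cE hgm hg (measurable_cE_obs t S g) (abs_cE_le t S g)]
  simp only [sq]

lemma integrable_cE_sq (t : ℝ) (S : Set V) (g : Omega V → ℝ) :
    Integrable (fun ω => cE ν t S g ω ^ 2) (probM ν) :=
  integrable_bdd (by fun_prop) (C := 1) fun ω => by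
    rw [abs_pow]; exact pow_le_one₀ (abs_nonneg _) (abs_cE_le t S g ω)

lemma integral_cE_sub_sq {t t' : ℝ} {S S' : Set V} (ht : t ≤ t') (hS : S ⊆ S')
    {g : Omega V → ℝ} (hgm : Measurable g) (hg : ∀ ω, |g ω| ≤ 1) :
    ∫ ω, (cE ν t' S' g ω - cE ν t S g ω) ^ 2 ∂probM ν
      = ∫ ω, cE ν t' S' g ω ^ 2 ∂probM ν - ∫ ω, cE ν t S g ω ^ 2 ∂probM ν := by
  have hi : Integrable (fun ω => cE ν t S g ω * cE ν t' S' g ω) (probM ν) :=
    integrable_bdd (by fun_prop) (C := 1) fun ω => by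
      rw [abs_mul]; exact mul_le_one₀ (abs_cE_le t S g ω) (abs_nonneg _) (abs_cE_le t' S' g ω)
  have e : ∀ ω, (cE ν t' S' g ω - cE ν t S g ω) ^ 2
      = cE ν t' S' g ω ^ 2 + cE ν t S g ω ^ 2 - 2 * (cE ν t S g ω * cE ν t' S' g ω) :=
    fun ω => by ring
  simp only [e]
  rw [integral_sub (f := fun ω => cE ν t' S' g ω ^ 2 + cE ν t S g ω ^ 2)
      ((integrable_cE_sq t' S' g).add (integrable_cE_sq t S g)) (hi.const_mul 2),
    integral_add (integrable_cE_sq t' S' g) (integrable_cE_sq t S g), integral_const_mul,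
    integral_cE_mul_cE ht hS hgm hg]
  ring

lemma integral_cE_sq_mono {t t' : ℝ} {S S' : Set V} (ht : t ≤ t') (hS : S ⊆ S')
    {g : Omega V → ℝ} (hgm : Measurable g) (hg : ∀ ω, |g ω| ≤ 1) :
    ∫ ω, cE ν t S g ω ^ 2 ∂probM ν ≤ ∫ ω, cE ν t' S' g ω ^ 2 ∂probM ν :=
  sub_nonneg.1 ((integral_cE_sub_sq (ν := ν) ht hS hgm hg).symm ▸ integral_nonneg fun _ => sq_nonneg _)

/-- Posterior expectations under a change of variables. -/
lemma cE_comp {T : Omega V → Omega V} (hT : MeasurePreserving T (probM ν) (probM ν)) {t : ℝ}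
    {S S' : Set V} {L L' : (V × ℕ × ℕ → ℝ) → V × ℕ × ℕ → ℝ} (hL : Measurable L)
    (hL' : Measurable L') (h1 : ∀ ω, obs t S' (T ω) = L (obs t S ω))
    (h2 : ∀ ω, obs t S ω = L' (obs t S' (T ω))) {g : Omega V → ℝ} (hgm : Measurable g)
    (hg : ∀ ω, |g ω| ≤ 1) :
    ∀ᵐ ω ∂probM ν, cE ν t S' g (T ω) = cE ν t S (fun η => g (T η)) ω := by
  obtain ⟨φ, hφ, -, hφe⟩ := exists_cE_eq (ν := ν) t S' g
  refine cE_unique (hgm.comp hT.measurable) (fun ω => hg _) ?_
    (integrable_bdd ((measurable_cE t S' g).comp hT.measurable) fun ω => abs_cE_le _ _ _ _) ?_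
  · simp only [hφe, h1]
    exact (hφ.comp hL).comp (comap_measurable (obs t S))
  · rintro s ⟨r, hr, rfl⟩
    have hpre : obs t S ⁻¹' r = T ⁻¹' (obs t S' ⁻¹' (L' ⁻¹' r)) := by
      ext ω; simp [h2 ω]
    have hms : MeasurableSet[obsAlg t S'] (obs t S' ⁻¹' (L' ⁻¹' r)) := ⟨_, hL' hr, rfl⟩
    have key : ∀ F : Omega V → ℝ, Measurable F →
        ∫ ω in T ⁻¹' (obs t S' ⁻¹' (L' ⁻¹' r)), F (T ω) ∂probM ν
          = ∫ ω in obs t S' ⁻¹' (L' ⁻¹' r), F ω ∂probM ν := by
      intro F hF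
      conv_rhs => rw [← hT.map_eq]
      rw [setIntegral_map (measurableSet_obs hms) hF.aestronglyMeasurable hT.measurable.aemeasurable]
    show ∫ ω in obs t S ⁻¹' r, cE ν t S' g (T ω) ∂probM ν
      = ∫ ω in obs t S ⁻¹' r, g (T ω) ∂probM ν
    rw [hpre, key _ (measurable_cE t S' g), key g hgm, setIntegral_cE hgm hg hms]

/-- The global flip. -/
def flipAll (ω : Omega V) : Omega V := (fun v => !(ω.1 v), fun p => -(ω.2 p))

lemma measurePreserving_flipAll (h : Reg G d) (hν : HasMarginals G θ ν) :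
    MeasurePreserving (flipAll (V := V)) (probM ν) (probM ν) := by
  have hm : Measurable fun σ : V → Bool => fun v => !(σ v) := measurable_pi_lambda _ fun v =>
    (measurable_of_countable fun b : Bool => !b).comp (measurable_pi_apply v)
  have hm2 : Measurable fun Z : V × ℕ × ℕ → ℝ => fun p => -(Z p) :=
    measurable_pi_lambda _ fun p => (measurable_pi_apply p).neg
  refine MeasurePreserving.prod (f := fun σ : V → Bool => fun v => !(σ v))
    (g := fun Z : V × ℕ × ℕ → ℝ => fun p => -(Z p)) ⟨hm, ?_⟩ ⟨hm2, ?_⟩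
  · have := Measure.isProbabilityMeasure_map (μ := ν) hm.aemeasurable
    refine HasMarginals.unique (θ := θ) h (fun D hD η => ?_) hν
    rw [Measure.map_apply hm (measurableSet_agree D η),
      show (fun σ : V → Bool => fun v => !(σ v)) ⁻¹' agree D η = agree D fun v => !(η v) by
        ext σ
        simp only [agree, Set.mem_preimage, Set.mem_ofPred_eq]
        exact forall₂_congr fun v _ => by cases σ v <;> cases η v <;> simp,
      hν D hD]
    congr 1
    unfold w
    congr 1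
    refine Finset.prod_congr rfl fun e _ => ?_
    induction e using Sym2.ind with
    | _ a b => cases ha : η a <;> cases hb : η b <;> simp [edgeW_mk, spin, ha, hb]
  · rw [gam, Measure.infinitePi_map_pi (μ := fun _ : V × ℕ × ℕ => gaussianReal 0 1)
      (f := fun _ (x : ℝ) => -x) fun _ => measurable_neg]
    congr 1
    funext p
    rw [gaussianReal_map_neg, neg_zero]

lemma incY_flipAll (n : ℕ) (ω : Omega V) (u : V) (k : ℕ) :
    incY n (flipAll ω) u k = -incY n ω u k := by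
  have e : slice (flipAll ω).2 u = (-1 : ℝ) • slice ω.2 u := by
    funext i; simp [slice, flipAll]
  have e2 : spin ((flipAll ω).1 u) = -spin (ω.1 u) := by
    cases hb : ω.1 u <;> simp [flipAll, hb, spin]
  simp only [incY, e, e2, inc_smul]
  ring

lemma obs_flipAll (t : ℝ) (S : Set V) (ω : Omega V) :
    obs t S (flipAll ω) = fun p => -(obs t S ω p) := by
  funext p
  simp only [obs, incY_flipAll]
  split_ifs <;> simp

lemma cE_neg {t : ℝ} {S : Set V} {g : Omega V → ℝ} (hgm : Measurable g) (hg : ∀ ω, |g ω| ≤ 1) :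
    ∀ᵐ ω ∂probM ν, cE ν t S (fun η => -(g η)) ω = -(cE ν t S g ω) := by
  filter_upwards [(cE_unique (ν := ν) (t := t) (S := S) (g := fun η => -(g η)) hgm.neg
    (fun ω => by rw [abs_neg]; exact hg ω) (measurable_cE_obs t S g).neg
    (integrable_bdd (measurable_cE t S g) (abs_cE_le t S g)).neg fun s hs => by
      rw [integral_neg' , integral_neg, setIntegral_cE hgm hg hs]).symm] with ω e
  rw [e]; rfl

/-- Magnetisations are odd under the global flip. -/
lemma mu_flipAll (h : Reg G d) (hν : HasMarginals G θ ν) (t : ℝ) (S : Set V) (v : V) :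
    ∀ᵐ ω ∂probM ν, mu ν t S v (flipAll ω) = -(mu ν t S v ω) := by
  have hneg : Measurable fun z : V × ℕ × ℕ → ℝ => fun p => -(z p) :=
    measurable_pi_lambda _ fun p => (measurable_pi_apply p).neg
  have e : (fun η => sp v (flipAll η)) = fun η => -(sp v η) := by
    funext η
    cases hb : η.1 v <;> simp [sp, flipAll, hb, spin]
  filter_upwards [cE_comp (measurePreserving_flipAll h hν) (S := S) (S' := S) hneg hneg
    (obs_flipAll t S) (fun ω => by funext p; simp [obs_flipAll]) (measurable_sp v) (abs_sp_le v),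
    cE_neg (ν := ν) (t := t) (S := S) (measurable_sp v) (abs_sp_le v)] with ω e1 e2
  rw [mu, e1, e, e2]

/-- Functions even under the flip are uncorrelated with the spins. -/
lemma integral_even_mul_sp (h : Reg G d) (hν : HasMarginals G θ ν) {f : Omega V → ℝ}
    (hfm : Measurable f) (heven : ∀ᵐ ω ∂probM ν, f (flipAll ω) = f ω) (v : V) :
    ∫ ω, f ω * sp v ω ∂probM ν = 0 := by
  have hT := measurePreserving_flipAll h hν
  have e := integral_map (μ := probM ν) hT.measurable.aemeasurable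
    (f := fun ω => f ω * sp v ω) (hfm.mul (measurable_sp v)).aestronglyMeasurable
  rw [hT.map_eq] at e
  have e2 : ∫ ω, f (flipAll ω) * sp v (flipAll ω) ∂probM ν = -∫ ω, f ω * sp v ω ∂probM ν := by
    rw [← integral_neg]
    refine integral_congr_ae ?_
    filter_upwards [heven] with ω hω
    rw [hω, show sp v (flipAll ω) = -(sp v ω) by
      cases hb : ω.1 v <;> simp [sp, flipAll, hb, spin]]
    ring
  linarith [e.trans e2]

lemma obs_gact (g : G ≃g G) (t : ℝ) (S : Set V) (ω : Omega V) :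
    obs t (g '' S) (gact g ω) = gnoise g (obs t S ω) := by
  funext p
  have hmem : p.1 ∈ g '' S ↔ g.symm p.1 ∈ S :=
    ⟨by rintro ⟨x, hx, e⟩; rw [← e]; simpa using hx, fun hx => ⟨_, hx, by simp⟩⟩
  have hinc : incY p.2.1 (gact g ω) p.1 p.2.2 = incY p.2.1 ω (g.symm p.1) p.2.2 := by
    simp only [incY, gact]
    congr 1
  simp only [obs, gnoise, hinc]
  by_cases hp : g.symm p.1 ∈ S ∧ ((p.2.2 : ℝ) + 1) * mesh p.2.1 ≤ t
  · rw [if_pos hp, if_pos ⟨hmem.2 hp.1, hp.2⟩]
  · rw [if_neg hp, if_neg fun h => hp ⟨hmem.1 h.1, h.2⟩]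

lemma cE_gact (h : Reg G d) (hν : HasMarginals G θ ν) (γ : G ≃g G) (t : ℝ) (S : Set V)
    {g : Omega V → ℝ} (hgm : Measurable g) (hg : ∀ ω, |g ω| ≤ 1) :
    ∀ᵐ ω ∂probM ν, cE ν t (γ '' S) g (gact γ ω) = cE ν t S (fun η => g (gact γ η)) ω :=
  cE_comp (measurePreserving_gact h hν γ) (measurable_gnoise γ) (measurable_gnoise γ.symm)
    (obs_gact γ t S) (fun ω => by
      rw [obs_gact]; funext p; simp [gnoise]) hgm hg

lemma sp_gact (γ : G ≃g G) (v : V) : (fun η => sp (γ v) (gact γ η)) = sp v := by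
  funext η; simp [sp, gact]

lemma mu_gact (h : Reg G d) (hν : HasMarginals G θ ν) (γ : G ≃g G) (t : ℝ) (S : Set V) (v : V) :
    ∀ᵐ ω ∂probM ν, mu ν t (γ '' S) (γ v) (gact γ ω) = mu ν t S v ω := by
  filter_upwards [cE_gact h hν γ t S (measurable_sp (γ v)) (abs_sp_le (γ v))] with ω e
  rw [mu, e, sp_gact]; rfl

lemma image_sideOf (γ : G ≃g G) (x p : V) : γ '' sideOf G x p = sideOf G (γ x) (γ p) := by
  ext z
  constructor
  · rintro ⟨w, hw, rfl⟩
    simp only [sideOf, Set.mem_ofPred_eq, dist_iso] at hw ⊢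
    exact hw
  · intro hz
    refine ⟨γ.symm z, ?_, by simp⟩
    simp only [sideOf, Set.mem_ofPred_eq] at hz ⊢
    rw [← dist_iso γ, ← dist_iso γ (γ.symm z) x]
    simpa using hz

lemma msg_gact (h : Reg G d) (hν : HasMarginals G θ ν) (γ : G ≃g G) (t : ℝ) (S : Set V) (x p : V) :
    ∀ᵐ ω ∂probM ν, msg ν G t (γ '' S) (γ x) (γ p) (gact γ ω) = msg ν G t S x p ω := by
  filter_upwards [mu_gact h hν γ t (S ∩ sideOf G x p) x] with ω e
  rw [Set.image_inter γ.injective, image_sideOf] at e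
  exact e

end Vale.Agent.P161
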