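import Vale.Agent.P161.Critical.Markov

/-!
Posterior expectations given the observations up to a time on a set of sites, and their exact
recursions along the tree.
-/

open MeasureTheory ProbabilityTheory SimpleGraph Filter
open scoped Topology

set_option linter.unusedSectionVars false

namespace Vale.Agent.P161

universe u

variable {V : Type u} [DecidableEq V] {G : SimpleGraph V} [DecidableRel G.Adj] {θ : ℝ} {d : ℕ}
variable {ν : Measure (V → Bool)} [IsProbabilityMeasure ν]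

open Classical in
/-- The observations up to time `t` on the sites of `S`. -/
noncomputable def obs (t : ℝ) (S : Set V) (ω : Omega V) (p : V × ℕ × ℕ) : ℝ :=
  if p.1 ∈ S ∧ ((p.2.2 : ℝ) + 1) * mesh p.2.1 ≤ t then incY p.2.1 ω p.1 p.2.2 else 0

lemma measurable_obs (t : ℝ) (S : Set V) : Measurable (obs t S) := by
  classical
  refine measurable_pi_lambda _ fun p => ?_
  unfold obs
  by_cases hp : p.1 ∈ S ∧ ((p.2.2 : ℝ) + 1) * mesh p.2.1 ≤ t
  · simp only [if_pos hp]; exact measurable_incY _ _ _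
  · simp only [if_neg hp]; exact measurable_const

lemma siteDep_obs (t : ℝ) (S : Set V) : SiteDep S (obs t S) := by
  intro ω ω' h1 h2
  funext p
  unfold obs
  by_cases hp : p.1 ∈ S ∧ ((p.2.2 : ℝ) + 1) * mesh p.2.1 ≤ t
  · simp only [if_pos hp, incY]
    rw [h1 _ hp.1, show slice ω.2 p.1 = slice ω'.2 p.1 from funext fun i => h2 (p.1, i) hp.1]
  · simp only [if_neg hp]

open Classical in
/-- Forget the observations outside a set of sites or after a time. -/
noncomputable def obsCut (t : ℝ) (S : Set V) (z : V × ℕ × ℕ → ℝ) (p : V × ℕ × ℕ) : ℝ :=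
  if p.1 ∈ S ∧ ((p.2.2 : ℝ) + 1) * mesh p.2.1 ≤ t then z p else 0

lemma measurable_obsCut (t : ℝ) (S : Set V) : Measurable (obsCut t S) := by
  classical
  refine measurable_pi_lambda _ fun p => ?_
  unfold obsCut
  by_cases hp : p.1 ∈ S ∧ ((p.2.2 : ℝ) + 1) * mesh p.2.1 ≤ t
  · simp only [if_pos hp]; exact measurable_pi_apply p
  · simp only [if_neg hp]; exact measurable_const

lemma obs_eq_cut {t t' : ℝ} {S S' : Set V} (ht : t ≤ t') (hS : S ⊆ S') (ω : Omega V) :
    obs t S ω = obsCut t S (obs t' S' ω) := by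
  funext p
  unfold obs obsCut
  by_cases hp : p.1 ∈ S ∧ ((p.2.2 : ℝ) + 1) * mesh p.2.1 ≤ t
  · simp only [if_pos hp, if_pos (show p.1 ∈ S' ∧ ((p.2.2 : ℝ) + 1) * mesh p.2.1 ≤ t' from
      ⟨hS hp.1, hp.2.trans ht⟩)]
  · simp only [if_neg hp]

/-- The σ-algebra of the observations. -/
noncomputable abbrev obsAlg (t : ℝ) (S : Set V) : MeasurableSpace (Omega V) :=
  MeasurableSpace.comap (obs t S) inferInstance

lemma obsAlg_le (t : ℝ) (S : Set V) :
    obsAlg t S ≤ (inferInstance : MeasurableSpace (Omega V)) :=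
  (measurable_obs t S).comap_le

lemma obsAlg_mono {t t' : ℝ} {S S' : Set V} (ht : t ≤ t') (hS : S ⊆ S') :
    obsAlg t S ≤ obsAlg t' S' := by
  have : obs t S = obsCut t S ∘ obs t' S' := funext fun ω => obs_eq_cut ht hS ω
  rw [obsAlg, this, ← MeasurableSpace.comap_comp]
  exact MeasurableSpace.comap_mono (measurable_obsCut t S).comap_le

/-- The posterior expectation, truncated to `[-1, 1]`. -/
noncomputable def cE (ν : Measure (V → Bool)) (t : ℝ) (S : Set V) (g : Omega V → ℝ) :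
    Omega V → ℝ := fun ω => clip ((probM ν)[g|obsAlg t S] ω)

lemma abs_cE_le (t : ℝ) (S : Set V) (g : Omega V → ℝ) (ω : Omega V) : |cE ν t S g ω| ≤ 1 :=
  abs_clip_le _

lemma measurable_cE_obs (t : ℝ) (S : Set V) (g : Omega V → ℝ) :
    Measurable[obsAlg t S] (cE ν t S g) :=
  measurable_clip.comp stronglyMeasurable_condExp.measurable

@[fun_prop]
lemma measurable_cE (t : ℝ) (S : Set V) (g : Omega V → ℝ) : Measurable (cE ν t S g) :=
  (measurable_cE_obs t S g).mono (obsAlg_le t S) le_rfl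

lemma exists_cE_eq (t : ℝ) (S : Set V) (g : Omega V → ℝ) :
    ∃ φ : (V × ℕ × ℕ → ℝ) → ℝ, Measurable φ ∧ (∀ z, |φ z| ≤ 1) ∧
      ∀ ω, cE ν t S g ω = φ (obs t S ω) := by
  obtain ⟨φ, hφ, e⟩ := (stronglyMeasurable_condExp (μ := probM ν) (f := g)
    (m := obsAlg t S)).measurable.exists_eq_measurable_comp
  exact ⟨fun z => clip (φ z), measurable_clip.comp hφ, fun z => abs_clip_le _,
    fun ω => by simp only [cE, e, Function.comp_apply]⟩

lemma siteDep_cE (t : ℝ) (S : Set V) (g : Omega V → ℝ) : SiteDep S (cE ν t S g) := by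
  obtain ⟨φ, -, -, e⟩ := exists_cE_eq (ν := ν) t S g
  intro ω ω' h1 h2
  rw [e, e, siteDep_obs t S ω ω' h1 h2]

lemma cE_ae {t : ℝ} {S : Set V} {g : Omega V → ℝ} (hg : ∀ ω, |g ω| ≤ 1) :
    cE ν t S g =ᵐ[probM ν] (probM ν)[g|obsAlg t S] := by
  have := ae_bdd_abs_condExp_of_ae_bdd_abs (μ := probM ν) (m := obsAlg t S) (R := 1)
    (Eventually.of_forall hg)
  filter_upwards [this] with ω hω
  obtain ⟨h1, h2⟩ := abs_le.1 hω
  rw [cE, clip, min_eq_right (by simpa using h2), max_eq_right (by simpa using h1)]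

lemma measurableSet_obs {t : ℝ} {S : Set V} {s : Set (Omega V)}
    (hs : MeasurableSet[obsAlg t S] s) : MeasurableSet s := obsAlg_le t S s hs

lemma setIntegral_cE {t : ℝ} {S : Set V} {g : Omega V → ℝ} (hgm : Measurable g)
    (hg : ∀ ω, |g ω| ≤ 1) {s : Set (Omega V)} (hs : MeasurableSet[obsAlg t S] s) :
    ∫ ω in s, cE ν t S g ω ∂probM ν = ∫ ω in s, g ω ∂probM ν := by
  rw [setIntegral_congr_ae (measurableSet_obs hs)
    ((cE_ae (ν := ν) hg).mono fun ω e _ => e)]
  exact setIntegral_condExp (obsAlg_le t S) (integrable_bdd hgm hg) hs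

lemma cE_unique {t : ℝ} {S : Set V} {g h : Omega V → ℝ} (hgm : Measurable g)
    (hg : ∀ ω, |g ω| ≤ 1) (hhm : Measurable[obsAlg t S] h) (hhi : Integrable h (probM ν))
    (heq : ∀ s, MeasurableSet[obsAlg t S] s →
      ∫ ω in s, h ω ∂probM ν = ∫ ω in s, g ω ∂probM ν) :
    h =ᵐ[probM ν] cE ν t S g :=
  (ae_eq_condExp_of_forall_setIntegral_eq (obsAlg_le t S) (integrable_bdd hgm hg)
    (fun _ _ _ => hhi.integrableOn) (fun s hs _ => heq s hs)
    hhm.stronglyMeasurable.aestronglyMeasurable).trans (cE_ae hg).symm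

/-- Pulling out a bounded function of the observations. -/
lemma integral_mul_cE {t : ℝ} {S : Set V} {g F : Omega V → ℝ} (hgm : Measurable g)
    (hg : ∀ ω, |g ω| ≤ 1) (hFm : Measurable[obsAlg t S] F) {C : ℝ} (hF : ∀ ω, |F ω| ≤ C) :
    ∫ ω, F ω * cE ν t S g ω ∂probM ν = ∫ ω, F ω * g ω ∂probM ν := by
  have hFm' : Measurable F := hFm.mono (obsAlg_le t S) le_rfl
  have hgi := integrable_bdd (μ := probM ν) hgm hg
  have hFg : Integrable (F * g) (probM ν) := integrable_bdd (hFm'.mul hgm) (C := C * 1)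
    fun ω => by
      rw [Pi.mul_apply, abs_mul]
      exact mul_le_mul (hF ω) (hg ω) (abs_nonneg _) ((abs_nonneg _).trans (hF ω))
  have e := condExp_mul_of_stronglyMeasurable_left (m := obsAlg t S) (μ := probM ν)
    hFm.stronglyMeasurable hFg hgi
  calc ∫ ω, F ω * cE ν t S g ω ∂probM ν
      = ∫ ω, ((probM ν)[F * g|obsAlg t S]) ω ∂probM ν := integral_congr_ae (by
        filter_upwards [e, cE_ae (ν := ν) (t := t) (S := S) hg] with ω e1 e2
        rw [e1, e2, Pi.mul_apply])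
    _ = _ := integral_condExp (obsAlg_le t S)

/-- The joint law of the observations on the two sides of an edge. -/
lemma cut_obs (h : Reg G d) (hν : HasMarginals G θ ν) (hθ : |θ| < 1) {v v' : V}
    (hvv' : G.Adj v v') (t : ℝ) {A B : Set V} (hA : A ⊆ sideOf G v v') (hB : B ⊆ sideOf G v' v)
    {Φ : (V × ℕ × ℕ → ℝ) × (V × ℕ × ℕ → ℝ) → ℝ} (hΦ : Measurable Φ) :
    ∫ ω, Φ (obs t A ω, obs t B ω) ∂probM ν
      = ∫ p, Φ (obs t A p.1, obs t B p.2)
          * pairDensity θ (cE ν t A fun ω => spin (ω.1 v)) (cE ν t B fun ω => spin (ω.1 v')) p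
          ∂(probM ν).prod (probM ν) := by
  refine joint_of_rect hθ (measurable_obs t A) (measurable_obs t B) (measurable_cE _ _ _)
    (measurable_cE _ _ _) (abs_cE_le _ _ _) (abs_cE_le _ _ _) (fun s u hs hu => ?_) hΦ
  have hsA := measurable_obs t A hs
  have huB := measurable_obs t B hu
  have hd : ∀ (S : Set V) (r : Set (V × ℕ × ℕ → ℝ)),
      SiteDep S ((obs t S ⁻¹' r).indicator fun _ => (1 : ℝ)) := fun S r =>
    (siteDep_obs t S).comp fun z => r.indicator (fun _ => (1 : ℝ)) z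
  have e1 := cut_identity h hν hθ hvv' (f := (obs t A ⁻¹' s).indicator fun _ => (1 : ℝ))
    (g := (obs t B ⁻¹' u).indicator fun _ => (1 : ℝ)) (measurable_const.indicator hsA)
    (measurable_const.indicator huB) ((hd A s).mono hA) ((hd B u).mono hB) (C := 1)
    (fun ω => by by_cases hω : ω ∈ obs t A ⁻¹' s <;> simp [hω])
    (fun ω => by by_cases hω : ω ∈ obs t B ⁻¹' u <;> simp [hω])
  have ei : ∀ ω, (obs t A ⁻¹' s).indicator (fun _ => (1 : ℝ)) ω
      * (obs t B ⁻¹' u).indicator (fun _ => (1 : ℝ)) ω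
      = (obs t A ⁻¹' s ∩ obs t B ⁻¹' u).indicator (fun _ => (1 : ℝ)) ω := fun ω => by
    rw [← Set.inter_indicator_mul]; simp
  have es : ∀ (r : Set (Omega V)) (z : V) ω, r.indicator (fun _ => (1 : ℝ)) ω * spin (ω.1 z)
      = r.indicator (fun η => spin (η.1 z)) ω := fun r z ω => by
    by_cases hω : ω ∈ r <;> simp [hω]
  simp only [ei, es] at e1
  rw [integral_indicator_const _ (hsA.inter huB), integral_indicator_const _ hsA,
    integral_indicator_const _ huB, integral_indicator hsA, integral_indicator huB] at e1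
  rw [setIntegral_cE (g := fun ω : Omega V => spin (ω.1 v))
      ((measurable_spin_eval v).comp measurable_fst) (fun ω => (abs_spin _).le) ⟨s, hs, rfl⟩,
    setIntegral_cE (g := fun ω : Omega V => spin (ω.1 v'))
      ((measurable_spin_eval v').comp measurable_fst) (fun ω => (abs_spin _).le) ⟨u, hu, rfl⟩]
  simpa using e1

lemma one_add_mul_pos (hθ : |θ| < 1) {a b : ℝ} (ha : |a| ≤ 1) (hb : |b| ≤ 1) :
    0 < 1 + θ * (a * b) := by
  have h1 : |θ * (a * b)| ≤ |θ| := by
    rw [abs_mul, abs_mul]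
    exact mul_le_of_le_one_right (abs_nonneg _) (mul_le_one₀ ha (abs_nonneg _) hb)
  linarith [(abs_le.1 h1).1]

/-- The posterior of a product across an edge. -/
lemma cE_prod (h : Reg G d) (hν : HasMarginals G θ ν) (hθ : |θ| < 1) {v v' : V}
    (hvv' : G.Adj v v') (t : ℝ) {A B : Set V} (hA : A ⊆ sideOf G v v') (hB : B ⊆ sideOf G v' v)
    {f g : Omega V → ℝ} (hfm : Measurable f) (hgm : Measurable g)
    (hf : SiteDep (sideOf G v v') f) (hg : SiteDep (sideOf G v' v) g) (hfb : ∀ ω, |f ω| ≤ 1)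
    (hgb : ∀ ω, |g ω| ≤ 1) :
    cE ν t (A ∪ B) (fun ω => f ω * g ω) =ᵐ[probM ν] fun ω =>
      (cE ν t A f ω * cE ν t B g ω + θ * (cE ν t A (fun ω => f ω * spin (ω.1 v)) ω
          * cE ν t B (fun ω => g ω * spin (ω.1 v')) ω))
        / (1 + θ * (cE ν t A (fun ω => spin (ω.1 v)) ω * cE ν t B (fun ω => spin (ω.1 v')) ω)) := by
  have hsv : ∀ z : V, Measurable fun ω : Omega V => spin (ω.1 z) :=
    fun z => (measurable_spin_eval z).comp measurable_fst
  have hfsm : Measurable fun ω => f ω * spin (ω.1 v) := hfm.mul (hsv v)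
  have hgsm : Measurable fun ω => g ω * spin (ω.1 v') := hgm.mul (hsv v')
  have hfsb : ∀ ω, |f ω * spin (ω.1 v)| ≤ 1 := fun ω => by rw [abs_mul, abs_spin, mul_one]; exact hfb ω
  have hgsb : ∀ ω, |g ω * spin (ω.1 v')| ≤ 1 := fun ω => by rw [abs_mul, abs_spin, mul_one]; exact hgb ω
  obtain ⟨a1, a1m, a1b, a1e⟩ := exists_cE_eq (ν := ν) t A f
  obtain ⟨a2, a2m, a2b, a2e⟩ := exists_cE_eq (ν := ν) t A fun ω => f ω * spin (ω.1 v)
  obtain ⟨a0, a0m, a0b, a0e⟩ := exists_cE_eq (ν := ν) t A fun ω => spin (ω.1 v)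
  obtain ⟨b1, b1m, b1b, b1e⟩ := exists_cE_eq (ν := ν) t B g
  obtain ⟨b2, b2m, b2b, b2e⟩ := exists_cE_eq (ν := ν) t B fun ω => g ω * spin (ω.1 v')
  obtain ⟨b0, b0m, b0b, b0e⟩ := exists_cE_eq (ν := ν) t B fun ω => spin (ω.1 v')
  set H : (V × ℕ × ℕ → ℝ) × (V × ℕ × ℕ → ℝ) → ℝ := fun z =>
    (a1 z.1 * b1 z.2 + θ * (a2 z.1 * b2 z.2)) / (1 + θ * (a0 z.1 * b0 z.2)) with hHdef
  have hHm : Measurable H := by rw [hHdef]; fun_prop
  have hpos : ∀ z : (V × ℕ × ℕ → ℝ) × (V × ℕ × ℕ → ℝ), 0 < 1 + θ * (a0 z.1 * b0 z.2) :=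
    fun z => one_add_mul_pos hθ (a0b _) (b0b _)
  set K := 2 / (1 - |θ|) with hKdef
  have hHb : ∀ z, |H z| ≤ K := by
    intro z
    simp only [hHdef]
    rw [abs_div, abs_of_pos (hpos z)]
    refine div_le_div₀ two_pos.le ?_ (by linarith) ?_
    · refine (abs_add_le _ _).trans ?_
      rw [abs_mul, abs_mul, abs_mul]
      have h1 := mul_le_one₀ (a1b z.1) (abs_nonneg _) (b1b z.2)
      have h2 := mul_le_one₀ hθ.le (by positivity) (mul_le_one₀ (a2b z.1) (abs_nonneg _) (b2b z.2))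
      linarith
    · have h1 : |θ * (a0 z.1 * b0 z.2)| ≤ |θ| := by
        rw [abs_mul, abs_mul]
        exact mul_le_of_le_one_right (abs_nonneg _) (mul_le_one₀ (a0b _) (abs_nonneg _) (b0b _))
      linarith [(abs_le.1 h1).1]
  set X : Omega V → (V × ℕ × ℕ → ℝ) × (V × ℕ × ℕ → ℝ) := fun ω => (obs t A ω, obs t B ω)
  have hXm : Measurable X := (measurable_obs t A).prodMk (measurable_obs t B)
  have hXalg : Measurable[obsAlg t (A ∪ B)] X :=
    ((comap_measurable (obs t A)).mono (obsAlg_mono le_rfl Set.subset_union_left) le_rfl).prodMk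
      ((comap_measurable (obs t B)).mono (obsAlg_mono le_rfl Set.subset_union_right) le_rfl)
  have hXcomap : obsAlg t (A ∪ B) ≤ MeasurableSpace.comap X inferInstance := by
    classical
    set J : (V × ℕ × ℕ → ℝ) × (V × ℕ × ℕ → ℝ) → V × ℕ × ℕ → ℝ :=
      fun z p => if p.1 ∈ A then z.1 p else z.2 p
    have hJm : Measurable J := by
      refine measurable_pi_lambda _ fun p => ?_
      by_cases hp : p.1 ∈ A
      · simp only [J, if_pos hp]; fun_prop
      · simp only [J, if_neg hp]; fun_prop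
    have : obs t (A ∪ B) = J ∘ X := by
      funext ω p
      simp only [J, X, Function.comp_apply, obs]
      by_cases hp : p.1 ∈ A <;> simp [hp]
    rw [obsAlg, this, ← MeasurableSpace.comap_comp]
    exact MeasurableSpace.comap_mono hJm.comap_le
  have hrw : (fun ω => H (X ω)) = fun ω =>
      (cE ν t A f ω * cE ν t B g ω + θ * (cE ν t A (fun ω => f ω * spin (ω.1 v)) ω
          * cE ν t B (fun ω => g ω * spin (ω.1 v')) ω))
        / (1 + θ * (cE ν t A (fun ω => spin (ω.1 v)) ω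
          * cE ν t B (fun ω => spin (ω.1 v')) ω)) := by
    funext ω
    simp only [hHdef, X, a1e, a2e, a0e, b1e, b2e, b0e]
  rw [← hrw]
  refine (cE_unique (hfm.mul hgm) (fun ω => by
    rw [Pi.mul_apply, abs_mul]; exact mul_le_one₀ (hfb ω) (abs_nonneg _) (hgb ω))
    (hHm.comp hXalg) (integrable_bdd (hHm.comp hXm) fun ω => hHb _) ?_).symm
  intro s hs
  obtain ⟨S', hS', rfl⟩ := hXcomap s hs
  refine MeasurableSpace.induction_on_inter (C := fun r _ =>
    ∫ ω in X ⁻¹' r, H (X ω) ∂probM ν = ∫ ω in X ⁻¹' r, f ω * g ω ∂probM ν)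
    generateFrom_prod.symm isPiSystem_prod ?_ ?_ ?_ ?_ S' hS'
  · simp
  · rintro r ⟨a, ha, b, hb, rfl⟩
    simp only [Set.mem_ofPred_eq] at ha hb
    have hsA := measurable_obs t A ha
    have huB := measurable_obs t B hb
    set Fa : Omega V → ℝ := (obs t A ⁻¹' a).indicator fun _ => 1
    set Gb : Omega V → ℝ := (obs t B ⁻¹' b).indicator fun _ => 1
    have hFm : Measurable[obsAlg t A] Fa := measurable_const.indicator ⟨a, ha, rfl⟩
    have hGm : Measurable[obsAlg t B] Gb := measurable_const.indicator ⟨b, hb, rfl⟩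
    have hFb : ∀ ω, |Fa ω| ≤ 1 := fun ω => by
      by_cases hω : ω ∈ obs t A ⁻¹' a <;> simp [Fa, hω]
    have hGb : ∀ ω, |Gb ω| ≤ 1 := fun ω => by
      by_cases hω : ω ∈ obs t B ⁻¹' b <;> simp [Gb, hω]
    have hFd : SiteDep (sideOf G v v') Fa :=
      ((siteDep_obs t A).comp fun z => a.indicator (fun _ => (1 : ℝ)) z).mono hA
    have hGd : SiteDep (sideOf G v' v) Gb :=
      ((siteDep_obs t B).comp fun z => b.indicator (fun _ => (1 : ℝ)) z).mono hB
    have hpre : X ⁻¹' (a ×ˢ b) = obs t A ⁻¹' a ∩ obs t B ⁻¹' b := rfl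
    have hind : ∀ φ : Omega V → ℝ, ∫ ω in X ⁻¹' (a ×ˢ b), φ ω ∂probM ν
        = ∫ ω, Fa ω * Gb ω * φ ω ∂probM ν := fun φ => by
      rw [hpre, ← integral_indicator (hsA.inter huB)]
      congr 1
      funext ω
      by_cases h1 : ω ∈ obs t A ⁻¹' a <;> by_cases h2 : ω ∈ obs t B ⁻¹' b <;>
        simp [Fa, Gb, h1, h2]
    rw [hind, hind]
    set Φ : (V × ℕ × ℕ → ℝ) × (V × ℕ × ℕ → ℝ) → ℝ := fun z =>
      a.indicator (fun _ => (1 : ℝ)) z.1 * b.indicator (fun _ => (1 : ℝ)) z.2 * H z with hΦdef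
    have hΦm : Measurable Φ :=
      (((measurable_const.indicator ha).comp measurable_fst).mul
        ((measurable_const.indicator hb).comp measurable_snd)).mul hHm
    have eL := cut_obs h hν hθ hvv' t hA hB hΦm
    have eI : ∀ (a : Set (V × ℕ × ℕ → ℝ)) (S : Set V) (ω : Omega V),
        a.indicator (fun _ => (1 : ℝ)) (obs t S ω) = (obs t S ⁻¹' a).indicator (fun _ => 1) ω :=
      fun a S ω => rfl
    have ept : ∀ p : Omega V × Omega V, Φ (obs t A p.1, obs t B p.2)
        * pairDensity θ (cE ν t A fun ω => spin (ω.1 v)) (cE ν t B fun ω => spin (ω.1 v')) p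
        = (Fa p.1 * cE ν t A f p.1) * (Gb p.2 * cE ν t B g p.2)
          + θ * ((Fa p.1 * cE ν t A (fun ω => f ω * spin (ω.1 v)) p.1)
            * (Gb p.2 * cE ν t B (fun ω => g ω * spin (ω.1 v')) p.2)) := by
      intro p
      simp only [hΦdef, hHdef, eI, pairDensity, a1e, a2e, a0e, b1e, b2e, b0e, Fa, Gb]
      have hne : 1 + θ * a0 (obs t A p.1) * b0 (obs t B p.2) ≠ 0 := by
        rw [mul_assoc]; exact (hpos (obs t A p.1, obs t B p.2)).ne'
      field_simp
    have hLHS : ∀ ω, Fa ω * Gb ω * H (X ω) = Φ (obs t A ω, obs t B ω) := fun ω => rfl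
    simp only [hLHS]
    rw [eL, integral_congr_ae (Eventually.of_forall ept)]
    have hi : ∀ (φ ψ : Omega V → ℝ), Measurable φ → Measurable ψ → (∀ ω, |φ ω| ≤ 1) →
        (∀ ω, |ψ ω| ≤ 1) → Integrable (fun p : Omega V × Omega V => φ p.1 * ψ p.2)
          ((probM ν).prod (probM ν)) := fun φ ψ hφ hψ h1 h2 =>
      integrable_bdd ((hφ.comp measurable_fst).mul (hψ.comp measurable_snd)) (C := 1) fun p => by
        simp only [Pi.mul_apply, Function.comp_apply, abs_mul]
        exact mul_le_one₀ (h1 _) (abs_nonneg _) (h2 _)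
    have hb1 : ∀ (φ ψ : Omega V → ℝ), (∀ ω, |φ ω| ≤ 1) → (∀ ω, |ψ ω| ≤ 1) →
        ∀ ω, |φ ω * ψ ω| ≤ 1 := fun φ ψ h1 h2 ω => by
      rw [abs_mul]; exact mul_le_one₀ (h1 _) (abs_nonneg _) (h2 _)
    rw [integral_add (hi (fun ω => Fa ω * cE ν t A f ω) (fun ω => Gb ω * cE ν t B g ω)
        ((hFm.mono (obsAlg_le t A) le_rfl).mul (measurable_cE t A f))
        ((hGm.mono (obsAlg_le t B) le_rfl).mul (measurable_cE t B g))
        (hb1 _ _ hFb (abs_cE_le _ _ _)) (hb1 _ _ hGb (abs_cE_le _ _ _)))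
      ((hi (fun ω => Fa ω * cE ν t A (fun ω => f ω * spin (ω.1 v)) ω)
        (fun ω => Gb ω * cE ν t B (fun ω => g ω * spin (ω.1 v')) ω)
        ((hFm.mono (obsAlg_le t A) le_rfl).mul (measurable_cE t A _))
        ((hGm.mono (obsAlg_le t B) le_rfl).mul (measurable_cE t B _))
        (hb1 _ _ hFb (abs_cE_le _ _ _)) (hb1 _ _ hGb (abs_cE_le _ _ _))).const_mul θ),
      integral_const_mul, integral_prod_mul (fun ω => Fa ω * cE ν t A f ω)
        (fun ω => Gb ω * cE ν t B g ω),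
      integral_prod_mul (fun ω => Fa ω * cE ν t A (fun ω => f ω * spin (ω.1 v)) ω)
        (fun ω => Gb ω * cE ν t B (fun ω => g ω * spin (ω.1 v')) ω),
      integral_mul_cE hfm hfb hFm hFb, integral_mul_cE hfsm hfsb hFm hFb,
      integral_mul_cE hgm hgb hGm hGb, integral_mul_cE hgsm hgsb hGm hGb]
    have e1 := cut_identity h hν hθ hvv' (f := fun ω => Fa ω * f ω) (g := fun ω => Gb ω * g ω)
      ((hFm.mono (obsAlg_le t A) le_rfl).mul hfm) ((hGm.mono (obsAlg_le t B) le_rfl).mul hgm)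
      (hFd.comp₂ hf (· * ·)) (hGd.comp₂ hg (· * ·)) (C := 1) (hb1 _ _ hFb hfb) (hb1 _ _ hGb hgb)
    simp only [← mul_assoc] at e1 ⊢
    rw [← e1]
    exact integral_congr_ae (Eventually.of_forall fun ω => by ring)
  · intro r hr hC
    have hi1 : Integrable (fun ω => H (X ω)) (probM ν) := integrable_bdd (hHm.comp hXm) fun ω => hHb _
    have hi2 : Integrable (fun ω => f ω * g ω) (probM ν) := integrable_bdd (hfm.mul hgm) (C := 1)
      fun ω => by simp only [abs_mul]; exact mul_le_one₀ (hfb ω) (abs_nonneg _) (hgb ω)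
    have huniv : ∫ ω, H (X ω) ∂probM ν = ∫ ω, f ω * g ω ∂probM ν := by
      have eL := cut_obs h hν hθ hvv' t hA hB hHm
      have ept : ∀ p : Omega V × Omega V, H (obs t A p.1, obs t B p.2)
          * pairDensity θ (cE ν t A fun ω => spin (ω.1 v)) (cE ν t B fun ω => spin (ω.1 v')) p
          = cE ν t A f p.1 * cE ν t B g p.2
            + θ * (cE ν t A (fun ω => f ω * spin (ω.1 v)) p.1
              * cE ν t B (fun ω => g ω * spin (ω.1 v')) p.2) := by
        intro p
        simp only [hHdef, pairDensity, a1e, a2e, a0e, b1e, b2e, b0e]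
        have hne : 1 + θ * a0 (obs t A p.1) * b0 (obs t B p.2) ≠ 0 := by
          rw [mul_assoc]; exact (hpos (obs t A p.1, obs t B p.2)).ne'
        field_simp
      have hint : ∀ (S : Set V) (φ : Omega V → ℝ), Measurable φ → (∀ ω, |φ ω| ≤ 1) →
          ∫ ω, cE ν t S φ ω ∂probM ν = ∫ ω, φ ω ∂probM ν := fun S φ h1 h2 => by
        have := setIntegral_cE (ν := ν) (t := t) (S := S) h1 h2 MeasurableSet.univ
        simpa using this
      have hi : ∀ (S S' : Set V) (φ ψ : Omega V → ℝ),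
          Integrable (fun p : Omega V × Omega V => cE ν t S φ p.1 * cE ν t S' ψ p.2)
            ((probM ν).prod (probM ν)) := fun S S' φ ψ =>
        integrable_bdd (by fun_prop) (C := 1) fun p => by
          rw [abs_mul]; exact mul_le_one₀ (abs_cE_le _ _ _ _) (abs_nonneg _) (abs_cE_le _ _ _ _)
      rw [show ∫ ω, H (X ω) ∂probM ν = _ from eL, integral_congr_ae (Eventually.of_forall ept),
        integral_add (hi _ _ _ _) ((hi _ _ _ _).const_mul θ), integral_const_mul,
        integral_prod_mul, integral_prod_mul, hint A f hfm hfb, hint B g hgm hgb,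
        hint A _ hfsm hfsb, hint B _ hgsm hgsb]
      exact (cut_identity h hν hθ hvv' hfm hgm hf hg hfb hgb).symm
    have hr' : MeasurableSet (X ⁻¹' r) := hXm hr
    rw [Set.preimage_compl, setIntegral_compl hr' hi1, setIntegral_compl hr' hi2, hC, huniv]
  · intro r hdis hr hC
    rw [Set.preimage_iUnion, integral_iUnion (fun i => hXm (hr i))
      (fun i j hij => (hdis hij).preimage X)
      (integrable_bdd (f := fun ω => H (X ω)) (hHm.comp hXm) fun ω => hHb _).integrableOn,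
      integral_iUnion (fun i => hXm (hr i)) (fun i j hij => (hdis hij).preimage X)
      (integrable_bdd (f := fun ω => f ω * g ω) (hfm.mul hgm) (C := 1) fun ω => by
        rw [abs_mul]
        exact mul_le_one₀ (hfb ω) (abs_nonneg _) (hgb ω)).integrableOn]
    exact tsum_congr hC

end Vale.Agent.P161
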