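import Vale.Agent.P161.Critical.Static

/-!
Geodesics, spheres inside one side of an edge and the weights along geodesics.
-/

open MeasureTheory ProbabilityTheory SimpleGraph Filter
open scoped Topology

set_option linter.unusedSectionVars false

namespace Vale.Agent.P161

universe u

variable {V : Type u} [DecidableEq V] {G : SimpleGraph V} [DecidableRel G.Adj] {θ : ℝ} {d : ℕ}
variable {ν : Measure (V → Bool)} [IsProbabilityMeasure ν]

lemma Geo.rev {y : ℕ → V} {k : ℕ} (hy : Geo G y k) : Geo G (fun i => y (k - i)) k := by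
  refine ⟨fun i hi => ?_, ?_⟩
  · have := (hy.1 (k - (i + 1)) (by omega)).symm
    rwa [show k - (i + 1) + 1 = k - i by omega] at this
  · show G.dist (y (k - 0)) (y (k - k)) = k
    rw [Nat.sub_zero, Nat.sub_self, G.dist_comm, hy.2]

lemma Geo.ext (h : Reg G d) {y y' : ℕ → V} {k : ℕ} (hy : Geo G y k) (hy' : Geo G y' k)
    (h0 : y 0 = y' 0) (hk : y k = y' k) : ∀ i ≤ k, y i = y' i := by
  intro i
  induction i with
  | zero => exact fun _ => h0
  | succ i ih =>
    intro hi
    have e := ih (by omega)
    have a1 := hy.dist_eq h.tree (show i ≤ k by omega) le_rfl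
    have a2 := hy.dist_eq h.tree (show i + 1 ≤ k by omega) le_rfl
    have a3 := hy'.dist_eq h.tree (show i + 1 ≤ k by omega) le_rfl
    refine h.closer_unique (o := y k) (hy.1 i (by omega))
      (e ▸ hy'.1 i (by omega)) ?_ ?_
    · rw [G.dist_comm, a2, G.dist_comm, a1]; omega
    · rw [hk, G.dist_comm, a3, ← hk, G.dist_comm, a1]; omega

/-- The geodesic from `u` to `x`. -/
noncomputable def ray (h : Reg G d) (x u : V) (i : ℕ) : V :=
  (fun z => parent h.tree x z)^[i] u

@[simp] lemma ray_zero (h : Reg G d) (x u : V) : ray h x u 0 = u := rfl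

lemma ray_succ (h : Reg G d) (x u : V) (i : ℕ) :
    ray h x u (i + 1) = parent h.tree x (ray h x u i) :=
  Function.iterate_succ_apply' _ i u

lemma dist_ray (h : Reg G d) (x u : V) :
    ∀ i, i ≤ G.dist x u → G.dist x (ray h x u i) = G.dist x u - i := by
  intro i
  induction i with
  | zero => intro _; simp
  | succ i ih =>
    intro hi
    have e := ih (by omega)
    have hne : ray h x u i ≠ x := fun hx => by rw [hx, SimpleGraph.dist_self] at e; omega
    have := parent_dist h.tree hne
    rw [ray_succ]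
    omega

lemma ray_last (h : Reg G d) (x u : V) : ray h x u (G.dist x u) = x := by
  have := dist_ray h x u _ le_rfl
  rw [Nat.sub_self] at this
  exact ((h.tree.connected x _).dist_eq_zero_iff.1 this).symm

lemma ray_geo (h : Reg G d) (x u : V) : Geo G (ray h x u) (G.dist x u) := by
  refine ⟨fun i hi => ?_, ?_⟩
  · have e := dist_ray h x u i hi.le
    have hne : ray h x u i ≠ x := fun hx => by rw [hx, SimpleGraph.dist_self] at e; omega
    rw [ray_succ]
    exact (parent_spec h.tree hne).1
  · rw [ray_zero, ray_last, G.dist_comm]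

lemma exists_geo (h : Reg G d) (k : ℕ) : ∃ y, Geo G y k := by
  obtain ⟨o⟩ := h.tree.connected.nonempty
  obtain ⟨u, hu⟩ := h.exists_dist o k
  exact ⟨_, hu ▸ ray_geo h o u⟩

/-- Geodesics of equal length are equivalent. -/
lemma Geo.exists_iso (h : Reg G d) {y y' : ℕ → V} {k : ℕ} (hy : Geo G y k) (hy' : Geo G y' k) :
    ∃ γ : G ≃g G, ∀ i ≤ k, γ (y i) = y' i := by
  obtain ⟨γ, h1, h2⟩ := h.exists_iso (show G.dist (y 0) (y k) = G.dist (y' 0) (y' k) by
    rw [hy.2, hy'.2])
  exact ⟨γ, Geo.ext h (y := fun i => γ (y i))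
    ⟨fun i hi => γ.map_adj_iff.2 (hy.1 i hi), by rw [dist_iso]; exact hy.2⟩ hy' h1 h2⟩

/-- The product of the weights of the messages along the geodesic from `u` to `x`. -/
noncomputable def upW (h : Reg G d) (θ : ℝ) (ν : Measure (V → Bool)) (t : ℝ) (x u : V)
    (ω : Omega V) : ℝ :=
  ∏ i ∈ Finset.range (G.dist x u),
    edgeWt θ (msg ν G t Set.univ (ray h x u i) (ray h x u (i + 1)) ω)

lemma upW_eq (h : Reg G d) {y : ℕ → V} {k : ℕ} (hy : Geo G y k) (t : ℝ) (ω : Omega V) :
    upW h θ ν t (y k) (y 0) ω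
      = ∏ i ∈ Finset.range k, edgeWt θ (msg ν G t Set.univ (y i) (y (i + 1)) ω) := by
  have hk : G.dist (y k) (y 0) = k := by rw [G.dist_comm, hy.2]
  rw [upW, hk]
  refine Finset.prod_congr rfl fun i hi => ?_
  rw [Finset.mem_range] at hi
  have hg := ray_geo h (y k) (y 0)
  rw [hk] at hg
  have hl := ray_last h (y k) (y 0)
  rw [hk] at hl
  have e := Geo.ext h hg hy rfl hl
  rw [e i hi.le, e (i + 1) hi]

/-- A step added at the far end of a geodesic. -/
lemma upW_step (h : Reg G d) {p x u : V} (hxp : G.Adj x p) (hu : u ∈ sideOf G x p) (t : ℝ)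
    (ω : Omega V) :
    upW h θ ν t p u ω = upW h θ ν t x u ω * edgeWt θ (msg ν G t Set.univ x p ω) := by
  have hd : G.dist u p = G.dist u x + 1 := hu
  set k := G.dist x u with hk
  set y : ℕ → V := fun i => if i ≤ k then ray h x u i else p with hydef
  have hy : Geo G y (k + 1) := by
    refine ⟨fun i hi => ?_, ?_⟩
    · simp only [hydef]
      rw [if_pos (show i ≤ k by omega)]
      rcases Nat.lt_or_ge i k with h1 | h1
      · rw [if_pos (show i + 1 ≤ k by omega)]; exact (ray_geo h x u).1 i h1
      · rw [if_neg (by omega), show i = k by omega, hk, ray_last]; exact hxp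
    · simp only [hydef, Nat.zero_le, if_true, ray_zero]
      rw [if_neg (by omega), hd, hk, G.dist_comm]
  have e := upW_eq (θ := θ) (ν := ν) h hy t ω
  simp only [hydef, Nat.zero_le, if_true, ray_zero, if_neg (show ¬ k + 1 ≤ k by omega)] at e
  rw [e, Finset.prod_range_succ, if_pos le_rfl, if_neg (show ¬ k + 1 ≤ k by omega)]
  congr 1
  · refine Finset.prod_congr rfl fun i hi => ?_
    rw [Finset.mem_range] at hi
    rw [if_pos hi.le, if_pos (show i + 1 ≤ k from hi)]
  · rw [hk, ray_last]

lemma upW_self (h : Reg G d) (t : ℝ) (x : V) (ω : Omega V) : upW h θ ν t x x ω = 1 := by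
  simp [upW]

open Classical in
/-- The vertices on one side of an edge at a given distance from its end. -/
noncomputable def sideSph (h : Reg G d) (x p : V) (l : ℕ) : Finset V :=
  (h.ball x l).filter fun u => G.dist x u = l ∧ u ∈ sideOf G x p

lemma mem_sideSph (h : Reg G d) {x p u : V} {l : ℕ} :
    u ∈ sideSph h x p l ↔ G.dist x u = l ∧ u ∈ sideOf G x p := by
  simp only [sideSph, Finset.mem_filter, h.mem_ball]
  exact ⟨fun hu => hu.2, fun hu => ⟨hu.1.le, hu⟩⟩

lemma sideSph_zero (h : Reg G d) {x p : V} (hxp : G.Adj x p) : sideSph h x p 0 = {x} := by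
  ext u
  rw [mem_sideSph, Finset.mem_singleton]
  refine ⟨fun hu => ((h.tree.connected x u).dist_eq_zero_iff.1 hu.1).symm, ?_⟩
  rintro rfl
  exact ⟨SimpleGraph.dist_self, self_mem_sideOf hxp⟩

lemma sideSph_succ (h : Reg G d) {x p : V} (hxp : G.Adj x p) (l : ℕ) :
    sideSph h x p (l + 1) = (kids h x p).biUnion fun c => sideSph h c x l := by
  ext u
  simp only [Finset.mem_biUnion, mem_sideSph]
  constructor
  · rintro ⟨hd, hu⟩
    rw [← fanOf_kids h hxp] at hu
    rcases hu with hu | hu
    · rw [Set.mem_singleton_iff.1 hu, SimpleGraph.dist_self] at hd; omega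
    · obtain ⟨c, hc, hu⟩ := Set.mem_iUnion₂.1 hu
      refine ⟨c, hc, ?_, hu⟩
      have h1 : G.dist u x = G.dist u c + 1 := hu
      rw [G.dist_comm] at hd
      rw [G.dist_comm]
      omega
  · rintro ⟨c, hc, hd, hu⟩
    obtain ⟨hcp, hadj⟩ := (mem_kids h).1 hc
    refine ⟨?_, side_subset h hxp hadj hcp hu⟩
    have h1 : G.dist u x = G.dist u c + 1 := hu
    rw [G.dist_comm, h1, G.dist_comm, hd]

lemma disjoint_sideSph (h : Reg G d) {x p : V} (l : ℕ) :
    (↑(kids h x p) : Set V).PairwiseDisjoint fun c => sideSph h c x l := by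
  intro a ha b hb hab
  rw [Function.onFun, Finset.disjoint_left]
  intro u hua hub
  have h1 : G.dist u x = G.dist u a + 1 := (mem_sideSph h).1 hua |>.2
  have h2 : G.dist u x = G.dist u b + 1 := (mem_sideSph h).1 hub |>.2
  exact hab (h.closer_unique ((mem_kids h).1 ha).2 ((mem_kids h).1 hb).2 h1.symm h2.symm)

lemma card_sideSph (h : Reg G d) : ∀ (l : ℕ) {x p : V}, G.Adj x p →
    ((sideSph h x p l).card : ℝ) = bn d ^ l
  | 0, x, p, hxp => by simp [sideSph_zero h hxp]
  | l + 1, x, p, hxp => by
    rw [sideSph_succ h hxp, Finset.card_biUnion (disjoint_sideSph h l), Nat.cast_sum,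
      Finset.sum_congr rfl fun c hc => card_sideSph h l ((mem_kids h).1 hc).2.symm,
      Finset.sum_const, nsmul_eq_mul, card_kids h hxp, pow_succ']

/-- A vertex on each side of an edge gives a geodesic through the edge. -/
lemma geo_across (h : Reg G d) {x x' u w : V} (hxx' : G.Adj x x') (hu : u ∈ sideOf G x x')
    (hw : w ∈ sideOf G x' x) :
    Geo G (ray h w u) (G.dist x u + 1 + G.dist x' w) ∧
      ray h w u (G.dist x u) = x ∧ ray h w u (G.dist x u + 1) = x' ∧
      ray h w u (G.dist x u + 1 + G.dist x' w) = w := by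
  set a := G.dist x u with ha
  set b := G.dist x' w with hb
  have hd := dist_through h.tree hxx' hu hw
  have hxw : G.dist x w = b + 1 := by
    have h1 : G.dist w x = G.dist w x' + 1 := hw
    rw [G.dist_comm, h1, G.dist_comm]
  have hk : G.dist w u = a + 1 + b := by
    rw [G.dist_comm, hd, G.dist_comm, hxw]; omega
  have hy := ray_geo h w u
  rw [hk] at hy
  have hlast := ray_last h w u
  rw [hk] at hlast
  set y : ℕ → V := fun i => if i ≤ a then ray h x u i else ray h x' w (a + 1 + b - i) with hydef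
  have hy' : Geo G y (a + 1 + b) := by
    refine ⟨fun i hi => ?_, ?_⟩
    · simp only [hydef]
      rcases Nat.lt_trichotomy i a with h1 | h1 | h1
      · rw [if_pos h1.le, if_pos (show i + 1 ≤ a from h1)]; exact (ray_geo h x u).1 i h1
      · rw [if_pos h1.le, if_neg (by omega), h1, ha, ray_last,
          show G.dist x u + 1 + b - (G.dist x u + 1) = b by omega, hb, ray_last]
        exact hxx'
      · rw [if_neg (by omega), if_neg (by omega)]
        have := ((ray_geo h x' w).1 (a + 1 + b - (i + 1)) (by omega)).symm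
        rwa [show a + 1 + b - (i + 1) + 1 = a + 1 + b - i by omega] at this
    · simp only [hydef, Nat.zero_le, if_true, ray_zero]
      rw [if_neg (by omega), Nat.sub_self, ray_zero, G.dist_comm, hk]
  have e := Geo.ext h hy hy' (by simp [hydef]) (by
    rw [hlast]; simp only [hydef]; rw [if_neg (by omega), Nat.sub_self, ray_zero])
  refine ⟨hy, ?_, ?_, hlast⟩
  · rw [e a (by omega)]; simp only [hydef]; rw [if_pos le_rfl, ha, ray_last]
  · rw [e (a + 1) (by omega)]
    simp only [hydef]
    rw [if_neg (by omega), show a + 1 + b - (a + 1) = b by omega, hb, ray_last]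

lemma covJ_comm (t : ℝ) (S : Set V) (v u : V) (ω : Omega V) :
    covJ ν t S v u ω = covJ ν t S u v ω := by
  rw [covJ, covJ, mm2, mm2, cE_congr_fun (g' := fun η => sp u η * sp v η) fun η => mul_comm _ _,
    mul_comm (mu ν t S v ω)]

end Vale.Agent.P161
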