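import Vale.Agent.P161.Critical.Increment
import Vale.Agent.P161.Critical.Moments

/-!
The size of the messages at the threshold: the second moment is of order `√t`, and the higher
moments are bounded by powers of the second.
-/

open MeasureTheory ProbabilityTheory SimpleGraph Filter
open scoped Topology NNReal

set_option linter.unusedSectionVars false

namespace Vale.Agent.P161

universe u

variable {V : Type u} [DecidableEq V] {G : SimpleGraph V} [DecidableRel G.Adj] {θ : ℝ} {d : ℕ}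
variable {ν : Measure (V → Bool)} [IsProbabilityMeasure ν]

/-- The mean square of the message along an edge. -/
noncomputable def qe (ν : Measure (V → Bool)) (G : SimpleGraph V) (t : ℝ) (x p : V) : ℝ :=
  mom ν t (sideOf G x p) x 1

lemma msg_univ (t : ℝ) (x p : V) : msg ν G t Set.univ x p = mu ν t (sideOf G x p) x := by
  rw [msg, Set.univ_inter]

lemma qe_eq (h : Reg G d) (hν : HasMarginals G θ ν) {x p x' p' : V} (hxp : G.Adj x p)
    (hxp' : G.Adj x' p') (t : ℝ) : qe ν G t x p = qe ν G t x' p' :=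
  mom_side_eq h hν hxp hxp' t 1

lemma qe_mono {t t' : ℝ} (ht : t ≤ t') (x p : V) : qe ν G t x p ≤ qe ν G t' x p :=
  mom_mono ht subset_rfl x 1

/-- The other neighbours. -/
noncomputable def kids (h : Reg G d) (x p : V) : Finset V := (h.nbr x).erase p

lemma mem_kids (h : Reg G d) {x p c : V} : c ∈ kids h x p ↔ c ≠ p ∧ G.Adj x c := by
  simp [kids, h.mem_nbr]

lemma card_kids (h : Reg G d) {x p : V} (hxp : G.Adj x p) : ((kids h x p).card : ℝ) = bn d := by
  rw [kids, Finset.card_erase_of_mem (h.mem_nbr.2 hxp), h.card_nbr, bn]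
  have := h.two_le
  rw [Nat.cast_sub (by omega), Nat.cast_one]

lemma side_subset (h : Reg G d) {x p c : V} (hxp : G.Adj x p) (hxc : G.Adj x c) (hcp : c ≠ p) :
    sideOf G c x ⊆ sideOf G x p := by
  intro z hz
  rcases mem_sideOf_or h.tree hxp z with h1 | h1
  · exact h1
  · exact absurd (h.closer_unique (o := z) hxc hxp (hz : G.dist z x = G.dist z c + 1).symm
      (h1 : G.dist z x = G.dist z p + 1).symm) hcp

/-- The part of a side spanned by some of the children. -/
def fanOf (G : SimpleGraph V) (x : V) (C : Finset V) : Set V := {x} ∪ ⋃ c ∈ C, sideOf G c x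

lemma fanOf_insert (x c : V) (C : Finset V) :
    fanOf G x (insert c C) = fanOf G x C ∪ sideOf G c x := by
  ext z; simp only [fanOf, Finset.mem_insert, Set.mem_union, Set.mem_iUnion, exists_prop]
  constructor
  · rintro (hz | ⟨i, rfl | hi, hz⟩)
    · exact Or.inl (Or.inl hz)
    · exact Or.inr hz
    · exact Or.inl (Or.inr ⟨i, hi, hz⟩)
  · rintro ((hz | ⟨i, hi, hz⟩) | hz)
    · exact Or.inl hz
    · exact Or.inr ⟨i, Or.inr hi, hz⟩
    · exact Or.inr ⟨c, Or.inl rfl, hz⟩

lemma fanOf_mono (x : V) {C C' : Finset V} (hC : C ⊆ C') : fanOf G x C ⊆ fanOf G x C' :=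
  Set.union_subset_union_right _ (Set.biUnion_subset_biUnion_left hC)

lemma fanOf_subset (h : Reg G d) {x c : V} (hxc : G.Adj x c) {C : Finset V}
    (hC : ∀ i ∈ C, G.Adj x i) (hcC : c ∉ C) : fanOf G x C ⊆ sideOf G x c := by
  rintro z (hz | hz)
  · rw [Set.mem_singleton_iff.1 hz]; exact self_mem_sideOf hxc
  · obtain ⟨i, hi, hz⟩ := Set.mem_iUnion₂.1 hz
    exact side_subset h hxc (hC i hi) (fun e => hcC (e ▸ hi)) hz

lemma fanOf_kids_subset (h : Reg G d) {x p : V} (hxp : G.Adj x p) :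
    fanOf G x (kids h x p) ⊆ sideOf G x p :=
  fanOf_subset h hxp (fun i hi => ((mem_kids h).1 hi).2) fun hp => ((mem_kids h).1 hp).1 rfl

lemma fanOf_kids (h : Reg G d) {x p : V} (hxp : G.Adj x p) :
    fanOf G x (kids h x p) = sideOf G x p := by
  refine (fanOf_kids_subset h hxp).antisymm fun z hz => ?_
  by_cases hzx : z = x
  · exact Or.inl hzx
  obtain ⟨hadj, hd⟩ := parent_spec h.tree (o := z) (Ne.symm hzx)
  have hd' : G.dist z x = G.dist z (parent h.tree z x) + 1 := (parent_dist h.tree (Ne.symm hzx)).symm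
  refine Or.inr (Set.mem_iUnion₂.2 ⟨parent h.tree z x, (mem_kids h).2 ⟨fun e => ?_, hadj⟩, hd'⟩)
  rw [e] at hd'
  have hz' : G.dist z p = G.dist z x + 1 := hz
  omega

lemma fanOf_singleton (x : V) : fanOf G x ∅ = {x} := by simp [fanOf]

/-- Induction over the children. -/
lemma fan_induction (h : Reg G d) {x p : V} {P : Finset V → Prop} (h0 : P ∅)
    (hstep : ∀ (c : V) (C : Finset V), G.Adj x c → fanOf G x C ⊆ sideOf G x c →
      C ⊆ kids h x p → c ∈ kids h x p → c ∉ C → P C → P (insert c C)) :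
    ∀ C, C ⊆ kids h x p → P C := by
  intro C
  induction C using Finset.induction with
  | empty => exact fun _ => h0
  | insert c C hc ih =>
    intro hC
    obtain ⟨h1, h2⟩ := Finset.insert_subset_iff.1 hC
    have hadj := ((mem_kids h).1 h1).2
    exact hstep c C hadj (fanOf_subset h hadj (fun i hi => ((mem_kids h).1 (h2 hi)).2) hc) h2 h1 hc
      (ih h2)

/-- Lower and upper recursion bounds over the children. -/
lemma fan_bounds (h : Reg G d) (hν : HasMarginals G θ ν) (hθ : |θ| < 1) {x p : V}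
    (hxp : G.Adj x p) (t : ℝ) : ∀ C, C ⊆ kids h x p →
    mom ν t (fanOf G x C) x 1 ≤ mom ν t {x} x 1 + C.card * θ ^ 2 * qe ν G t x p ∧
    mom ν t {x} x 1 + C.card * θ ^ 2 * qe ν G t x p - 2 * C.card * θ ^ 2 * qe ν G t x p ^ 2
      ≤ mom ν t (fanOf G x C) x 1 := by
  refine fan_induction h ?_ fun c C hc hA hCk hck hcC ih => ?_
  · simp [fanOf_singleton]
  have hq : qe ν G t c x = qe ν G t x p := qe_eq h hν hc.symm hxp t
  have hq0 : 0 ≤ qe ν G t x p := mom_nonneg _ _ _ _
  have hAq : mom ν t (fanOf G x C) x 1 ≤ qe ν G t x p :=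
    mom_mono le_rfl ((fanOf_mono x hCk).trans (fanOf_kids_subset h hxp)) x 1
  have hA0 : 0 ≤ mom ν t (fanOf G x C) x 1 := mom_nonneg _ _ _ _
  have ht2 : θ ^ 2 < 1 := (sq_lt_one_iff_abs_lt_one θ).2 hθ
  have up := mom_union_le h hν hθ hc t hA (B := sideOf G c x) subset_rfl
  have lo := mom_union_ge h hν hθ hc t hA (B := sideOf G c x) subset_rfl
  rw [← fanOf_insert, show mom ν t (sideOf G c x) c 1 = qe ν G t x p from hq] at up lo
  rw [Finset.card_insert_of_notMem hcC]
  push_cast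
  constructor
  · have : 0 ≤ (1 - θ ^ 2) * θ ^ 2 * mom ν t (fanOf G x C) x 1 * qe ν G t x p := by
      have : 0 ≤ 1 - θ ^ 2 := by linarith
      positivity
    linarith [ih.1]
  · have : θ ^ 2 * mom ν t (fanOf G x C) x 1 * qe ν G t x p
        ≤ θ ^ 2 * qe ν G t x p * qe ν G t x p := by gcongr
    rw [sq (qe ν G t x p)] at ih ⊢
    linarith [ih.2]

/-- At the threshold the message has mean square at least of order `√t`. -/
lemma single_le_two_qe_sq (h : Reg G d) (hν : HasMarginals G θ ν) (hθ : |θ| < 1)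
    (hc : bn d * θ ^ 2 = 1) {x p : V} (hxp : G.Adj x p) (t : ℝ) :
    mom ν t {x} x 1 ≤ 2 * qe ν G t x p ^ 2 := by
  have := (fan_bounds h hν hθ hxp t (kids h x p) subset_rfl).2
  rw [fanOf_kids h hxp, card_kids h hxp, show mom ν t (sideOf G x p) x 1 = qe ν G t x p from rfl,
    mul_assoc 2, hc] at this
  linarith

/-- At the threshold the message has mean square at most of order `√t`. -/
lemma qe_sq_le_single (h : Reg G d) (hd : 3 ≤ d) (hν : HasMarginals G θ ν) (hθ : |θ| < 1)
    (hc : bn d * θ ^ 2 = 1) {x p : V} (hxp : G.Adj x p) (t : ℝ) :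
    (1 - θ ^ 2) * θ ^ 4 * qe ν G t x p ^ 2 ≤ mom ν t {x} x 1 := by
  have hbn := two_le_bn hd
  have hθ2 : θ ^ 2 < 1 := (sq_lt_one_iff_abs_lt_one θ).2 hθ
  have hq1 : qe ν G t x p ≤ 1 := mom_le_one _ _ _ _
  have hq0 : 0 ≤ qe ν G t x p := mom_nonneg _ _ _ _
  have hhalf : 2 * θ ^ 2 ≤ 1 := by nlinarith [sq_nonneg θ]
  obtain ⟨c, hck⟩ : (kids h x p).Nonempty := by
    rw [← Finset.card_pos]
    have := card_kids h hxp
    exact_mod_cast (show (0 : ℝ) < (kids h x p).card by linarith)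
  set C := (kids h x p).erase c
  have hCk : C ⊆ kids h x p := Finset.erase_subset _ _
  obtain ⟨e, heC⟩ : C.Nonempty := by
    rw [← Finset.card_pos]
    have h1 := card_kids h hxp
    have h2 : 2 ≤ (kids h x p).card := by exact_mod_cast (show (2 : ℝ) ≤ (kids h x p).card by linarith)
    simp only [C, Finset.card_erase_of_mem hck]
    omega
  have hadj := ((mem_kids h).1 hck).2
  have up := mom_union_le h hν hθ hadj t (fanOf_subset h hadj
    (fun i hi => ((mem_kids h).1 (hCk hi)).2) (Finset.notMem_erase c _)) (B := sideOf G c x)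
    subset_rfl
  rw [← fanOf_insert, Finset.insert_erase hck, fanOf_kids h hxp,
    show mom ν t (sideOf G c x) c 1 = qe ν G t x p from qe_eq h hν hadj.symm hxp t,
    show mom ν t (sideOf G x p) x 1 = qe ν G t x p from rfl] at up
  have hCcard : (C.card : ℝ) + 1 = bn d := by
    rw [← card_kids h hxp, ← Finset.card_erase_add_one hck]; push_cast; ring
  have b1 := (fan_bounds h hν hθ hxp t C hCk).1
  have b2 : θ ^ 2 * qe ν G t x p ≤ mom ν t (fanOf G x C) x 1 := by
    have hek := hCk heC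
    have he := ((mem_kids h).1 hek).2
    have l := mom_union_ge h hν hθ he t (A := {x}) (B := sideOf G e x)
      (Set.singleton_subset_iff.2 (self_mem_sideOf he)) subset_rfl
    rw [← fanOf_singleton (G := G) x, ← fanOf_insert, fanOf_singleton,
      show mom ν t (sideOf G e x) e 1 = qe ν G t x p from qe_eq h hν he.symm hxp t] at l
    refine le_trans ?_ (mom_mono le_rfl (fanOf_mono x (Finset.singleton_subset_iff.2 heC)) x 1)
    refine le_trans ?_ (le_of_le_of_eq l (by simp))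
    have h1 : 2 * θ ^ 2 * qe ν G t x p ≤ 1 :=
      (mul_le_of_le_one_right (mul_nonneg zero_le_two (sq_nonneg θ)) hq1).trans hhalf
    linarith [mul_le_mul_of_nonneg_left h1 (mom_nonneg (ν := ν) t {x} x 1)]
  have h3 : (1 - θ ^ 2) * θ ^ 2 * qe ν G t x p * (θ ^ 2 * qe ν G t x p)
      ≤ (1 - θ ^ 2) * θ ^ 2 * mom ν t (fanOf G x C) x 1 * qe ν G t x p := by
    rw [mul_right_comm _ (mom ν t (fanOf G x C) x 1)]
    exact mul_le_mul_of_nonneg_left b2
      (mul_nonneg (mul_nonneg (by linarith) (sq_nonneg _)) hq0)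
  have h4 : (C.card : ℝ) * θ ^ 2 * qe ν G t x p + θ ^ 2 * qe ν G t x p = qe ν G t x p := by
    calc _ = ((C.card : ℝ) + 1) * θ ^ 2 * qe ν G t x p := by ring
      _ = _ := by rw [hCcard, hc, one_mul]
  linarith

lemma single_ge_real {t : ℝ} (ht : 0 < t) (x : V) : min t 1 / 4 ≤ mom ν t {x} x 1 := by
  rcases le_or_gt 1 t with h1 | h1
  · refine le_trans ?_ (mom_mono (ν := ν) h1 subset_rfl x 1)
    refine le_trans ?_ (by simpa [mesh] using single_ge_mesh (ν := ν) 0 x)
    rw [min_eq_right h1]; norm_num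
  · obtain ⟨m, hm1, hm2⟩ := exists_nat_pow_near_of_lt_one ht h1.le (by norm_num : (0 : ℝ) < 1 / 2)
      (by norm_num)
    refine le_trans ?_ (mom_mono (ν := ν) (hm1.le : mesh (m + 1) ≤ t) subset_rfl x 1)
    refine le_trans ?_ (single_ge_mesh (ν := ν) (m + 1) x)
    rw [min_eq_left h1.le]
    have hp := mesh_pos (m + 1)
    have hle : mesh (m + 1) ≤ 1 := pow_le_one₀ (by norm_num) (by norm_num)
    rw [le_div_iff₀ (by linarith)]
    have h2 : t ≤ 2 * mesh (m + 1) := by unfold mesh; rw [pow_succ]; linarith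
    nlinarith

/-- The size of the message at the threshold. -/
theorem qe_bounds (h : Reg G d) (hd : 3 ≤ d) (hν : HasMarginals G θ ν) (hθ : |θ| < 1)
    (hc : bn d * θ ^ 2 = 1) :
    ∃ c C : ℝ, 0 < c ∧ 0 < C ∧ ∀ x p, G.Adj x p → ∀ t, 0 < t →
      c * Real.sqrt (min t 1) ≤ qe ν G t x p ∧ (t ≤ 1 → qe ν G t x p ≤ C * Real.sqrt t) := by
  have hθ2 : θ ^ 2 < 1 := (sq_lt_one_iff_abs_lt_one θ).2 hθ
  have hθ0 : θ ≠ 0 := fun e => by rw [e] at hc; simp at hc
  have hk : 0 < (1 - θ ^ 2) * θ ^ 4 := mul_pos (by linarith) (by positivity)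
  obtain ⟨v0⟩ : Nonempty V := h.tree.connected.nonempty
  obtain ⟨C1, hC1, hS⟩ := single_mom_le (G := G) (ν := ν) hν h.tree hθ v0 1
  refine ⟨1 / 3, Real.sqrt ((C1 + 1) / ((1 - θ ^ 2) * θ ^ 4)), by norm_num, by positivity,
    fun x p hxp t ht => ⟨?_, fun ht1 => ?_⟩⟩
  · have h1 := single_le_two_qe_sq h hν hθ hc hxp t
    have h2 := single_ge_real (ν := ν) ht x
    have hm : 0 ≤ min t 1 := le_min ht.le zero_le_one
    have hs := Real.sq_sqrt hm
    nlinarith [Real.sqrt_nonneg (min t 1), mom_nonneg (ν := ν) t (sideOf G x p) x 1,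
      show qe ν G t x p = mom ν t (sideOf G x p) x 1 from rfl]
  · have h1 := qe_sq_le_single h hd hν hθ hc hxp t
    obtain ⟨γ, hγ, -⟩ := h.exists_iso (show G.dist v0 v0 = G.dist x x by simp)
    have h2 : mom ν t {x} x 1 ≤ C1 * t ^ 1 := by
      rw [← hγ, ← Set.image_singleton, mom_gact h hν]
      exact hS t ht ht1
    rw [← Real.sqrt_mul (by positivity)]
    refine Real.le_sqrt_of_sq_le ?_
    rw [div_mul_eq_mul_div, le_div_iff₀ hk]
    show qe ν G t x p ^ 2 * _ ≤ _
    nlinarith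

lemma integral_abs_mu_le (t : ℝ) (S : Set V) (v : V) {l : ℝ} (hl : 0 < l)
    (hle : mom ν t S v 1 ≤ l ^ 2) : ∫ ω, |mu ν t S v ω| ∂probM ν ≤ l := by
  refine (integral_abs_le_amgm (integrable_bdd (measurable_cE t S _) (abs_mu_le t S v))
    (integrable_mu_pow t S v 2) hl).trans ?_
  have e : ∫ ω, cE ν t S (sp v) ω ^ 2 ∂probM ν = mom ν t S v 1 := rfl
  rw [e]
  have : mom ν t S v 1 / (2 * l) ≤ l / 2 := by
    rw [div_le_iff₀ (by positivity)]; nlinarith
  linarith

/-- The higher moments of the message. -/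
theorem mom_le_pow (h : Reg G d) (hd : 3 ≤ d) (hν : HasMarginals G θ ν) (hθ : |θ| < 1)
    (hc : bn d * θ ^ 2 = 1) (k : ℕ) :
    ∃ C, 0 ≤ C ∧ ∀ x p, G.Adj x p → ∀ t, 0 < t →
      mom ν t (sideOf G x p) x k ≤ C * qe ν G t x p ^ k := by
  induction k using Nat.strong_induction_on with
  | _ k ih =>
  rcases lt_or_ge k 2 with hk | hk
  · refine ⟨1, zero_le_one, fun x p _ t _ => ?_⟩
    interval_cases k
    · simpa using mom_le_one t _ x 0
    · simp [qe]
  obtain ⟨Cm, hCm, hm⟩ := ih (k - 1) (by omega)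
  obtain ⟨K, hK, hstep⟩ := mom_union_pow_le (V := V) hθ hk
  obtain ⟨cq, Cq, hcq, -, hqb⟩ := qe_bounds h hd hν hθ hc
  have hθ2 : θ ^ 2 < 1 := (sq_lt_one_iff_abs_lt_one θ).2 hθ
  obtain ⟨v0⟩ : Nonempty V := h.tree.connected.nonempty
  obtain ⟨C1, hC1, hS⟩ := single_mom_le (G := G) (ν := ν) hν h.tree hθ v0 k
  set n : ℕ := d - 1
  -- the single site term
  set C0 := C1 / cq ^ (2 * k) + (1 / cq) ^ k with hC0
  have hC00 : 0 ≤ C0 := by positivity
  set C2 := C0 + 2 * K * Cm * n with hC2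
  have hC20 : 0 ≤ C2 := by positivity
  set κ := (1 - θ ^ 2) / 2 with hκ
  have hκ0 : 0 < κ := by rw [hκ]; linarith
  set δ := κ / (2 * K * n + 1) with hδ
  have hδ0 : 0 < δ := by positivity
  refine ⟨C2 / κ + (1 / δ ^ 2) ^ k, by positivity, fun x p hxp t ht => ?_⟩
  set q := qe ν G t x p with hq
  set R := mom ν t (sideOf G x p) x k with hR
  have hR0 : 0 ≤ R := mom_nonneg _ _ _ _
  have hq1 : q ≤ 1 := mom_le_one _ _ _ _
  have hqlow := (hqb x p hxp t ht).1
  have hq0 : 0 < q := lt_of_lt_of_le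
    (mul_pos hcq (Real.sqrt_pos.2 (lt_min ht one_pos))) hqlow
  by_cases hbig : Real.sqrt q ≤ δ
  swap
  · have h1 : δ ^ 2 ≤ q := by
      have := pow_le_pow_left₀ hδ0.le (not_le.1 hbig).le 2
      rwa [Real.sq_sqrt hq0.le] at this
    refine (mom_le_one _ _ _ _).trans ?_
    have h2 : 1 ≤ (1 / δ ^ 2) ^ k * q ^ k := by
      rw [← mul_pow]; refine one_le_pow₀ ?_
      rw [one_div, ← div_eq_inv_mul, le_div_iff₀ (by positivity)]; linarith
    have h3 : 0 ≤ C2 / κ * q ^ k := by positivity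
    linarith
  have hsq0 : 0 < Real.sqrt q := Real.sqrt_pos.2 hq0
  -- single site
  have hsing : mom ν t {x} x k ≤ C0 * q ^ k := by
    rcases le_or_gt t 1 with ht1 | ht1
    · obtain ⟨γ, hγ, -⟩ := h.exists_iso (show G.dist v0 v0 = G.dist x x by simp)
      rw [← hγ, ← Set.image_singleton, mom_gact h hν]
      refine (hS t ht ht1).trans ?_
      rw [min_eq_left ht1] at hqlow
      have htq : t ≤ q ^ 2 / cq ^ 2 := by
        rw [le_div_iff₀ (by positivity)]
        have := pow_le_pow_left₀ (by positivity) hqlow 2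
        rw [mul_pow, Real.sq_sqrt ht.le] at this
        linarith
      have hqk : (q ^ 2) ^ k ≤ q ^ k := by
        rw [← pow_mul]; exact pow_le_pow_of_le_one hq0.le hq1 (by omega)
      calc C1 * t ^ k ≤ C1 * ((q ^ 2 / cq ^ 2) ^ k) := by gcongr
        _ = C1 / cq ^ (2 * k) * (q ^ 2) ^ k := by rw [div_pow, ← pow_mul cq]; ring
        _ ≤ C1 / cq ^ (2 * k) * q ^ k := by gcongr
        _ ≤ C0 * q ^ k := by rw [hC0, add_mul]; exact le_add_of_nonneg_right (by positivity)
    · rw [min_eq_right ht1.le, Real.sqrt_one, mul_one] at hqlow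
      refine (mom_le_one _ _ _ _).trans ?_
      have h2 : 1 ≤ (1 / cq) ^ k * q ^ k := by
        rw [← mul_pow]; refine one_le_pow₀ ?_
        rw [one_div, ← div_eq_inv_mul, le_div_iff₀ hcq]; linarith
      have h3 : 0 ≤ C1 / cq ^ (2 * k) * q ^ k := by positivity
      rw [hC0]; linarith
  have hfan : ∀ C, C ⊆ kids h x p → mom ν t (fanOf G x C) x k
      ≤ C.card * (θ ^ (2 * k) + 2 * K * Real.sqrt q) * R
        + (C0 + 2 * K * Cm * C.card) * q ^ k := by
    refine fan_induction h ?_ fun c C hadj hA hCk hck hcC ih' => ?_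
    · simp [fanOf_singleton, hsing]
    have hsub := (fanOf_mono x hCk).trans (fanOf_kids_subset h hxp)
    have hqc : qe ν G t c x = q := qe_eq h hν hadj.symm hxp t
    have hs := hstep d G ν h hν x c hadj t (fanOf G x C) (sideOf G c x) hA subset_rfl
    rw [← fanOf_insert, show mom ν t (sideOf G c x) c 1 = q from hqc,
      show mom ν t (sideOf G c x) c k = R from mom_side_eq h hν hadj.symm hxp t k] at hs
    have hm1 : mom ν t (sideOf G c x) c (k - 1) ≤ Cm * q ^ (k - 1) := hqc ▸ hm c x hadj.symm t ht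
    have hm2 : mom ν t (fanOf G x C) x (k - 1) ≤ Cm * q ^ (k - 1) :=
      (mom_mono le_rfl hsub x _).trans (hm x p hxp t ht)
    have hm3 : mom ν t (fanOf G x C) x k ≤ R := mom_mono le_rfl hsub x _
    have hm4 : mom ν t (fanOf G x C) x 1 ≤ q := mom_mono le_rfl hsub x _
    have hsq : Real.sqrt q ^ 2 = q := Real.sq_sqrt hq0.le
    have ha1 : ∫ ω, |mu ν t (sideOf G c x) c ω| ∂probM ν ≤ Real.sqrt q :=
      integral_abs_mu_le t _ c hsq0 (by rw [hsq]; exact hqc.le)
    have ha2 : ∫ ω, |mu ν t (fanOf G x C) x ω| ∂probM ν ≤ Real.sqrt q :=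
      integral_abs_mu_le t _ x hsq0 (by rw [hsq]; exact hm4)
    have hqk : q * q ^ (k - 1) = q ^ k := by rw [← pow_succ']; congr 1; omega
    have e1 : mom ν t (fanOf G x C) x 1 * mom ν t (sideOf G c x) c (k - 1)
        + mom ν t (fanOf G x C) x (k - 1) * q ≤ 2 * Cm * q ^ k := by
      have := mul_le_mul hm4 hm1 (mom_nonneg _ _ _ _) hq0.le
      have := mul_le_mul_of_nonneg_right hm2 hq0.le
      nlinarith [hqk]
    have e2 : mom ν t (fanOf G x C) x k * (∫ ω, |mu ν t (sideOf G c x) c ω| ∂probM ν)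
        + R * ∫ ω, |mu ν t (fanOf G x C) x ω| ∂probM ν ≤ 2 * Real.sqrt q * R := by
      have := mul_le_mul hm3 ha1 (integral_nonneg fun _ => abs_nonneg _) hR0
      have := mul_le_mul_of_nonneg_left ha2 hR0
      linarith
    have e1' := mul_le_mul_of_nonneg_left e1 hK
    have e2' := mul_le_mul_of_nonneg_left e2 hK
    rw [Finset.card_insert_of_notMem hcC]
    push_cast
    linarith
  have hfull := hfan _ subset_rfl
  rw [fanOf_kids h hxp, ← hR] at hfull
  have hn : ((kids h x p).card : ℝ) = n := by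
    rw [card_kids h hxp, bn, Nat.cast_sub (by omega), Nat.cast_one]
  have hnθ : (n : ℝ) * θ ^ (2 * k) ≤ θ ^ 2 := by
    have e : (n : ℝ) = bn d := by rw [← hn, card_kids h hxp]
    rw [e, pow_mul, show (θ ^ 2) ^ k = θ ^ 2 * (θ ^ 2) ^ (k - 1) by
      rw [← pow_succ']; congr 1; omega, ← mul_assoc, hc, one_mul]
    exact pow_le_of_le_one (sq_nonneg _) hθ2.le (by omega)
  rw [hn] at hfull
  have hKq : 2 * K * n * Real.sqrt q ≤ κ := by
    refine (mul_le_mul_of_nonneg_left hbig (by positivity)).trans ?_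
    rw [hδ, mul_div_assoc', div_le_iff₀ (by positivity)]
    nlinarith
  have h5 : (n : ℝ) * (θ ^ (2 * k) + 2 * K * Real.sqrt q) * R ≤ (1 - κ) * R := by
    refine mul_le_mul_of_nonneg_right ?_ hR0
    rw [hκ] at hKq ⊢
    linarith
  have h6 : κ * R ≤ C2 * q ^ k := by
    rw [hC2]; linarith
  have h7 : R ≤ C2 / κ * q ^ k := by
    rw [div_mul_eq_mul_div, le_div_iff₀ hκ0]; linarith
  have h8 : 0 ≤ (1 / δ ^ 2) ^ k * q ^ k := by positivity
  linarith

/-- Long observations determine the spin. -/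
lemma one_sub_qm_le (T : ℕ) (v : V) : 1 - qm ν T Set.univ v ≤ 1 / (1 + T) := by
  have h1 : (T : ℝ) / (1 + T) ≤ qm ν T Set.univ v :=
    (single_ge_nat (ν := ν) T v).trans (mom_mono le_rfl (Set.subset_univ _) v 1)
  have h2 : 1 - (T : ℝ) / (1 + T) = 1 / (1 + T) := by field_simp; ring
  linarith

end Vale.Agent.P161
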