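import Vale.Agent.P161.Critical.Windows
import Vale.Agent.P161.Critical.Damping

/-!
The posterior covariances outside a ball are summable uniformly in the volume, and the ambiguity
left by the innovations vanishes at time zero.
-/

open MeasureTheory ProbabilityTheory SimpleGraph Filter
open scoped Topology NNReal

set_option linter.unusedSectionVars false

namespace Vale.Agent.P161

universe u

variable {V : Type u} [DecidableEq V] {G : SimpleGraph V} [DecidableRel G.Adj] {θ : ℝ} {d : ℕ}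
variable {ν : Measure (V → Bool)} [IsProbabilityMeasure ν]

/-! ### The ambiguity -/

lemma pB_le_qm (t : ℝ) (v : V) : pB G θ ν t v ≤ qm ν t Set.univ v := by
  set b := bE G θ ν t (sp v) with hb
  have hbm : Measurable[obsAlg t Set.univ] b :=
    (measurable_bE_b t (sp v)).mono (bAlg_le_obsAlg t) le_rfl
  have e : ∫ ω, b ω * mu ν t Set.univ v ω ∂probM ν = pB G θ ν t v := by
    rw [mu, integral_mul_cE (measurable_sp v) (abs_sp_le v) hbm (abs_bE_le t (sp v)), hb,
      integral_bE_mul_self (measurable_sp v) (abs_sp_le v), pB]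
  have i1 : Integrable (fun ω => b ω ^ 2) (probM ν) :=
    integrable_bdd ((measurable_bE t _).pow_const 2) (C := 1) fun ω => by
      rw [abs_pow]; exact pow_le_one₀ (abs_nonneg _) (abs_bE_le t _ ω)
  have i2 : Integrable (fun ω => mu ν t Set.univ v ω ^ 2) (probM ν) := integrable_mu_pow t _ v 2
  have i3 : Integrable (fun ω => b ω * mu ν t Set.univ v ω) (probM ν) :=
    integrable_bdd ((measurable_bE t _).mul (measurable_mu t _ v)) (C := 1) fun ω => by
      rw [abs_mul]; exact mul_le_one₀ (abs_bE_le t _ ω) (abs_nonneg _) (abs_mu_le t _ v ω)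
  have h := integral_mono (i3.const_mul 2) (i1.add i2) fun ω => by
    show 2 * (b ω * mu ν t Set.univ v ω) ≤ b ω ^ 2 + mu ν t Set.univ v ω ^ 2
    linarith [sq_nonneg (b ω - mu ν t Set.univ v ω), sub_sq (b ω) (mu ν t Set.univ v ω)]
  simp only [Pi.add_apply] at h
  rw [integral_const_mul, e, integral_add i1 i2] at h
  simp only [pB, qm, hb] at h ⊢
  linarith

lemma amb_nonneg (t : ℝ) (v : V) : 0 ≤ amb G θ ν t v := sub_nonneg.2 (pB_le_qm t v)

lemma amb_le_qm (t : ℝ) (v : V) : amb G θ ν t v ≤ qm ν t Set.univ v :=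
  sub_le_self _ (integral_nonneg fun _ => sq_nonneg _)

/-- The magnetisation given everything is at most twice a message. -/
lemma qm_le_two_qe (h : Reg G d) (hν : HasMarginals G θ ν) (hθ : |θ| < 1) {x p : V}
    (hxp : G.Adj x p) (t : ℝ) (v : V) : qm ν t Set.univ v ≤ 2 * qe ν G t x p := by
  obtain ⟨w, hw⟩ : (h.nbr v).Nonempty := by
    rw [← Finset.card_pos, h.card_nbr]; have := h.two_le; omega
  rw [h.mem_nbr] at hw
  have hu : sideOf G v w ∪ sideOf G w v = Set.univ :=
    Set.eq_univ_of_forall fun z => mem_sideOf_or h.tree hw z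
  have hle := mom_union_le h hν hθ hw t (A := sideOf G v w) (B := sideOf G w v) subset_rfl subset_rfl
  rw [hu, show mom ν t (sideOf G v w) v 1 = qe ν G t x p from mom_side_eq h hν hw hxp t 1,
    show mom ν t (sideOf G w v) w 1 = qe ν G t x p from mom_side_eq h hν hw.symm hxp t 1,
    show mom ν t Set.univ v 1 = qm ν t Set.univ v from rfl] at hle
  have hq : 0 ≤ qe ν G t x p := mom_nonneg _ _ _ _
  have h2 : θ ^ 2 < 1 := (sq_lt_one_iff_abs_lt_one θ).2 hθ
  have h3 : 0 ≤ (1 - θ ^ 2) * θ ^ 2 * qe ν G t x p * qe ν G t x p := by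
    have : 0 ≤ 1 - θ ^ 2 := by linarith
    positivity
  nlinarith

lemma amb_le_qe (h : Reg G d) (hν : HasMarginals G θ ν) (hθ : |θ| < 1) {x p : V}
    (hxp : G.Adj x p) (t : ℝ) (v : V) : amb G θ ν t v ≤ 2 * qe ν G t x p :=
  (amb_le_qm t v).trans (qm_le_two_qe h hν hθ hxp t v)

/-- The ambiguity vanishes at time zero. -/
theorem tendsto_amb (h : Reg G d) (hd : 3 ≤ d) (hν : HasMarginals G θ ν) (hθ : |θ| < 1)
    (hc : bn d * θ ^ 2 = 1) (v : V) :
    Tendsto (fun m => amb G θ ν (mesh m) v) atTop (𝓝 0) := by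
  obtain ⟨c, C, -, -, hq⟩ := qe_bounds h hd hν hθ hc
  obtain ⟨w, hw⟩ : (h.nbr v).Nonempty := by rw [← Finset.card_pos, h.card_nbr]; omega
  rw [h.mem_nbr] at hw
  have hm : Tendsto (fun m => mesh m) atTop (𝓝 0) :=
    tendsto_pow_atTop_nhds_zero_of_lt_one (by norm_num) (by norm_num)
  have hlim : Tendsto (fun m => 2 * (C * Real.sqrt (mesh m))) atTop (𝓝 0) := by
    simpa using (((Real.continuous_sqrt.tendsto 0).comp hm).const_mul C).const_mul 2
  refine tendsto_of_tendsto_of_tendsto_of_le_of_le tendsto_const_nhds hlim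
    (fun m => amb_nonneg _ v) fun m => ?_
  exact (amb_le_qe h hν hθ hw _ v).trans (mul_le_mul_of_nonneg_left
    ((hq v w hw _ (mesh_pos m)).2 (pow_le_one₀ (by norm_num) (by norm_num))) zero_le_two)

/-! ### The tail of the covariances -/

/-- A finite part of a side already carries half of the message. -/
lemma exists_side_ball (h : Reg G d) (hν : HasMarginals G θ ν) {x0 p0 : V} (hx0 : G.Adj x0 p0)
    (t : ℝ) (hq : 0 < qe ν G t x0 p0) :
    ∃ L : ℕ, ∀ e x, G.Adj e x →
      qe ν G t x0 p0 / 2 ≤ mom ν t ((h.ball e L : Set V) ∩ sideOf G e x) e 1 := by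
  have hlim : Tendsto (fun R => mom ν t ((h.ball x0 R : Set V) ∩ sideOf G x0 p0) x0 1) atTop
      (𝓝 (qe ν G t x0 p0)) :=
    tendsto_integral_cE (ν := ν) t (S := fun R => (h.ball x0 R : Set V) ∩ sideOf G x0 p0)
      (fun i j hij => Set.inter_subset_inter_left _ (ball_mono h x0 hij))
      (by rw [← Set.iUnion_inter, iUnion_ball, Set.univ_inter]) (g := sp x0) (abs_sp_le x0)
      (Φ := fun a => a ^ (2 * 1)) (continuous_pow _)
  obtain ⟨L, hL⟩ := (hlim.eventually_const_lt (half_lt_self hq)).exists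
  refine ⟨L, fun e x hex => ?_⟩
  obtain ⟨γ, hγ1, hγ2⟩ := h.exists_iso (o := x0) (u := p0) (o' := e) (u' := x)
    (by rw [dist_eq_one_iff_adj.2 hx0, dist_eq_one_iff_adj.2 hex])
  have himg : γ '' ((h.ball x0 L : Set V) ∩ sideOf G x0 p0)
      ⊆ (h.ball e L : Set V) ∩ sideOf G e x := by
    refine (Set.image_inter_subset _ _ _).trans (Set.inter_subset_inter ?_ ?_)
    · rintro _ ⟨z, hz, rfl⟩
      rw [Finset.mem_coe, h.mem_ball] at hz ⊢
      rwa [← hγ1, dist_iso]
    · rw [image_sideOf, hγ1, hγ2]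
  refine hL.le.trans ?_
  rw [← mom_gact h hν γ]
  rw [hγ1]
  exact mom_mono le_rfl (hγ1 ▸ himg) e 1

lemma covJ_sq_le (h : Reg G d) (hν : HasMarginals G θ ν) (hθ : |θ| < 1) (t : ℝ) (S : Set V)
    {y : ℕ → V} {k : ℕ} (hy : Geo G y k) :
    ∫ ω, covJ ν t S (y 0) (y k) ω ^ 2 ∂probM ν
      ≤ (θ ^ 2) ^ k
        * ∫ ω, ∏ i ∈ Finset.range k, edgeWt θ (msg ν G t S (y i) (y (i + 1)) ω) ∂probM ν := by
  have hPm : Measurable fun ω =>
      ∏ i ∈ Finset.range k, edgeWt θ (msg ν G t S (y i) (y (i + 1)) ω) :=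
    Finset.measurable_prod _ fun i _ => (measurable_edgeWt θ).comp (measurable_msg t S _ _)
  have hP0 : ∀ ω, 0 ≤ ∏ i ∈ Finset.range k, edgeWt θ (msg ν G t S (y i) (y (i + 1)) ω) :=
    fun ω => Finset.prod_nonneg fun i _ => edgeWt_nonneg hθ (abs_msg_le _ _ _ _ _)
  have hP1 : ∀ ω, ∏ i ∈ Finset.range k, edgeWt θ (msg ν G t S (y i) (y (i + 1)) ω) ≤ 1 :=
    fun ω => Finset.prod_le_one (fun i _ => edgeWt_nonneg hθ (abs_msg_le _ _ _ _ _))
      fun i _ => edgeWt_le_one hθ (abs_msg_le _ _ _ _ _)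
  rw [← integral_const_mul]
  refine integral_mono_ae (integrable_bdd ((measurable_covJ t S _ _).pow_const 2) (C := 4)
    fun ω => by
      rw [abs_pow]
      exact (pow_le_pow_left₀ (abs_nonneg _) (abs_covJ_le _ _ _ _ _) 2).trans (by norm_num))
    ((integrable_bdd hPm (C := 1) fun ω => by
      rw [abs_of_nonneg (hP0 ω)]; exact hP1 ω).const_mul _) ?_
  filter_upwards [covJ_path h hν hθ t S k y hy] with ω hω
  rw [hω, mul_pow, mul_pow, ← pow_mul, mul_comm k 2, pow_mul]
  have hm : (1 - mu ν t S (y k) ω ^ 2) ^ 2 ≤ 1 := by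
    have h1 : mu ν t S (y k) ω ^ 2 ≤ 1 := (sq_le_one_iff_abs_le_one _).2 (abs_mu_le _ _ _ _)
    exact pow_le_one₀ (by linarith) (by linarith [sq_nonneg (mu ν t S (y k) ω)])
  refine (mul_le_of_le_one_right (by positivity) hm).trans
    (mul_le_mul_of_nonneg_left ?_ (by positivity))
  exact (sq _).trans_le (mul_le_of_le_one_left (hP0 ω) (hP1 ω))

/-- Damping along a geodesic leaving the centre of a ball. -/
lemma integral_prod_path_le (h : Reg G d) (hd : 3 ≤ d) (hν : HasMarginals G θ ν) (hθ : |θ| < 1)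
    (hc : bn d * θ ^ 2 = 1) {t1 t : ℝ} (ht : t1 ≤ t) {q : ℝ} {L : ℕ}
    (hL : ∀ e x, G.Adj e x → q ≤ mom ν t1 ((h.ball e L : Set V) ∩ sideOf G e x) e 1)
    {r1 : ℝ} (hr : r1 = kap θ * q) (hr1 : r1 ≤ 1) {v : V} {R : ℕ} {y : ℕ → V}
    {k : ℕ} (hy : Geo G y k) (h0 : y 0 = v) (hk : k ≤ R) :
    ∀ j ≤ k, ∫ ω, ∏ i ∈ Finset.range j,
        edgeWt θ (msg ν G t (h.ball v R : Set V) (y i) (y (i + 1)) ω) ∂probM ν
      ≤ (1 - r1) ^ min j (R - L) := by
  set S : Set V := (h.ball v R : Set V)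
  intro j
  induction j with
  | zero => intro _; simp
  | succ j ih =>
    intro hj
    have hjk : j < k := hj
    have hyj := hy.1 j hjk
    set F : Omega V → ℝ := fun ω =>
      ∏ i ∈ Finset.range j, edgeWt θ (msg ν G t S (y i) (y (i + 1)) ω)
    have hF0 : ∀ ω, 0 ≤ F ω := fun ω =>
      Finset.prod_nonneg fun i _ => edgeWt_nonneg hθ (abs_msg_le _ _ _ _ _)
    have hF1 : ∀ ω, F ω ≤ 1 := fun ω =>
      Finset.prod_le_one (fun i _ => edgeWt_nonneg hθ (abs_msg_le _ _ _ _ _))
        fun i _ => edgeWt_le_one hθ (abs_msg_le _ _ _ _ _)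
    have hFm : Measurable F :=
      Finset.measurable_prod _ fun i _ => (measurable_edgeWt θ).comp (measurable_msg t S _ _)
    have e0 : ∫ ω, ∏ i ∈ Finset.range (j + 1),
        edgeWt θ (msg ν G t S (y i) (y (i + 1)) ω) ∂probM ν
        = ∫ ω, edgeWt θ (msg ν G t S (y j) (y (j + 1)) ω) * F ω ∂probM ν :=
      integral_congr_ae (Eventually.of_forall fun ω => by
        simp only [F, Finset.prod_range_succ]; ring)
    rw [e0]
    have hstep : ∫ ω, edgeWt θ (msg ν G t S (y j) (y (j + 1)) ω) * F ω ∂probM ν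
        ≤ ∫ ω, F ω ∂probM ν :=
      integral_mono (integrable_bdd (((measurable_edgeWt θ).comp (measurable_msg t S _ _)).mul hFm)
          (C := 1) fun ω => by
            rw [abs_of_nonneg (mul_nonneg (edgeWt_nonneg hθ (abs_msg_le _ _ _ _ _)) (hF0 ω))]
            exact mul_le_one₀ (edgeWt_le_one hθ (abs_msg_le _ _ _ _ _)) (hF0 ω) (hF1 ω))
        (integrable_bdd hFm fun ω => by rw [abs_of_nonneg (hF0 ω)]; exact hF1 ω)
        fun ω => mul_le_of_le_one_left (hF0 ω) (edgeWt_le_one hθ (abs_msg_le _ _ _ _ _))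
    rcases le_or_gt (R - L) j with hM | hM
    · refine (hstep.trans (ih (by omega))).trans (le_of_eq ?_)
      rw [min_eq_right hM, min_eq_right (by omega)]
    -- a side branch lying inside the ball
    obtain ⟨e, he⟩ : (((h.nbr (y j)).erase (y (j + 1))).erase (y (j - 1))).Nonempty := by
      rw [← Finset.card_pos]
      have h1 := Finset.pred_card_le_card_erase (a := y (j + 1)) (s := h.nbr (y j))
      have h2 := Finset.pred_card_le_card_erase (a := y (j - 1))
        (s := (h.nbr (y j)).erase (y (j + 1)))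
      rw [h.card_nbr] at h1
      omega
    simp only [Finset.mem_erase, h.mem_nbr] at he
    obtain ⟨he1, he2, he3⟩ := he
    have hdj : G.dist v (y j) = j := by
      rw [← h0, hy.dist_eq h.tree (Nat.zero_le j) hjk.le, Nat.sub_zero]
    have hde : G.dist v e ≤ j + 1 :=
      (h.tree.connected.dist_triangle (v := y j)).trans (by
        rw [hdj, dist_eq_one_iff_adj.2 he3])
    have hball : (h.ball e L : Set V) ⊆ S := fun z hz => by
      rw [Finset.mem_coe, h.mem_ball] at hz ⊢
      have := h.tree.connected.dist_triangle (u := v) (v := e) (w := z)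
      omega
    have hyS : y j ∈ S := by rw [Finset.mem_coe, h.mem_ball, hdj]; omega
    have hfan : θ ^ 2 * q ≤ mom ν t ({y j} ∪ (S ∩ sideOf G e (y j))) (y j) 1 :=
      le_trans (mul_le_mul_of_nonneg_left ((hL e (y j) he3.symm).trans
        (mom_mono ht (Set.inter_subset_inter_left _ hball) e 1)) (sq_nonneg θ))
        (fan_single_ge h hd hν hθ hc he3 t Set.inter_subset_right)
    have hside : {y j} ∪ (S ∩ sideOf G e (y j)) ⊆ S ∩ sideOf G (y j) (y (j + 1)) :=
      Set.union_subset (Set.singleton_subset_iff.2 ⟨hyS, self_mem_sideOf hyj⟩)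
        (Set.inter_subset_inter_right _ (side_subset h hyj he3 he2))
    have key : ∀ (v' : V), G.Adj (y j) v' → ∀ A B : Set V, A ⊆ sideOf G (y j) v' →
        B ⊆ sideOf G v' (y j) → A ∪ B = S ∩ sideOf G (y j) (y (j + 1)) →
        {y j} ∪ (S ∩ sideOf G e (y j)) ⊆ A → Measurable[obsAlg t B] F →
        ∫ ω, edgeWt θ (msg ν G t S (y j) (y (j + 1)) ω) * F ω ∂probM ν
          ≤ (1 - r1) * ∫ ω, F ω ∂probM ν := by
      intro v' hv' A B hA hB hAB hsub hFB
      refine le_trans (le_of_eq ?_) ((step_damp h hν hθ hv' t hA hB hFB hF0 hF1).trans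
        (mul_le_mul_of_nonneg_right ?_ (integral_nonneg hF0)))
      · rw [hAB]; rfl
      · rw [hr, kap, mul_assoc _ (θ ^ 2)]
        exact sub_le_sub_left (mul_le_mul_of_nonneg_left
          (hfan.trans (mom_mono le_rfl hsub _ 1)) (sq_nonneg _)) 1
    have hgain : ∫ ω, edgeWt θ (msg ν G t S (y j) (y (j + 1)) ω) * F ω ∂probM ν
        ≤ (1 - r1) * ∫ ω, F ω ∂probM ν := by
      rcases Nat.eq_zero_or_pos j with hj0 | hj0
      · refine key (y (j + 1)) hyj _ ∅ (Set.inter_subset_right) (Set.empty_subset _)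
          (Set.union_empty _) hside ?_
        have : F = fun _ => 1 := by funext ω; simp [F, hj0]
        rw [this]
        exact measurable_const
      obtain ⟨j', rfl⟩ : ∃ j', j = j' + 1 := ⟨j - 1, by omega⟩
      simp only [Nat.add_sub_cancel] at he1
      have hprev := (hy.1 j' (by omega)).symm
      have hne : y j' ≠ y (j' + 1 + 1) := fun e' => by
        have := hy.dist_eq h.tree (show j' ≤ j' + 2 by omega) (by omega)
        rw [e', SimpleGraph.dist_self] at this
        omega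
      have hsub' := side_subset h hyj hprev hne
      refine key (y j') hprev (S ∩ (sideOf G (y (j' + 1)) (y (j' + 1 + 1))
          ∩ sideOf G (y (j' + 1)) (y j'))) (S ∩ sideOf G (y j') (y (j' + 1)))
        (fun z hz => hz.2.2) Set.inter_subset_right ?_ ?_ ?_
      · ext z
        simp only [Set.mem_union, Set.mem_inter_iff]
        refine ⟨?_, fun hz => ?_⟩
        · rintro (⟨h1, h2, -⟩ | ⟨h1, h2⟩)
          · exact ⟨h1, h2⟩
          · exact ⟨h1, hsub' h2⟩
        · rcases mem_sideOf_or h.tree hprev z with h1 | h1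
          · exact Or.inl ⟨hz.1, hz.2, h1⟩
          · exact Or.inr ⟨hz.1, h1⟩
      · refine Set.union_subset (Set.singleton_subset_iff.2
          ⟨hyS, self_mem_sideOf hyj, self_mem_sideOf hprev⟩) fun z hz => ?_
        exact ⟨hz.1, side_subset h hyj he3 he2 hz.2, side_subset h hprev he3 he1 hz.2⟩
      · refine Finset.measurable_prod _ fun i hi => (measurable_edgeWt θ).comp
          ((measurable_msg_obs t S (y i) (y (i + 1))).mono (obsAlg_mono le_rfl
            (Set.inter_subset_inter_right _ ?_)) le_rfl)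
        exact sideAt_mono h hy (by have := Finset.mem_range.1 hi; omega) (by omega)
    refine hgain.trans ((mul_le_mul_of_nonneg_left (ih (by omega)) (by linarith)).trans
      (le_of_eq ?_))
    rw [min_eq_left hM.le, min_eq_left hM, ← pow_succ']

/-- The covariances outside a ball are small, uniformly in large volumes and late times. -/
theorem tail_bound (h : Reg G d) (hd : 3 ≤ d) (hν : HasMarginals G θ ν) (hθ : |θ| < 1)
    (hc : bn d * θ ^ 2 = 1) {x0 p0 : V} (hx0 : G.Adj x0 p0) {t1 : ℝ} (ht1 : 0 < t1) (K : ℕ)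
    (v : V) :
    ∀ᶠ R in atTop, ∀ r, t1 ≤ r →
      ∑ u ∈ h.ball v R \ h.ball v K, ∫ ω, covJ ν r (h.ball v R : Set V) v u ω ^ 2 ∂probM ν
        ≤ 3 * (1 - kap θ * qe ν G t1 x0 p0 / 2) ^ K / (kap θ * qe ν G t1 x0 p0 / 2) := by
  obtain ⟨c, C, hc0, -, hqb⟩ := qe_bounds h hd hν hθ hc
  have hq : 0 < qe ν G t1 x0 p0 := lt_of_lt_of_le
    (mul_pos hc0 (Real.sqrt_pos.2 (lt_min ht1 one_pos))) (hqb x0 p0 hx0 t1 ht1).1
  obtain ⟨L, hL⟩ := exists_side_ball h hν hx0 t1 hq
  set r1 := kap θ * qe ν G t1 x0 p0 / 2 with hr1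
  have hk := kap_pos hθ hc
  have hr0 : 0 < r1 := by positivity
  have hr2 : r1 ≤ 1 / 2 := by
    rw [hr1]
    exact div_le_div_of_nonneg_right
      (mul_le_one₀ (kap_le_one hθ) hq.le (mom_le_one _ _ _ _)) zero_le_two
  set z := 1 - r1 with hz
  have hz0 : 0 < z := by linarith
  have hz1 : z < 1 := by linarith
  have hsmall : ∀ᶠ R : ℕ in atTop, 2 * (L : ℝ) * z ^ (R - L) ≤ z ^ K / r1 := by
    have hlim : Tendsto (fun R : ℕ => 2 * (L : ℝ) * z ^ (R - L)) atTop (𝓝 0) := by
      simpa using ((tendsto_pow_atTop_nhds_zero_of_lt_one hz0.le hz1).comp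
        (tendsto_sub_atTop_nat L)).const_mul (2 * (L : ℝ))
    exact hlim.eventually_le_const (by positivity)
  filter_upwards [hsmall] with R hR r hr
  set b : ℕ → ℝ := fun k => (θ ^ 2) ^ k * z ^ min k (R - L) with hb
  have hub : ∀ u ∈ h.ball v R \ h.ball v K,
      ∫ ω, covJ ν r (h.ball v R : Set V) v u ω ^ 2 ∂probM ν ≤ b (G.dist v u) := by
    intro u hu
    have hk : G.dist v u ≤ R := h.mem_ball.1 (Finset.mem_sdiff.1 hu).1
    have hy := ray_geo h u v
    rw [G.dist_comm] at hy
    have hlast := ray_last h u v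
    rw [G.dist_comm] at hlast
    have h1 := covJ_sq_le h hν hθ r (h.ball v R : Set V) hy
    rw [ray_zero, hlast] at h1
    exact h1.trans (mul_le_mul_of_nonneg_left
      (integral_prod_path_le h hd hν hθ hc hr hL (by rw [hr1]; ring) (by linarith) hy
        (ray_zero h u v) hk _ le_rfl) (by positivity))
  have hb0 : ∀ k, 0 ≤ b k := fun k => by positivity
  refine (Finset.sum_le_sum hub).trans ?_
  rw [← Finset.sum_fiberwise_of_maps_to (t := Finset.Ico (K + 1) (R + 1)) (g := G.dist v)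
    (fun u hu => by
      simp only [Finset.mem_sdiff, h.mem_ball] at hu
      simp only [Finset.mem_Ico]
      omega)]
  have hfib : ∀ k, ∑ u ∈ (h.ball v R \ h.ball v K).filter (fun u => G.dist v u = k),
      b (G.dist v u) ≤ 2 * z ^ min k (R - L) := by
    intro k
    rw [Finset.sum_congr rfl (fun u hu => by rw [(Finset.mem_filter.1 hu).2]), Finset.sum_const,
      nsmul_eq_mul]
    refine (mul_le_mul_of_nonneg_right (le_trans ?_ (h.card_sphere_le v k)) (hb0 k)).trans
      (le_of_eq ?_)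
    · rw [Set.ncard_eq_toFinset_card _ (h.finite_sphere v k)]
      exact_mod_cast Finset.card_le_card (fun u hu => by simp [(Finset.mem_filter.1 hu).2])
    · rw [hb, show ((d : ℝ) - 1) = bn d from rfl, mul_assoc, ← mul_assoc (bn d ^ k), ← mul_pow, hc,
        one_pow, one_mul]
  refine (Finset.sum_le_sum fun k _ => hfib k).trans ?_
  rw [← Finset.mul_sum]
  have hsplit : ∀ k, z ^ min k (R - L) ≤ z ^ k + if R - L < k then z ^ (R - L) else 0 := by
    intro k
    rcases le_or_gt k (R - L) with h1 | h1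
    · rw [min_eq_left h1, if_neg (by omega), add_zero]
    · rw [min_eq_right h1.le, if_pos h1]; exact le_add_of_nonneg_left (by positivity)
  refine (mul_le_mul_of_nonneg_left (Finset.sum_le_sum fun k _ => hsplit k) zero_le_two).trans ?_
  rw [Finset.sum_add_distrib, ← Finset.sum_filter, Finset.sum_const, nsmul_eq_mul]
  have hgeom : ∑ k ∈ Finset.Ico (K + 1) (R + 1), z ^ k ≤ z ^ K / r1 := by
    refine (geom_sum_Ico_le_of_lt_one hz0.le hz1).trans ?_
    rw [show 1 - z = r1 by rw [hz]; ring]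
    exact div_le_div_of_nonneg_right (pow_le_pow_of_le_one hz0.le hz1.le (Nat.le_succ K)) hr0.le
  have hcard : (((Finset.Ico (K + 1) (R + 1)).filter fun k => R - L < k).card : ℝ) ≤ L := by
    have h1 : ((Finset.Ico (K + 1) (R + 1)).filter fun k => R - L < k)
        ⊆ Finset.Ioc (R - L) R := fun k hk => by
      simp only [Finset.mem_filter, Finset.mem_Ico, Finset.mem_Ioc] at hk ⊢
      omega
    have h2 := Finset.card_le_card h1
    rw [Nat.card_Ioc] at h2
    exact_mod_cast h2.trans (by omega)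
  have h3 := mul_le_mul_of_nonneg_right hcard (pow_nonneg hz0.le (R - L))
  rw [mul_div_assoc]
  linarith

end Vale.Agent.P161
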