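import Vale.Agent.P161.Automorph

/-!
Radial kernels of positive type on a regular tree with exponential decay at rate `(d-1)^(-1/2)`
are bounded by the value at zero times the spherical function of the bottom of the decay range.
-/

open SimpleGraph
open scoped RealInnerProductSpace

set_option linter.unusedSectionVars false

namespace Vale.Agent.P161

universe u v

variable {V : Type u} [DecidableEq V] {G : SimpleGraph V} [DecidableRel G.Adj] {d : ℕ}
variable {H : Type v} [NormedAddCommGroup H] [InnerProductSpace ℝ H]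

/-- The branching number `d - 1`, as a real. -/
def bn (d : ℕ) : ℝ := (d : ℝ) - 1

/-- The critical rate `(d-1)^(-1/2)`. -/
noncomputable def rho (d : ℕ) : ℝ := (Real.sqrt (bn d))⁻¹

lemma two_le_bn (hd : 3 ≤ d) : 2 ≤ bn d := by
  have : (3 : ℝ) ≤ d := by exact_mod_cast hd
  unfold bn; linarith

lemma rho_pos (hd : 3 ≤ d) : 0 < rho d :=
  inv_pos.2 (Real.sqrt_pos.2 (by linarith [two_le_bn hd]))

lemma rho_sq (hd : 3 ≤ d) : bn d * rho d ^ 2 = 1 := by
  rw [rho, inv_pow, Real.sq_sqrt (by linarith [two_le_bn hd]), mul_inv_cancel₀]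
  linarith [two_le_bn hd]

lemma rho_lt_one (hd : 3 ≤ d) : rho d < 1 := by
  nlinarith [rho_sq hd, two_le_bn hd, rho_pos hd]

/-- The action of the adjacency operator on radial functions. -/
def radL (d : ℕ) : (ℕ → ℝ) →ₗ[ℝ] ℕ → ℝ where
  toFun f l := if l = 0 then (d : ℝ) * f 1 else f (l - 1) + bn d * f (l + 1)
  map_add' f g := by
    funext l
    simp only [Pi.add_apply]
    split_ifs <;> ring
  map_smul' c f := by
    funext l
    simp only [Pi.smul_apply, smul_eq_mul, RingHom.id_apply]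
    split_ifs <;> ring

lemma radL_zero (f : ℕ → ℝ) : radL d f 0 = (d : ℝ) * f 1 := rfl

lemma radL_succ (f : ℕ → ℝ) (l : ℕ) : radL d f (l + 1) = f l + bn d * f (l + 2) := rfl

/-- The neighbours of a vertex. -/
noncomputable def Reg.nbr (h : Reg G d) (u : V) : Finset V := (h.finite_nbhd u).toFinset

lemma Reg.mem_nbr (h : Reg G d) {u x : V} : x ∈ h.nbr u ↔ G.Adj u x := by simp [Reg.nbr]

lemma Reg.card_nbr (h : Reg G d) (u : V) : (h.nbr u).card = d := by
  rw [Reg.nbr, ← Set.ncard_eq_toFinset_card _ (h.finite_nbhd u), h.deg]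

/-- The only neighbour closer to a distinct vertex. -/
lemma Reg.exists_toward (h : Reg G d) {u v : V} {l : ℕ} (hl : G.dist u v = l + 1) :
    ∃ p ∈ h.nbr u, G.dist p v = l ∧ ∀ x ∈ h.nbr u, x ≠ p → G.dist x v = l + 2 := by
  obtain ⟨p, hp, hpv⟩ := exists_adj_closer h.tree hl
  refine ⟨p, h.mem_nbr.2 hp, hpv, fun x hx hxp => ?_⟩
  rw [h.mem_nbr] at hx
  rcases dist_succ_or h.tree v hx with h3 | h3
  · refine absurd (h.closer_unique (o := v) hx hp h3.symm ?_) hxp
    rw [G.dist_comm, hpv, G.dist_comm, hl]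
  · rw [G.dist_comm, h3, G.dist_comm, hl]

lemma Reg.sum_nbr_radial (h : Reg G d) (f : ℕ → ℝ) (u v : V) :
    ∑ x ∈ h.nbr u, f (G.dist x v) = radL d f (G.dist u v) := by
  rcases Nat.eq_zero_or_eq_succ_pred (G.dist u v) with hl | hl
  · obtain rfl := (h.tree.connected u v).dist_eq_zero_iff.1 hl
    rw [hl, radL_zero, Finset.sum_congr rfl (g := fun _ => f 1) fun x hx => by
      rw [h.mem_nbr] at hx
      rw [G.dist_comm, dist_eq_one_iff_adj.2 hx]]
    simp [h.card_nbr]
  · obtain ⟨p, hp, hpv, hrest⟩ := h.exists_toward hl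
    rw [hl, radL_succ, ← Finset.add_sum_erase _ _ hp, hpv,
      Finset.sum_congr rfl (g := fun _ => f ((G.dist u v).pred + 2)) fun x hx => by
        rw [hrest x (Finset.mem_of_mem_erase hx) (Finset.ne_of_mem_erase hx)]]
    rw [Finset.sum_const, Finset.card_erase_of_mem hp, h.card_nbr, nsmul_eq_mul, bn,
      Nat.cast_sub (by have := h.two_le; omega), Nat.cast_one]

/-- The pairing of two families is a function of the distance. -/
def Rad (G : SimpleGraph V) (Y Z : V → H) (e : ℕ → ℝ) : Prop :=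
  ∀ u v, ⟪Y u, Z v⟫ = e (G.dist u v)

lemma Rad.symm {Y Z : V → H} {e : ℕ → ℝ} (hr : Rad G Y Z e) : Rad G Z Y e := fun u v => by
  rw [real_inner_comm, hr, G.dist_comm]

/-- The adjacency operator on families. -/
noncomputable def Reg.adjA (h : Reg G d) (Y : V → H) : V → H := fun u => ∑ x ∈ h.nbr u, Y x

lemma Rad.adjA {Y Z : V → H} {e : ℕ → ℝ} (hr : Rad G Y Z e) (h : Reg G d) :
    Rad G (h.adjA Y) Z (radL d e) := fun u v => by
  rw [Reg.adjA, sum_inner, ← h.sum_nbr_radial e u v]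
  exact Finset.sum_congr rfl fun x _ => hr x v

/-- The spherical function at the spectral edge. -/
noncomputable def sph (d : ℕ) (l : ℕ) : ℝ :=
  (1 + l * ((bn d - 1) / (bn d + 1))) * rho d ^ l

lemma sph_nonneg (hd : 3 ≤ d) (l : ℕ) : 0 ≤ sph d l := by
  have := two_le_bn hd
  have := rho_pos hd
  have : 0 ≤ (bn d - 1) / (bn d + 1) := div_nonneg (by linarith) (by linarith)
  unfold sph; positivity

lemma rho_pow_le_sph (hd : 3 ≤ d) (l : ℕ) : rho d ^ l ≤ sph d l := by
  have := two_le_bn hd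
  refine le_mul_of_one_le_left (pow_nonneg (rho_pos hd).le l) ?_
  have : 0 ≤ (l : ℝ) * ((bn d - 1) / (bn d + 1)) :=
    mul_nonneg (Nat.cast_nonneg _) (div_nonneg (by linarith) (by linarith))
  linarith

lemma radL_sph (hd : 3 ≤ d) : radL d (sph d) = (2 * bn d * rho d) • sph d := by
  have h2 := two_le_bn hd
  have hr := rho_sq hd
  have hb : bn d + 1 ≠ 0 := by linarith
  have hd' : (d : ℝ) = bn d + 1 := by unfold bn; ring
  funext l
  rcases l with _ | l
  · simp only [radL_zero, sph, Pi.smul_apply, smul_eq_mul, Nat.cast_one, Nat.cast_zero, pow_one,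
      pow_zero, hd']
    field_simp
    ring
  · simp only [radL_succ, sph, Pi.smul_apply, smul_eq_mul, pow_succ, Nat.cast_succ]
    set b := (bn d - 1) / (bn d + 1)
    linear_combination (-(1 : ℝ) - l * b) * rho d ^ l * hr

/-- Decay at the critical rate. -/
def Good (d : ℕ) (e : ℕ → ℝ) : Prop := ∃ K, ∀ l, |e l| ≤ K * sph d l

lemma abs_radL_le (hd : 3 ≤ d) {e : ℕ → ℝ} {K : ℝ} (he : ∀ l, |e l| ≤ K * sph d l) (l : ℕ) :
    |radL d e l| ≤ 2 * bn d * rho d * K * sph d l := by
  have h2 := two_le_bn hd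
  have hh := congrFun (radL_sph hd) l
  rw [Pi.smul_apply, smul_eq_mul] at hh
  rw [mul_right_comm _ K, ← hh]
  rcases l with _ | l
  · simp only [radL_zero, abs_mul, Nat.abs_cast]
    calc (d : ℝ) * |e 1| ≤ (d : ℝ) * (K * sph d 1) :=
          mul_le_mul_of_nonneg_left (he 1) (Nat.cast_nonneg _)
      _ = _ := by ring
  · simp only [radL_succ]
    refine (abs_add_le _ _).trans ?_
    rw [abs_mul, abs_of_nonneg (show 0 ≤ bn d by linarith)]
    calc |e l| + bn d * |e (l + 2)| ≤ K * sph d l + bn d * (K * sph d (l + 2)) :=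
          add_le_add (he l) (mul_le_mul_of_nonneg_left (he _) (by linarith))
      _ = _ := by ring

lemma Good.radL {e : ℕ → ℝ} (hd : 3 ≤ d) (he : Good d e) :
    Good d (Vale.Agent.P161.radL d e) := by
  obtain ⟨K, hK⟩ := he
  exact ⟨_, fun l => (abs_radL_le hd hK l)⟩

lemma Good.smul {e : ℕ → ℝ} (he : Good d e) (c : ℝ) : Good d (c • e) := by
  obtain ⟨K, hK⟩ := he
  refine ⟨|c| * K, fun l => ?_⟩
  rw [Pi.smul_apply, smul_eq_mul, abs_mul, mul_assoc]
  exact mul_le_mul_of_nonneg_left (hK l) (abs_nonneg c)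

lemma Good.sub {e e' : ℕ → ℝ} (he : Good d e) (he' : Good d e') : Good d (e - e') := by
  obtain ⟨K, hK⟩ := he
  obtain ⟨K', hK'⟩ := he'
  refine ⟨K + K', fun l => ?_⟩
  rw [Pi.sub_apply, add_mul]
  exact (abs_sub _ _).trans (add_le_add (hK l) (hK' l))

/-- The norm of the adjacency operator on radial families with critical decay. -/
lemma Reg.norm_adjA_le (h : Reg G d) (hd : 3 ≤ d) {Y : V → H} {e : ℕ → ℝ} (hr : Rad G Y Y e)
    (he : Good d e) (u : V) : ‖h.adjA Y u‖ ≤ 2 * bn d * rho d * ‖Y u‖ := by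
  obtain ⟨K, hK⟩ := he
  have hlam : 0 < 2 * bn d * rho d := by
    have := two_le_bn hd; have := rho_pos hd; positivity
  set lam := 2 * bn d * rho d with hlamd
  set It : ℕ → V → H := fun i => (h.adjA)^[i] Y with hIt
  set a : ℕ → ℝ := fun k => ((Vale.Agent.P161.radL d)^[k] e) 0 with ha
  have hrad : ∀ i j, Rad G (It i) (It j) ((Vale.Agent.P161.radL d)^[i + j] e) := by
    intro i
    induction i with
    | zero =>
      intro j
      induction j with
      | zero => exact hr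
      | succ j ih =>
        simp only [hIt, Nat.zero_add, Function.iterate_succ_apply'] at ih ⊢
        exact ((ih.symm).adjA h).symm
    | succ i ih =>
      intro j
      rw [show i + 1 + j = (i + j) + 1 by omega]
      simp only [hIt, Function.iterate_succ_apply'] at ih ⊢
      exact (ih j).adjA h
  have hin : ∀ i j, ⟪It i u, It j u⟫ = a (i + j) := fun i j => by
    rw [hrad i j u u, dist_self]
  have hbound : ∀ k l, |((Vale.Agent.P161.radL d)^[k] e) l| ≤ lam ^ k * K * sph d l := by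
    intro k
    induction k with
    | zero => intro l; simpa using hK l
    | succ k ih =>
      intro l
      rw [Function.iterate_succ_apply']
      refine (abs_radL_le hd ih l).trans (le_of_eq ?_)
      rw [hlamd]; ring
  have hnorm : ∀ i, ‖It i u‖ ^ 2 = a (i + i) := fun i => by
    rw [← real_inner_self_eq_norm_sq, hin]
  have hsq : ∀ i, ‖It i u‖ ^ 2 ≤ ‖It (i + i) u‖ * ‖Y u‖ := by
    intro i
    rw [hnorm, ← Nat.add_zero (i + i), ← hin]
    exact real_inner_le_norm _ _
  have hdbl : ∀ j, ‖It 1 u‖ ^ (2 ^ j) ≤ ‖It (2 ^ j) u‖ * ‖Y u‖ ^ (2 ^ j - 1) := by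
    intro j
    induction j with
    | zero => simp
    | succ j ih =>
      have h1 : 2 ^ (j + 1) = 2 ^ j + 2 ^ j := by ring
      calc ‖It 1 u‖ ^ (2 ^ (j + 1)) = (‖It 1 u‖ ^ (2 ^ j)) ^ 2 := by
            rw [← pow_mul, ← pow_succ]
        _ ≤ (‖It (2 ^ j) u‖ * ‖Y u‖ ^ (2 ^ j - 1)) ^ 2 :=
            pow_le_pow_left₀ (by positivity) ih 2
        _ = ‖It (2 ^ j) u‖ ^ 2 * ‖Y u‖ ^ (2 * (2 ^ j - 1)) := by rw [mul_pow, ← pow_mul, mul_comm _ 2]
        _ ≤ ‖It (2 ^ j + 2 ^ j) u‖ * ‖Y u‖ * ‖Y u‖ ^ (2 * (2 ^ j - 1)) :=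
            mul_le_mul_of_nonneg_right (hsq _) (by positivity)
        _ = _ := by
            rw [h1, mul_assoc, ← pow_succ']
            congr 2
            have := Nat.one_le_two_pow (n := j)
            omega
  have h1 : h.adjA Y u = It 1 u := by simp [hIt]
  rw [h1]
  rcases (norm_nonneg (Y u)).eq_or_lt with hY | hY
  · have := hdbl 1
    simp only [← hY] at this
    rw [← hY, mul_zero]
    norm_num at this
    simpa using this
  refine le_of_not_gt fun hgt => ?_
  set r := ‖It 1 u‖ / (lam * ‖Y u‖) with hr'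
  have hr1 : 1 < r := (one_lt_div (by positivity)).2 hgt
  have hbd : ∀ j : ℕ, r ^ (2 ^ j) ≤ Real.sqrt (|K| * sph d 0) / ‖Y u‖ := by
    intro j
    have hI : ‖It (2 ^ j) u‖ ≤ lam ^ (2 ^ j) * Real.sqrt (|K| * sph d 0) := by
      refine le_of_pow_le_pow_left₀ two_ne_zero (by positivity) ?_
      rw [mul_pow, Real.sq_sqrt (mul_nonneg (abs_nonneg _) (sph_nonneg hd 0)), hnorm, ← pow_mul]
      refine (le_abs_self _).trans ((hbound _ 0).trans ?_)
      rw [← mul_assoc, show 2 ^ j + 2 ^ j = 2 ^ j * 2 by ring]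
      gcongr
      · exact sph_nonneg hd 0
      · exact le_abs_self K
    rw [hr', div_pow, div_le_div_iff₀ (by positivity) hY]
    calc ‖It 1 u‖ ^ 2 ^ j * ‖Y u‖ ≤ ‖It (2 ^ j) u‖ * ‖Y u‖ ^ (2 ^ j - 1) * ‖Y u‖ :=
          mul_le_mul_of_nonneg_right (hdbl j) hY.le
      _ = ‖It (2 ^ j) u‖ * ‖Y u‖ ^ (2 ^ j) := by
          rw [mul_assoc, ← pow_succ, Nat.sub_add_cancel Nat.one_le_two_pow]
      _ ≤ lam ^ 2 ^ j * Real.sqrt (|K| * sph d 0) * ‖Y u‖ ^ (2 ^ j) :=
          mul_le_mul_of_nonneg_right hI (by positivity)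
      _ = _ := by ring
  obtain ⟨j, hj⟩ := pow_unbounded_of_one_lt (Real.sqrt (|K| * sph d 0) / ‖Y u‖) hr1
  have h3 : r ^ j ≤ r ^ (2 ^ j) := pow_le_pow_right₀ hr1.le (Nat.lt_two_pow_self).le
  linarith [hbd j]

/-- The normalised spherical operators. -/
noncomputable def sphW (h : Reg G d) (X : V → H) : ℕ → V → H
  | 0 => X
  | 1 => rho d • h.adjA X
  | l + 2 => rho d • h.adjA (sphW h X (l + 1))
      - (if l = 0 then (bn d + 1) / bn d else 1) • sphW h X l

/-- Their action on radial functions. -/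
noncomputable def sphQ (d : ℕ) : ℕ → (ℕ → ℝ) → ℕ → ℝ
  | 0, e => e
  | 1, e => rho d • radL d e
  | l + 2, e => rho d • radL d (sphQ d (l + 1) e)
      - (if l = 0 then (bn d + 1) / bn d else 1) • sphQ d l e

lemma good_sphQ (hd : 3 ≤ d) {e : ℕ → ℝ} (he : Good d e) : ∀ l, Good d (sphQ d l e)
  | 0 => he
  | 1 => (he.radL hd).smul _
  | l + 2 => (((good_sphQ hd he (l + 1)).radL hd).smul _).sub ((good_sphQ hd he l).smul _)

lemma sphQ_radL (d : ℕ) (e : ℕ → ℝ) :
    ∀ l, sphQ d l (radL d e) = radL d (sphQ d l e)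
  | 0 => rfl
  | 1 => by simp [sphQ]
  | l + 2 => by simp only [sphQ, sphQ_radL d e (l + 1), sphQ_radL d e l, map_sub, map_smul]

lemma Rad.sphW (h : Reg G d) {X Z : V → H} {e : ℕ → ℝ} (hr : Rad G X Z e) :
    ∀ l, Rad G (Vale.Agent.P161.sphW h X l) Z (sphQ d l e)
  | 0 => hr
  | 1 => fun u v => by
    simp only [Vale.Agent.P161.sphW, Pi.smul_apply, inner_smul_left, (hr.adjA h) u v, sphQ,
      smul_eq_mul, starRingEnd_apply, star_trivial]
  | l + 2 => fun u v => by
    simp only [Vale.Agent.P161.sphW, Pi.sub_apply, Pi.smul_apply, inner_sub_left, inner_smul_left,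
      ((hr.sphW h (l + 1)).adjA h) u v, hr.sphW h l u v, sphQ, smul_eq_mul,
      starRingEnd_apply, star_trivial]

/-- The size of a sphere. -/
noncomputable def sphCard (d l : ℕ) : ℝ := if l = 0 then 1 else (d : ℝ) * bn d ^ (l - 1)

lemma sphQ_zero (hd : 3 ≤ d) :
    ∀ (l : ℕ) (e : ℕ → ℝ), sphQ d l e 0 = rho d ^ l * sphCard d l * e l := by
  have hb : bn d ≠ 0 := by linarith [two_le_bn hd]
  have hr := rho_sq hd
  have hd' : (d : ℝ) = bn d + 1 := by unfold bn; ring
  intro l
  induction l using Nat.strong_induction_on with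
  | _ l ih =>
    intro e
    match l with
    | 0 => simp [sphQ, sphCard]
    | 1 => simp [sphQ, sphCard, radL_zero]; ring
    | l + 2 =>
      rw [show sphQ d (l + 2) e = rho d • radL d (sphQ d (l + 1) e)
        - (if l = 0 then (bn d + 1) / bn d else 1) • sphQ d l e from rfl, ← sphQ_radL]
      simp only [Pi.sub_apply, Pi.smul_apply, smul_eq_mul]
      rw [ih (l + 1) (by omega), ih l (by omega), radL_succ]
      simp only [sphCard, Nat.add_one_ne_zero, if_false, Nat.add_sub_cancel, pow_succ]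
      rcases l with _ | l
      · simp only [if_true, pow_zero, Nat.reduceAdd]
        field_simp
        rw [hd']
        linear_combination (bn d + 1) * e 0 * hr
      · simp only [Nat.add_one_ne_zero, if_false, Nat.add_sub_cancel, pow_succ]
        rw [show l + 1 + 2 - 1 = l + 2 from rfl, pow_succ, pow_succ]
        linear_combination ((d : ℝ) * rho d ^ l * rho d * bn d ^ l * e (l + 1)) * hr

/-- A radial family with critical decay. -/
theorem Reg.radial_bound (h : Reg G d) (hd : 3 ≤ d) {X : V → H} {c : ℕ → ℝ} (hr : Rad G X X c)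
    (hc : Good d c) (l : ℕ) : |c l| ≤ 8 * (l + 1) * rho d ^ l * c 0 := by
  obtain ⟨o⟩ := h.tree.connected.nonempty
  have hn := two_le_bn hd
  have hρ := rho_pos hd
  set W := Vale.Agent.P161.sphW h X with hW
  have hWW : ∀ i j, Rad G (W i) (W j) (sphQ d i (sphQ d j c)) := fun i j =>
    ((hr.symm.sphW h j).symm.sphW h i)
  have hB : ∀ i, ‖rho d • h.adjA (W i) o‖ ≤ 2 * ‖W i o‖ := by
    intro i
    rw [norm_smul, Real.norm_of_nonneg hρ.le]
    calc rho d * ‖h.adjA (W i) o‖ ≤ rho d * (2 * bn d * rho d * ‖W i o‖) :=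
          mul_le_mul_of_nonneg_left
            (h.norm_adjA_le hd (hWW i i) (good_sphQ hd (good_sphQ hd hc _) _) o) hρ.le
      _ = 2 * (bn d * rho d ^ 2) * ‖W i o‖ := by ring
      _ = _ := by rw [rho_sq hd, mul_one]
  set B : ℕ → H := fun i => rho d • h.adjA (W i) o with hBd
  set E : ℕ → ℝ := fun i =>
    ‖W (i + 1) o‖ ^ 2 + ‖W i o‖ ^ 2 - ⟪B i, W (i + 1) o⟫ with hE
  have hsym : ∀ i j, ⟪B i, W j o⟫ = ⟪W i o, B j⟫ := by
    intro i j
    simp only [hBd, inner_smul_left, inner_smul_right, starRingEnd_apply, star_trivial]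
    rw [((hWW i j).adjA h) o o, (((hWW i j).symm).adjA h).symm o o]
  have hstep : ∀ i, B (i + 2) = W (i + 3) o + W (i + 1) o := by
    intro i
    have : W (i + 3) o = B (i + 2) - W (i + 1) o := by
      simp [hW, hBd, Vale.Agent.P161.sphW]
    rw [this, sub_add_cancel]
  have hconst : ∀ i, E (i + 1) = E 1 := by
    intro i
    induction i with
    | zero => rfl
    | succ i ih =>
      rw [← ih]
      simp only [hE, show i + 1 + 1 = i + 2 from rfl, show i + 2 + 1 = i + 3 from rfl]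
      have e1 : ⟪B (i + 2), W (i + 3) o⟫ = ‖W (i + 3) o‖ ^ 2 + ⟪W (i + 1) o, W (i + 3) o⟫ := by
        rw [hstep, inner_add_left, real_inner_self_eq_norm_sq]
      have e2 : ⟪B (i + 1), W (i + 2) o⟫ = ⟪W (i + 1) o, W (i + 3) o⟫ + ‖W (i + 1) o‖ ^ 2 := by
        rw [hsym, hstep, inner_add_right, real_inner_self_eq_norm_sq]
      linarith
  set N := ‖X o‖ with hN
  have hN0 : 0 ≤ N := norm_nonneg _
  have hW0 : ‖W 0 o‖ = N := rfl
  have hW1 : ‖W 1 o‖ ≤ 2 * N := hB 0
  have hW2 : ‖W 2 o‖ ≤ 6 * N := by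
    have e : W 2 o = B 1 - ((bn d + 1) / bn d) • X o := by
      simp [hW, hBd, Vale.Agent.P161.sphW]
    have h1 : (bn d + 1) / bn d ≤ 2 := by rw [div_le_iff₀ (by linarith)]; linarith
    have h1' : 0 ≤ (bn d + 1) / bn d := div_nonneg (by linarith) (by linarith)
    rw [e]
    refine (norm_sub_le _ _).trans ?_
    rw [norm_smul (α := ℝ) ((bn d + 1) / bn d), Real.norm_of_nonneg h1']
    calc ‖B 1‖ + (bn d + 1) / bn d * N ≤ 2 * ‖W 1 o‖ + 2 * N :=
          add_le_add (hB 1) (mul_le_mul_of_nonneg_right h1 hN0)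
      _ ≤ _ := by linarith
  have hE1 : E 1 ≤ (8 * N) ^ 2 := by
    have hi : |⟪B 1, W 2 o⟫| ≤ (2 * (2 * N)) * (6 * N) :=
      (abs_real_inner_le_norm _ _).trans (mul_le_mul ((hB 1).trans (by linarith)) hW2
        (norm_nonneg _) (by positivity))
    have h1 := pow_le_pow_left₀ (norm_nonneg _) hW1 2
    have h2 := pow_le_pow_left₀ (norm_nonneg _) hW2 2
    have := (abs_le.1 hi).1
    simp only [hE]
    nlinarith
  have hgrow : ∀ i, ‖W i o‖ ≤ 8 * (i + 1) * N := by
    intro i
    induction i with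
    | zero => push_cast; linarith
    | succ i ih =>
      rcases i with _ | i
      · push_cast; linarith
      · have hi : ⟪B (i + 1), W (i + 2) o⟫ ≤ 2 * ‖W (i + 1) o‖ * ‖W (i + 2) o‖ :=
          (real_inner_le_norm _ _).trans (mul_le_mul_of_nonneg_right (hB _) (norm_nonneg _))
        have h3 : (‖W (i + 2) o‖ - ‖W (i + 1) o‖) ^ 2 ≤ (8 * N) ^ 2 := by
          refine le_trans ?_ hE1
          rw [← hconst i]
          simp only [hE]
          nlinarith
        have h4 := (abs_le.1 (abs_le_of_sq_le_sq h3 (by positivity))).2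
        push_cast at ih ⊢
        linarith
  have hc0 : c 0 = N ^ 2 := by
    rw [hN, ← real_inner_self_eq_norm_sq, hr o o, SimpleGraph.dist_self]
  have hkey := abs_real_inner_le_norm (W l o) (X o)
  rw [(hr.sphW h l) o o, SimpleGraph.dist_self, sphQ_zero hd] at hkey
  have hcard : bn d ^ l ≤ sphCard d l := by
    rcases l with _ | l
    · simp [sphCard]
    · simp only [sphCard, Nat.add_one_ne_zero, if_false, Nat.add_sub_cancel, pow_succ']
      exact mul_le_mul_of_nonneg_right (by unfold bn; linarith) (pow_nonneg (by linarith) l)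
  have hpow : (rho d ^ l * bn d ^ l) * rho d ^ l = 1 := by
    rw [← mul_pow, ← mul_pow, show rho d * bn d * rho d = bn d * rho d ^ 2 by ring, rho_sq hd,
      one_pow]
  calc |c l| = (rho d ^ l * bn d ^ l) * rho d ^ l * |c l| := by rw [hpow, one_mul]
    _ ≤ (rho d ^ l * sphCard d l) * rho d ^ l * |c l| := by gcongr
    _ = |rho d ^ l * sphCard d l * c l| * rho d ^ l := by
        have : 0 ≤ rho d ^ l * sphCard d l :=
          le_trans (by positivity) (mul_le_mul_of_nonneg_left hcard (pow_nonneg hρ.le l))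
        rw [abs_mul, abs_of_nonneg this]; ring
    _ ≤ ‖W l o‖ * ‖X o‖ * rho d ^ l := by gcongr
    _ ≤ (8 * (l + 1) * N) * N * rho d ^ l := by gcongr; exact hgrow l
    _ = _ := by rw [hc0]; ring

/-- The bound passes to families approximated by good ones. -/
theorem Reg.radial_bound_approx (h : Reg G d) (hd : 3 ≤ d) {X : V → H}
    (happ : ∀ ε > 0, ∃ (X' : V → H) (c : ℕ → ℝ),
      Rad G X' X' c ∧ Good d c ∧ ∀ u, ‖X' u - X u‖ ≤ ε)
    {M : ℝ} (hM : ∀ u, ‖X u‖ ≤ M) (u v : V) :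
    |⟪X u, X v⟫| ≤ 8 * (G.dist u v + 1) * rho d ^ G.dist u v * M ^ 2 := by
  have hM0 : 0 ≤ M := (norm_nonneg _).trans (hM u)
  set b := 8 * ((G.dist u v : ℝ) + 1) * rho d ^ G.dist u v with hb
  have hb0 : 0 ≤ b := by have := rho_pos hd; positivity
  refine le_of_forall_gt_imp_ge_of_dense fun t ht => ?_
  have hc : Filter.Tendsto (fun ε : ℝ => b * (M + ε) ^ 2 + (2 * M + ε) * ε) (nhds 0)
      (nhds (b * M ^ 2)) := by
    have : Continuous fun ε : ℝ => b * (M + ε) ^ 2 + (2 * M + ε) * ε := by fun_prop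
    simpa using this.tendsto 0
  obtain ⟨ε, hlt, hε⟩ := (((hc.eventually (eventually_lt_nhds ht)).filter_mono
    nhdsWithin_le_nhds).and (eventually_mem_nhdsWithin (s := Set.Ioi (0 : ℝ)))).exists
  obtain ⟨X', c, hrad, hgood, hclose⟩ := happ ε hε
  have hX' : ∀ x, ‖X' x‖ ≤ M + ε := fun x => by
    have := norm_add_le (X' x - X x) (X x)
    rw [sub_add_cancel] at this
    linarith [hM x, hclose x]
  have h1 := h.radial_bound hd hrad hgood (G.dist u v)
  rw [← hrad u v] at h1
  have hc0 : c 0 ≤ (M + ε) ^ 2 := by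
    rw [← SimpleGraph.dist_self (G := G) (v := u), ← hrad u u, real_inner_self_eq_norm_sq]
    exact pow_le_pow_left₀ (norm_nonneg _) (hX' u) 2
  have h2 : |⟪X' u, X' v⟫ - ⟪X u, X v⟫| ≤ (2 * M + ε) * ε := by
    have e : ⟪X' u, X' v⟫ - ⟪X u, X v⟫ = ⟪X' u - X u, X' v⟫ + ⟪X u, X' v - X v⟫ := by
      rw [inner_sub_left, inner_sub_right]; ring
    rw [e]
    refine (abs_add_le _ _).trans ((add_le_add ((abs_real_inner_le_norm _ _).trans
      (mul_le_mul (hclose u) (hX' v) (norm_nonneg _) (le_of_lt hε)))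
      ((abs_real_inner_le_norm _ _).trans
      (mul_le_mul (hM u) (hclose v) (norm_nonneg _) hM0))).trans (le_of_eq ?_))
    ring
  have h3 := abs_sub_abs_le_abs_sub (⟪X u, X v⟫) (⟪X' u, X' v⟫)
  rw [abs_sub_comm (⟪X u, X v⟫)] at h3
  have h4 : b * c 0 ≤ b * (M + ε) ^ 2 := mul_le_mul_of_nonneg_left hc0 hb0
  linarith

end Vale.Agent.P161
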